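import Mathlib.LinearAlgebra.Dual.Lemmas
import Mathlib.LinearAlgebra.Matrix.Trace
import Mathlib.Algebra.Algebra.Bilinear
import Mathlib.Tactic

/-!
# The tangent map of a product of commutators
-/

open Module

namespace Vale.Agent.P011.H698

section maps

variable {R S : Type*} [CommRing R] [Ring S] [Algebra R S]

variable (R) in
/-- The tangent map of `X ↦ ⁅t, X⁆`. -/
def dd (t : Sˣ) : S →ₗ[R] S where
  toFun x := (t : S) * x * ((t⁻¹ : Sˣ) : S) - x
  map_add' x y := by rw [mul_add, add_mul]; abel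
  map_smul' c x := by rw [mul_smul_comm, smul_mul_assoc, RingHom.id_apply, smul_sub]

theorem dd_apply (t : Sˣ) (x : S) : dd R t x = (t : S) * x * ((t⁻¹ : Sˣ) : S) - x := rfl

variable (R) in
/-- The tangent map of `X ↦ ⁅⁅a, X⁆, b⁆`. -/
def cc (a b : Sˣ) : S →ₗ[R] S := -(dd R b).comp (dd R a)

theorem cc_apply (a b : Sˣ) (x : S) : cc R a b x =
    dd R a x - (b : S) * dd R a x * ((b⁻¹ : Sˣ) : S) := by
  rw [cc, LinearMap.neg_apply, LinearMap.comp_apply, dd_apply b, neg_sub]

variable (R) in
/-- The tangent map of the product of commutators. -/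
def Psi (a b : Sˣ) (e : S) : (S × S × S × S) × R →ₗ[R] S :=
  ((((cc R a a).comp (LinearMap.fst R S (S × S × S)) +
    (cc R b a).comp ((LinearMap.fst R S (S × S)).comp (LinearMap.snd R S (S × S × S)))) +
    (cc R a b).comp ((LinearMap.fst R S S).comp ((LinearMap.snd R S (S × S)).comp
      (LinearMap.snd R S (S × S × S))))) +
    (cc R b b).comp ((LinearMap.snd R S S).comp ((LinearMap.snd R S (S × S)).comp
      (LinearMap.snd R S (S × S × S))))).comp (LinearMap.fst R (S × S × S × S) R) +
    (LinearMap.toSpanSingleton R S e).comp (LinearMap.snd R (S × S × S × S) R)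

theorem Psi_apply (a b : Sˣ) (e : S) (x y z w : S) (c : R) : Psi R a b e ((x, y, z, w), c) =
    cc R a a x + cc R b a y + cc R a b z + cc R b b w + c • e := rfl

end maps

section surj

variable {K A : Type*} [Field K] [Ring A] [Algebra K A] [FiniteDimensional K A]

/-- A functional which vanishes on the image of the tangent map is zero. -/
theorem psi_surj (ψ : A →ₗ[K] K) (hsym : ∀ x y, ψ (x * y) = ψ (y * x))
    (hnd : ∀ y, (∀ x, ψ (y * x) = 0) → y = 0) {a b : Aˣ}
    (hc : ∀ y : A, y * a = a * y → y * b = b * y → ∃ c : K, y = algebraMap K A c)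
    (ha : ∃ e : A, e * a = a * e ∧ ψ e ≠ 0) (hb : ∃ e : A, e * b = b * e ∧ ψ e ≠ 0)
    {e : A} (he : ψ e ≠ 0) : Function.Surjective (Psi K a b e) := by
  rw [← LinearMap.range_eq_top]
  by_contra hne
  obtain ⟨l, hl0, hl⟩ := Submodule.exists_le_ker_of_lt_top _ (lt_top_iff_ne_top.mpr hne)
  -- represent the functional
  let B : A →ₗ[K] Dual K A :=
    { toFun := fun y => ψ.comp (LinearMap.mulLeft K y)
      map_add' := fun y z => by
        ext x
        simp [add_mul]
      map_smul' := fun c y => by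
        ext x
        simp }
  have hB : ∀ y x, B y x = ψ (y * x) := fun _ _ => rfl
  have hBi : Function.Injective B := by
    rw [← LinearMap.ker_eq_bot, LinearMap.ker_eq_bot']
    intro y hy
    refine hnd y fun x => ?_
    rw [← hB, hy, LinearMap.zero_apply]
  have hBs : Function.Surjective B :=
    (LinearMap.injective_iff_surjective_of_finrank_eq_finrank
      (Subspace.dual_finrank_eq (K := K) (V := A)).symm).mp hBi
  obtain ⟨y, rfl⟩ := hBs l
  have hker : ∀ v, ψ (y * Psi K a b e v) = 0 := by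
    intro v
    rw [← hB]
    exact hl ⟨v, rfl⟩
  -- adjunction
  have hadj : ∀ (t : Aˣ) (u x : A), ψ (u * dd K t x) = ψ (((t⁻¹ : Aˣ) : A) * u * t * x - u * x) := by
    intro t u x
    rw [dd_apply, mul_sub, map_sub, map_sub]
    congr 1
    rw [← mul_assoc, hsym, ← mul_assoc, ← mul_assoc]
  have hcomm : ∀ (t : Aˣ) (u : A), (∀ x, ψ (u * dd K t x) = 0) → u * t = t * u := by
    intro t u h
    have h1 : ((t⁻¹ : Aˣ) : A) * u * t - u = 0 := by
      refine hnd _ fun x => ?_
      rw [sub_mul, ← hadj, h]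
    rw [sub_eq_zero] at h1
    calc u * t = t * (((t⁻¹ : Aˣ) : A) * u * t) := by
          rw [← mul_assoc, ← mul_assoc, Units.mul_inv, one_mul]
      _ = t * u := by rw [h1]
  have key : ∀ t : Aˣ, (∃ e : A, e * t = t * e ∧ ψ e ≠ 0) → (∀ x, ψ (y * cc K a t x) = 0) →
      (∀ x, ψ (y * cc K b t x) = 0) → y * t = t * y := by
    rintro t ⟨e', he', he'0⟩ h1 h2
    set u := ((t⁻¹ : Aˣ) : A) * y * t - y with hu
    have h3 : ∀ z, ψ (y * dd K t z) = ψ (u * z) := by
      intro z
      rw [hadj, hu, sub_mul]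
    have h4 : ∀ x, ψ (u * dd K a x) = 0 := by
      intro x
      rw [← h3]
      have := h1 x
      rwa [cc, LinearMap.neg_apply, mul_neg, map_neg, neg_eq_zero, LinearMap.comp_apply] at this
    have h5 : ∀ x, ψ (u * dd K b x) = 0 := by
      intro x
      rw [← h3]
      have := h2 x
      rwa [cc, LinearMap.neg_apply, mul_neg, map_neg, neg_eq_zero, LinearMap.comp_apply] at this
    obtain ⟨c, hcu⟩ := hc u (hcomm a u h4) (hcomm b u h5)
    have h6 : ψ (u * e') = 0 := by
      rw [hu, sub_mul, map_sub, sub_eq_zero]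
      have : ((t⁻¹ : Aˣ) : A) * y * t * e' = ((t⁻¹ : Aˣ) : A) * (y * e' * t) := by
        rw [mul_assoc, mul_assoc, ← he', mul_assoc]
      rw [this, hsym, mul_assoc, Units.mul_inv, mul_one]
    have hc0 : c = 0 := by
      rw [hcu, ← Algebra.smul_def, map_smul, smul_eq_mul] at h6
      exact (mul_eq_zero.mp h6).resolve_right he'0
    have h7 : u = 0 := by rw [hcu, hc0, map_zero]
    rw [hu, sub_eq_zero] at h7
    calc y * t = t * (((t⁻¹ : Aˣ) : A) * y * t) := by
          rw [← mul_assoc, ← mul_assoc, Units.mul_inv, one_mul]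
      _ = t * y := by rw [h7]
  have h1 : ∀ x, ψ (y * cc K a a x) = 0 := fun x => by
    have := hker ((x, 0, 0, 0), 0)
    rwa [Psi_apply, map_zero, map_zero, map_zero, zero_smul, add_zero, add_zero, add_zero,
      add_zero] at this
  have h2 : ∀ x, ψ (y * cc K b a x) = 0 := fun x => by
    have := hker ((0, x, 0, 0), 0)
    rwa [Psi_apply, map_zero, map_zero, map_zero, zero_smul, add_zero, add_zero, add_zero,
      zero_add] at this
  have h3 : ∀ x, ψ (y * cc K a b x) = 0 := fun x => by
    have := hker ((0, 0, x, 0), 0)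
    rwa [Psi_apply, map_zero, map_zero, map_zero, zero_smul, add_zero, add_zero, add_zero,
      zero_add] at this
  have h4 : ∀ x, ψ (y * cc K b b x) = 0 := fun x => by
    have := hker ((0, 0, 0, x), 0)
    rwa [Psi_apply, map_zero, map_zero, map_zero, zero_smul, add_zero, add_zero, add_zero,
      zero_add] at this
  obtain ⟨c, hcy⟩ := hc y (key a ha h1 h2) (key b hb h3 h4)
  have h5 := hker ((0, 0, 0, 0), 1)
  rw [Psi_apply, map_zero, map_zero, map_zero, map_zero, one_smul, add_zero, add_zero, add_zero,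
    zero_add, hcy, ← Algebra.smul_def, map_smul, smul_eq_mul] at h5
  have hc0 : c = 0 := (mul_eq_zero.mp h5).resolve_right he
  apply hl0
  rw [hcy, hc0, map_zero, map_zero]

end surj

end Vale.Agent.P011.H698
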