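import Vale.Agent.P011.H698.PlusNear
import Vale.Agent.P011.H698.PlusLin

/-!
# Two elements close to one whose commutators generate
-/

open Module Matrix Topology Polynomial Filter

set_option linter.unusedSectionVars false

namespace Vale.Agent.P011.H698

open Vale.Agent.P011.H465 (UD mem_UD conj_near)

section adjoin

variable {K A : Type*} [Field K] [DivisionRing A] [Algebra K A] [FiniteDimensional K A]

/-- Polynomials in `x` of the same degree generate the same algebra. -/
theorem mem_adjoin_of_degree {x y : A} (hy : y ∈ Algebra.adjoin K {x})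
    (h : (minpoly K x).natDegree = (minpoly K y).natDegree) : x ∈ Algebra.adjoin K {y} := by
  have hx : IsIntegral K x := Algebra.IsIntegral.isIntegral x
  have hle0 : ∀ z ∈ Algebra.adjoin K {x},
      z ∈ Submodule.span K (Set.range fun i : Fin (minpoly K x).natDegree => x ^ (i : ℕ)) := by
    intro z hz
    rw [Algebra.adjoin_singleton_eq_range_aeval] at hz
    obtain ⟨p, hp⟩ := hz
    exact hx.mem_span_pow ⟨p, hp.symm⟩
  have hle : Submodule.span K (Set.range fun i : Fin (minpoly K y).natDegree => y ^ (i : ℕ)) ≤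
      Submodule.span K (Set.range fun i : Fin (minpoly K x).natDegree => x ^ (i : ℕ)) := by
    rw [Submodule.span_le]
    rintro _ ⟨i, rfl⟩
    exact hle0 _ (pow_mem hy _)
  have heq := Submodule.eq_of_le_of_finrank_eq hle (by
    rw [finrank_span_eq_card (linearIndependent_pow y),
      finrank_span_eq_card (linearIndependent_pow x), Fintype.card_fin, Fintype.card_fin, h])
  have h1 := hle0 x (Algebra.subset_adjoin (Set.mem_singleton x))
  rw [← heq] at h1
  refine (Submodule.span_le.mpr ?_ :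
    _ ≤ Subalgebra.toSubmodule (Algebra.adjoin K {y})) h1
  rintro _ ⟨i, rfl⟩
  exact pow_mem (Algebra.subset_adjoin (Set.mem_singleton y)) _

end adjoin

section mat

variable {F : Type*} [Field F] {n : ℕ}

/-- Some power of a split regular matrix has nonzero trace. -/
theorem exists_trace_ne (hn : 0 < n) {g : Matrix (Fin n) (Fin n) F}
    (hg : g ∈ H210.SR (Fin n) F) : ∃ j : ℕ, (g ^ j).trace ≠ 0 := by
  obtain ⟨P, a, ha, rfl⟩ := hg
  by_contra hcon
  push Not at hcon
  have h1 : ∀ j : ℕ, ∑ i, a i ^ j = 0 := by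
    intro j
    have h2 := hcon j
    rw [Units.conj_pow, Matrix.trace_mul_comm, ← mul_assoc, Units.inv_mul, one_mul, diagonal_pow,
      trace_diagonal] at h2
    exact h2
  have h2 : (fun _ : Fin n => (1 : F)) ᵥ* Matrix.vandermonde a = 0 := by
    funext j
    rw [vecMul, dotProduct, Pi.zero_apply]
    simp only [vandermonde_apply, one_mul]
    exact h1 j
  have h3 := Matrix.eq_zero_of_vecMul_eq_zero (Matrix.det_vandermonde_ne_zero_iff.mpr ha) h2
  have h4 := congrFun h3 ⟨0, hn⟩
  exact one_ne_zero h4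

/-- Matrices which commute with a regular diagonal matrix are diagonal. -/
theorem diag_of_commute {a : Fin n → F} (ha : Function.Injective a)
    {M : Matrix (Fin n) (Fin n) F} (h : M * diagonal a = diagonal a * M) :
    M = diagonal fun i => M i i := by
  ext i l
  rw [diagonal_apply]
  by_cases hil : i = l
  · rw [if_pos hil, hil]
  · rw [if_neg hil]
    have h1 := congrFun (congrFun h i) l
    rw [mul_diagonal, diagonal_mul] at h1
    have h2 : (a i - a l) * M i l = 0 := by linear_combination -h1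
    exact (mul_eq_zero.mp h2).resolve_left (sub_ne_zero.mpr fun h => hil (ha h))

/-- An invertible matrix without zero entries. -/
theorem exists_full_entries [Infinite F] : ∃ M : (Matrix (Fin n) (Fin n) F)ˣ,
    ∀ i l, (M : Matrix (Fin n) (Fin n) F) i l ≠ 0 := by
  let J : Matrix (Fin n) (Fin n) F := of fun _ _ => 1
  have h1 : (-J).charpoly ≠ 0 := (Matrix.charpoly_monic _).ne_zero
  obtain ⟨c, hc⟩ := ((Polynomial.finite_setOfPred_isRoot h1).union
    (Set.finite_singleton (-1 : F))).infinite_compl.nonempty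
  rw [Set.mem_compl_iff, Set.mem_union, not_or] at hc
  have h2 : ((Matrix.scalar (Fin n) c) - -J).det ≠ 0 := by
    intro h
    apply hc.1
    change (-J).charpoly.eval c = 0
    rw [Matrix.eval_charpoly, h]
  refine ⟨Matrix.GeneralLinearGroup.mkOfDetNeZero _ h2, fun i l => ?_⟩
  change (Matrix.scalar (Fin n) c - -J) i l ≠ 0
  rw [sub_neg_eq_add, Matrix.add_apply, scalar_apply, diagonal_apply]
  change (if i = l then c else 0) + 1 ≠ 0
  by_cases hil : i = l
  · rw [if_pos hil]
    intro h
    exact hc.2 (eq_neg_of_add_eq_zero_left h)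
  · rw [if_neg hil, zero_add]
    exact one_ne_zero

end mat

section pair

variable {K A F Ω : Type*} [Field K] [StarRing K] [DivisionRing A] [StarRing A] [Algebra K A]
  [StarModule K A] [FiniteDimensional K A] [Algebra.IsCentral K A] [Field F] [Field Ω]
  [Algebra K Ω] {n : ℕ}

/-- The reduced trace. -/
theorem exists_psi (hn : 0 < n) (hA : finrank K A = n ^ 2)
    (f : A →ₐ[K] Matrix (Fin n) (Fin n) Ω) (φ : K →+* F) (g : A →+* Matrix (Fin n) (Fin n) F)
    (hg : ∀ c : K, g (algebraMap K A c) = algebraMap F _ (φ c)) :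
    ∃ ψ : A →ₗ[K] K, (∀ x, (f x).trace = algebraMap K Ω (ψ x)) ∧
      (∀ x, (g x).trace = φ (ψ x)) ∧ ∀ x y, ψ (x * y) = ψ (y * x) := by
  have : Nonempty (Fin n) := ⟨⟨0, hn⟩⟩
  choose t ht using fun x : A => H268.exists_trd hn hA f x
  have hinj := (algebraMap K Ω).injective
  have hgt : ∀ x, (g x).trace = φ (t x) := by
    intro x
    let _ : Algebra K F := φ.toAlgebra
    let g' : A →ₐ[K] Matrix (Fin n) (Fin n) F := { g with commutes' := fun c => hg c }
    obtain ⟨P, -, -, hP⟩ := H268.exists_charpoly hn hA f x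
    have h1 := H268.charpoly_compare' hn hA f g' x hP
    have h2 : t x = -P.coeff (n - 1) := by
      apply hinj
      rw [← ht, Matrix.trace_eq_neg_charpoly_coeff, hP, Polynomial.coeff_map, map_neg,
        Fintype.card_fin]
    have h3 : (g' x).trace = φ (t x) := by
      rw [Matrix.trace_eq_neg_charpoly_coeff, h1, Polynomial.coeff_map, h2, map_neg,
        Fintype.card_fin]
      rfl
    exact h3
  refine ⟨{ toFun := t
            map_add' := fun x y => hinj (by rw [map_add, ← ht, ← ht, ← ht, map_add, trace_add])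
            map_smul' := fun c x => hinj (by
              rw [RingHom.id_apply, smul_eq_mul, map_mul, ← ht, ← ht, map_smul, trace_smul,
                Algebra.smul_def]) }, ht, hgt, fun x y => hinj ?_⟩
  change algebraMap K Ω (t (x * y)) = algebraMap K Ω (t (y * x))
  rw [← ht, ← ht, map_mul, map_mul, trace_mul_comm]

/-- **Two elements close to one whose commutators generate.** -/
theorem exists_pair (hn : 0 < n) (hA : finrank K A = n ^ 2)
    (f : A →ₐ[K] Matrix (Fin n) (Fin n) Ω) (φ : K →+* F) (g : A →+* Matrix (Fin n) (Fin n) F)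
    (hg : ∀ c : K, g (algebraMap K A c) = algebraMap F _ (φ c)) {w : K} (hw : star w ≠ w)
    {σ : A} (hσ : star σ = σ) (hσR : g σ ∈ H210.SR (Fin n) F)
    (hh : ∀ P : (Matrix (Fin n) (Fin n) F)ˣ, ∃ h ∈ UD A, ∀ i l,
      (((P⁻¹ : (Matrix (Fin n) (Fin n) F)ˣ) : Matrix (Fin n) (Fin n) F) * g (h : A) *
        (P : Matrix (Fin n) (Fin n) F)) i l ≠ 0)
    {ι : Type*} [Finite ι] {ν : ι → AbsoluteValue A ℝ}
    (hu : ∀ i x y, ν i (x + y) ≤ max (ν i x) (ν i y))
    (hnrd : ∀ ε : ℝ, 0 < ε → ∃ δ : ℝ, 0 < δ ∧ ∀ (x : A) (c : K), (∀ i, ν i (x - 1) < δ) →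
      (f x).det = algebraMap K Ω c → ∀ i, ν i (algebraMap K A c - 1) < ε)
    {b : ℕ → K} (hbs : ∀ j, star (b j) = b j) (hbi : Function.Injective b)
    (hb0 : ∀ i, Tendsto (fun j => ν i (algebraMap K A (b j))) atTop (𝓝 0)) {ε : ℝ} (hε : 0 < ε) :
    ∃ (a b : Aˣ) (e : A), a ∈ UD A ∧ b ∈ UD A ∧ (f (a : A)).det = 1 ∧ (f (b : A)).det = 1 ∧
      (∀ i, ν i ((a : A) - 1) < ε) ∧ (∀ i, ν i ((b : A) - 1) < ε) ∧
      Function.Surjective (Psi K a b e) ∧ (f e).trace ≠ 0 := by
  classical
  obtain ⟨a, haU, hadet, han, haR, -⟩ := exists_near_SR hn hA f φ g hg hw hσ hσR hu hnrd hbs hbi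
    hb0 hε
  obtain ⟨ψ, hψf, hψg, hψs⟩ := exists_psi hn hA f φ g hg
  obtain ⟨j, hj⟩ := exists_trace_ne hn haR
  have hψa : ψ ((a : A) ^ j) ≠ 0 := by
    intro h
    apply hj
    rw [← map_pow, hψg, h, map_zero]
  obtain ⟨P, μ, hμ, hga⟩ := haR
  obtain ⟨h, hhU, hh⟩ := hh P
  -- the conjugated representation
  let g' : A →+* Matrix (Fin n) (Fin n) F :=
    { toFun := fun x => ((P⁻¹ : (Matrix (Fin n) (Fin n) F)ˣ) : Matrix (Fin n) (Fin n) F) * g x *
        (P : Matrix (Fin n) (Fin n) F)
      map_one' := by rw [map_one, mul_one, Units.inv_mul]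
      map_mul' := fun x z => by
        rw [map_mul]
        calc _ = ((P⁻¹ : (Matrix (Fin n) (Fin n) F)ˣ) : Matrix (Fin n) (Fin n) F) * g x *
            ((P : Matrix (Fin n) (Fin n) F) *
              ((P⁻¹ : (Matrix (Fin n) (Fin n) F)ˣ) : Matrix (Fin n) (Fin n) F)) * g z *
            (P : Matrix (Fin n) (Fin n) F) := by
              rw [Units.mul_inv, mul_one]
              simp only [mul_assoc]
          _ = _ := by simp only [mul_assoc]
      map_zero' := by rw [map_zero, mul_zero, zero_mul]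
      map_add' := fun x z => by rw [map_add, mul_add, add_mul] }
  have hg'v : ∀ x, g' x = ((P⁻¹ : (Matrix (Fin n) (Fin n) F)ˣ) : Matrix (Fin n) (Fin n) F) *
    g x * (P : Matrix (Fin n) (Fin n) F) := fun _ => rfl
  have hg'a : g' (a : A) = diagonal μ := by
    rw [hg'v, hga]
    simp only [← mul_assoc, Units.inv_mul, one_mul]
    rw [mul_assoc, Units.inv_mul, mul_one]
  have hg'h : ∀ i l, g' (h : A) i l ≠ 0 := hh
  have hne : Nonempty (Fin n) := ⟨⟨0, hn⟩⟩
  have hcen : ∀ y : A, y * a = a * y → y * ((h * a * h⁻¹ : Aˣ) : A) =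
      ((h * a * h⁻¹ : Aˣ) : A) * y → ∃ c : K, y = algebraMap K A c := by
    intro y h1 h2
    have h3 : g' y = diagonal fun i => g' y i i := by
      refine diag_of_commute hμ ?_
      rw [← hg'a, ← map_mul, ← map_mul, h1]
    have h4 : (((h⁻¹ : Aˣ) : A) * y * h) * a = a * (((h⁻¹ : Aˣ) : A) * y * h) := by
      have h5 := congrArg (fun x : A => ((h⁻¹ : Aˣ) : A) * x * h) h2
      simp only [Units.val_mul] at h5
      calc (((h⁻¹ : Aˣ) : A) * y * h) * a = ((h⁻¹ : Aˣ) : A) * (y * ((h : A) * a *
            ((h⁻¹ : Aˣ) : A))) * h := by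
            simp only [mul_assoc, Units.inv_mul, mul_one]
        _ = ((h⁻¹ : Aˣ) : A) * ((h : A) * a * ((h⁻¹ : Aˣ) : A) * y) * h := h5
        _ = a * (((h⁻¹ : Aˣ) : A) * y * h) := by
            simp only [← mul_assoc, Units.inv_mul, one_mul]
    have h5 : g' (((h⁻¹ : Aˣ) : A) * y * h) =
        diagonal fun i => g' (((h⁻¹ : Aˣ) : A) * y * h) i i := by
      refine diag_of_commute hμ ?_
      rw [← hg'a, ← map_mul, ← map_mul, h4]
    have h6 : g' y * g' (h : A) = g' (h : A) * g' (((h⁻¹ : Aˣ) : A) * y * h) := by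
      rw [← map_mul, ← map_mul, ← mul_assoc, ← mul_assoc, Units.mul_inv, one_mul]
    rw [h3, h5] at h6
    have h7 : ∀ i l, g' y i i = g' (((h⁻¹ : Aˣ) : A) * y * h) l l := by
      intro i l
      have h8 := congrFun (congrFun h6 i) l
      rw [diagonal_mul, mul_diagonal, mul_comm] at h8
      exact mul_left_cancel₀ (hg'h i l) h8
    have h8 : ∀ i, g' y i i = g' y (Classical.arbitrary _) (Classical.arbitrary _) := fun i =>
      (h7 i i).trans (h7 _ i).symm
    have h9 : ∀ x : A, y * x = x * y := by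
      intro x
      apply RingHom.injective g'
      rw [map_mul, map_mul, h3]
      have h10 : (fun i => g' y i i) = fun _ => g' y (Classical.arbitrary _)
        (Classical.arbitrary _) := funext h8
      rw [h10]
      exact (Matrix.scalar_commute _ (fun _ => Commute.all _ _) (g' x)).eq
    have h10 : y ∈ Subalgebra.center K A := by
      rw [Subalgebra.mem_center_iff]
      exact fun x => (h9 x).symm
    rw [Algebra.IsCentral.center_eq_bot, Algebra.mem_bot] at h10
    obtain ⟨c, hc⟩ := h10
    exact ⟨c, hc.symm⟩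
  refine ⟨a, h * a * h⁻¹, (a : A) ^ j, haU,
    (UD A).mul_mem ((UD A).mul_mem hhU haU) ((UD A).inv_mem hhU), hadet, ?_, han, fun i => ?_, ?_,
    ?_⟩
  · have h1 : (f (h : A)).det * (f ((h⁻¹ : Aˣ) : A)).det = 1 := by
      rw [← det_mul, ← map_mul, Units.mul_inv, map_one, det_one]
    rw [Units.val_mul, Units.val_mul, map_mul, map_mul, det_mul, det_mul, hadet, mul_one, h1]
  · rw [conj_near]
    exact han i
  · refine psi_surj ψ hψs (fun y hy => ?_) hcen ⟨(a : A) ^ j, ?_, hψa⟩
      ⟨(h : A) * (a : A) ^ j * ((h⁻¹ : Aˣ) : A), ?_, ?_⟩ hψa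
    · by_contra hy0
      apply hψa
      have h1 := hy (y⁻¹ * (a : A) ^ j)
      rwa [mul_inv_cancel_left₀ hy0] at h1
    · exact ((Commute.refl (a : A)).pow_left j).eq
    · rw [← Units.val_pow_eq_pow_val, ← Units.val_mul, ← Units.val_mul, ← Units.val_mul,
        ← Units.val_mul]
      congr 1
      group
    · rw [hψs, ← mul_assoc, Units.inv_mul, one_mul]
      exact hψa
  · intro h1
    apply hψa
    apply (algebraMap K Ω).injective
    rw [← hψf, h1, map_zero]

end pair

end Vale.Agent.P011.H698
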