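import Vale.Agent.P011.H465.Open

/-!
# Abelian quotients without continuity are central, every characteristic

`G` is normal in the unitary group `U` of a division ring with finitely many nonarchimedean
absolute values.  A subgroup which contains the commutators of the elements of `G` close to one
contains the commutators `⁅g, v⁆` with `g, v` in `G` and `v` close enough to one.  No continuity is
assumed of the subgroup.
-/

open Topology Filter commutatorElement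

set_option linter.unusedSectionVars false

namespace Vale.Agent.P011.H698

open Vale.Agent.P011.H465 (UD mem_UD topo mem_nhds_topo isTopologicalRing_topo t1_topo
  continuousStar_topo continuousInv_topo nu_one nu_eq nu_inv conj_near stab core core_le core_conj
  comm_comm)

section defs

variable {D : Type*} [DivisionRing D] [StarRing D] {ι : Type*} {ν : ι → AbsoluteValue D ℝ}

/-- The elements of `G` close to one. -/
def VG (hu : ∀ i x y, ν i (x + y) ≤ max (ν i x) (ν i y)) (G : Subgroup Dˣ) {ε : ℝ} (h0 : 0 < ε)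
    (h1 : ε ≤ 1) : Subgroup Dˣ where
  carrier := {g | g ∈ G ∧ ∀ i, ν i ((g : D) - 1) < ε}
  one_mem' := ⟨G.one_mem, fun i => by rw [Units.val_one, sub_self, map_zero]; exact h0⟩
  mul_mem' := by
    rintro a b ⟨ha, ha'⟩ ⟨hb, hb'⟩
    refine ⟨G.mul_mem ha hb, fun i => ?_⟩
    have h2 : ((a * b : Dˣ) : D) - 1 = (a : D) * ((b : D) - 1) + ((a : D) - 1) := by
      rw [Units.val_mul, mul_sub, mul_one, sub_add_sub_cancel]
    have h3 : ν i (a : D) = 1 := by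
      rw [← nu_one (ν := ν i)]
      exact nu_eq (hu i) (by rw [nu_one]; exact (ha' i).trans_le h1)
    rw [h2]
    refine lt_of_le_of_lt (hu i _ _) (max_lt ?_ (ha' i))
    rw [map_mul, h3, one_mul]
    exact hb' i
  inv_mem' := by
    rintro a ⟨ha, ha'⟩
    refine ⟨G.inv_mem ha, fun i => ?_⟩
    have h3 : ν i (a : D) = 1 := by
      rw [← nu_one (ν := ν i)]
      exact nu_eq (hu i) (by rw [nu_one]; exact (ha' i).trans_le h1)
    have h2 : ((a⁻¹ : Dˣ) : D) - 1 = -(((a⁻¹ : Dˣ) : D) * ((a : D) - 1)) := by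
      rw [mul_sub, Units.inv_mul, mul_one, neg_sub]
    rw [h2, AbsoluteValue.map_neg, map_mul, Units.val_inv_eq_inv_val, nu_inv, h3, inv_one,
      one_mul]
    exact ha' i

theorem mem_VG {hu : ∀ i x y, ν i (x + y) ≤ max (ν i x) (ν i y)} {G : Subgroup Dˣ} {ε : ℝ}
    {h0 : 0 < ε} {h1 : ε ≤ 1} {g : Dˣ} :
    g ∈ VG hu G h0 h1 ↔ g ∈ G ∧ ∀ i, ν i ((g : D) - 1) < ε := Iff.rfl

end defs

section gen

variable {U' : Type*} [Group U']

/-- If the elements of a generating set commute pairwise modulo a normal subgroup, all commutators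
lie in it. -/
theorem comm_mem_of_gen {S T : Subgroup U'} (hTn : ∀ u ∈ S, ∀ x ∈ T, u * x * u⁻¹ ∈ T)
    {X : Set U'} (hXS : X ⊆ S) (hX : S ≤ Subgroup.closure X)
    (h : ∀ a ∈ X, ∀ b ∈ X, ⁅a, b⁆ ∈ T) : ⁅S, S⁆ ≤ T := by
  have h1 : ∀ b ∈ X, ∀ a ∈ S, ⁅a, b⁆ ∈ T := by
    intro b hb a ha
    have h2 : ∀ a ∈ Subgroup.closure X, a ∈ S ∧ ⁅a, b⁆ ∈ T := by
      intro a ha
      induction ha using Subgroup.closure_induction with
      | mem a ha => exact ⟨hXS ha, h a ha b hb⟩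
      | one => exact ⟨S.one_mem, by rw [commutatorElement_one_left]; exact T.one_mem⟩
      | mul a c _ _ ha hc =>
        refine ⟨S.mul_mem ha.1 hc.1, ?_⟩
        have e : ⁅a * c, b⁆ = (a * ⁅c, b⁆ * a⁻¹) * ⁅a, b⁆ := by
          simp only [commutatorElement_def]; group
        rw [e]
        exact T.mul_mem (hTn a ha.1 _ hc.2) ha.2
      | inv a _ ha =>
        refine ⟨S.inv_mem ha.1, ?_⟩
        have e : ⁅a⁻¹, b⁆ = a⁻¹ * ⁅a, b⁆⁻¹ * a⁻¹⁻¹ := by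
          simp only [commutatorElement_def]; group
        rw [e]
        exact hTn _ (S.inv_mem ha.1) _ (T.inv_mem ha.2)
    exact (h2 a (hX ha)).2
  rw [Subgroup.commutator_le]
  intro a ha b hb
  have h2 : ∀ b ∈ Subgroup.closure X, b ∈ S ∧ ⁅b, a⁆ ∈ T := by
    intro b hb
    induction hb using Subgroup.closure_induction with
    | mem b hb =>
      refine ⟨hXS hb, ?_⟩
      rw [← commutatorElement_inv]
      exact T.inv_mem (h1 b hb a ha)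
    | one => exact ⟨S.one_mem, by rw [commutatorElement_one_left]; exact T.one_mem⟩
    | mul b c _ _ hb hc =>
      refine ⟨S.mul_mem hb.1 hc.1, ?_⟩
      have e : ⁅b * c, a⁆ = (b * ⁅c, a⁆ * b⁻¹) * ⁅b, a⁆ := by
        simp only [commutatorElement_def]; group
      rw [e]
      exact T.mul_mem (hTn b hb.1 _ hc.2) hb.2
    | inv b _ hb =>
      refine ⟨S.inv_mem hb.1, ?_⟩
      have e : ⁅b⁻¹, a⁆ = b⁻¹ * ⁅b, a⁆⁻¹ * b⁻¹⁻¹ := by
        simp only [commutatorElement_def]; group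
      rw [e]
      exact hTn _ (S.inv_mem hb.1) _ (T.inv_mem hb.2)
  rw [← commutatorElement_inv]
  exact T.inv_mem (h2 b (hX hb)).2

end gen

section main

variable {K D : Type*} [Field K] [DivisionRing D] [StarRing D] [Algebra K D]
  {ι : Type*} [Finite ι] [Nonempty ι] {ν : ι → AbsoluteValue D ℝ}

/-- **Commutators close to one lie in every large subgroup**, every characteristic. -/
theorem open_comm_gen (hu : ∀ i x y, ν i (x + y) ≤ max (ν i x) (ν i y))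
    (hs : ∀ i, ∃ j, ∀ x, ν i (star x) = ν j x) {G : Subgroup Dˣ} (hGU : G ≤ UD D)
    (hcomm : ⁅UD D, UD D⁆ ≤ G)
    (hdU : ∀ g ∈ G, ∀ ε : ℝ, 0 < ε → ∃ w ∈ ⁅UD D, UD D⁆, ∀ i, ν i (((w⁻¹ * g : Dˣ) : D) - 1) < ε)
    {X : Set Dˣ} (hXU : X ⊆ UD D) (hgen : UD D ≤ Subgroup.closure X)
    (hX : ∀ u ∈ X, ∀ ε : ℝ, 0 < ε → ∃ e ∈ G, (∀ i, ν i ((e : D) - 1) < ε) ∧
      (u : D) ∈ Algebra.adjoin K {(e : D)})
    (hloc : ∀ (ε₀ : ℝ) (h0 : 0 < ε₀) (h1 : ε₀ ≤ 1), ∃ ε : ℝ, 0 < ε ∧ ∀ h ∈ G,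
      (∀ i, ν i ((h : D) - 1) < ε) → ∀ δ : ℝ, 0 < δ →
        ∃ x ∈ ⁅VG hu G h0 h1, VG hu G h0 h1⁆, ∀ i, ν i ((x : D) - h) < δ)
    {M : Subgroup Dˣ} {ε₀ : ℝ} (hε₀ : 0 < ε₀)
    (hMab : ∀ g ∈ G, (∀ i, ν i ((g : D) - 1) < ε₀) → ∀ h ∈ G,
      (∀ i, ν i ((h : D) - 1) < ε₀) → ⁅g, h⁆ ∈ M) :
    ∃ ε : ℝ, 0 < ε ∧ ∀ g ∈ G, ∀ v ∈ G, (∀ i, ν i ((v : D) - 1) < ε) → ⁅g, v⁆ ∈ M := by
  classical
  -- the topology
  let _ := topo ν
  have _ : IsTopologicalRing D := isTopologicalRing_topo ν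
  have _ : T1Space D := t1_topo ν
  have _ : ContinuousStar D := continuousStar_topo ν hs
  have _ : ContinuousInv₀ D := continuousInv_topo ν hu
  have hGconj : ∀ u ∈ UD D, ∀ g ∈ G, u * g * u⁻¹ ∈ G := by
    intro u hu' g hg
    have e : u * g * u⁻¹ = ⁅u, g⁆ * g := by rw [commutatorElement_def]; group
    rw [e]
    exact G.mul_mem (hcomm (Subgroup.commutator_mem_commutator hu' (hGU hg))) hg
  -- the radii
  obtain ⟨ε₁, h01, h11, h1e⟩ : ∃ ε₁ : ℝ, 0 < ε₁ ∧ ε₁ ≤ 1 ∧ ε₁ ≤ ε₀ :=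
    ⟨min 1 ε₀, lt_min one_pos hε₀, min_le_left _ _, min_le_right _ _⟩
  obtain ⟨ε₂, h02, hroot⟩ := hloc ε₁ h01 h11
  obtain ⟨ε, h0, h1, h2⟩ : ∃ ε : ℝ, 0 < ε ∧ ε ≤ ε₁ ∧ ε ≤ ε₂ :=
    ⟨min ε₁ ε₂, lt_min h01 h02, min_le_left _ _, min_le_right _ _⟩
  have hε1 : ε ≤ 1 := h1.trans h11
  obtain ⟨V, hV⟩ : ∃ V, V = VG hu G h0 hε1 := ⟨_, rfl⟩
  have memV : ∀ {g : Dˣ}, g ∈ V ↔ g ∈ G ∧ ∀ i, ν i ((g : D) - 1) < ε := by
    intro g
    rw [hV, mem_VG]
  -- the commutators of `V₁` are in the core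
  have hcab : ⁅VG hu G h01 h11, VG hu G h01 h11⁆ ≤ core M := by
    rw [Subgroup.commutator_le]
    intro g hg h hh u hu'
    rw [mem_VG] at hg hh
    have h3 : u * ⁅g, h⁆ * u⁻¹ = ⁅u * g * u⁻¹, u * h * u⁻¹⁆ := by
      simp only [commutatorElement_def]; group
    rw [h3]
    refine hMab _ (hGconj _ hu' _ hg.1) (fun i => ?_) _ (hGconj _ hu' _ hh.1) fun i => ?_
    · rw [conj_near]
      exact (hg.2 i).trans_le h1e
    · rw [conj_near]
      exact (hh.2 i).trans_le h1e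
  have hVV : V ≤ VG hu G h01 h11 := fun g hg => by
    rw [memV] at hg
    exact mem_VG.mpr ⟨hg.1, fun i => (hg.2 i).trans_le h1⟩
  have hVU : V ≤ UD D := fun g hg => hGU (memV.mp hg).1
  have hVn : ∀ u ∈ UD D, ∀ x ∈ V, u * x * u⁻¹ ∈ V := by
    intro u hu' x hx
    rw [memV] at hx ⊢
    refine ⟨hGconj u hu' x hx.1, fun i => ?_⟩
    rw [conj_near]
    exact hx.2 i
  obtain ⟨N, hNdef⟩ : ∃ N, N = core M ⊓ V := ⟨_, rfl⟩
  have hNV : N ≤ V := hNdef ▸ inf_le_right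
  have hN : ∀ u ∈ UD D, ∀ x ∈ N, u * x * u⁻¹ ∈ N := by
    rw [hNdef]
    exact fun u hu' x hx => ⟨core_conj hu' hx.1, hVn u hu' x hx.2⟩
  have hab : ⁅V, V⁆ ≤ N := by
    rw [hNdef]
    refine le_inf ((Subgroup.commutator_mono hVV hVV).trans hcab) ?_
    rw [Subgroup.commutator_le]
    intro x hx y hy
    rw [commutatorElement_def]
    exact V.mul_mem (V.mul_mem (V.mul_mem hx hy) (V.inv_mem hx)) (V.inv_mem hy)
  have hopen : ∃ O ∈ 𝓝 (1 : D), ∀ g ∈ G, (g : D) ∈ O → g ∈ V :=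
    ⟨{x | ∀ i, ν i (x - 1) < ε}, (mem_nhds_topo ν).mpr ⟨ε, h0, fun y hy => hy⟩,
      fun x hx hxO => memV.mpr ⟨hx, hxO⟩⟩
  have hdense : ∀ h ∈ V, ∀ O ∈ 𝓝 (h : D), ∃ x ∈ N, (x : D) ∈ O := by
    intro h hh O hO
    obtain ⟨δ, hδ, hδO⟩ := (mem_nhds_topo ν).mp hO
    rw [memV] at hh
    obtain ⟨x, hx, hxδ⟩ := hroot h hh.1 (fun i => (hh.2 i).trans_le h2) (min δ ε) (lt_min hδ h0)
    refine ⟨x, ?_, hδO _ fun i => (hxδ i).trans_le (min_le_left _ _)⟩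
    rw [hNdef]
    refine ⟨hcab hx, memV.mpr ⟨?_, fun i => ?_⟩⟩
    · refine (Subgroup.commutator_le.mpr fun a ha b hb => ?_ :
        ⁅VG hu G h01 h11, VG hu G h01 h11⁆ ≤ G) hx
      rw [mem_VG] at ha hb
      rw [commutatorElement_def]
      exact G.mul_mem (G.mul_mem (G.mul_mem ha.1 hb.1) (G.inv_mem ha.1)) (G.inv_mem hb.1)
    · have h3 : (x : D) - 1 = ((x : D) - h) + ((h : D) - 1) := by rw [sub_add_sub_cancel]
      rw [h3]
      exact lt_of_le_of_lt (hu i _ _) (max_lt ((hxδ i).trans_le (min_le_right _ _)) (hh.2 i))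
  -- the commutators act trivially
  have hstabn : ∀ u ∈ UD D, ∀ x ∈ stab V hN, u * x * u⁻¹ ∈ stab V hN := by
    rintro u hu' x ⟨hx, hx'⟩
    refine ⟨(UD D).mul_mem ((UD D).mul_mem hu' hx) ((UD D).inv_mem hu'), fun h hh => ?_⟩
    have h3 : ⁅u * x * u⁻¹, h⁆ = u * ⁅x, u⁻¹ * h * u⁻¹⁻¹⁆ * u⁻¹ := by
      simp only [commutatorElement_def]; group
    rw [h3]
    exact hN u hu' _ (hx' _ (hVn u⁻¹ ((UD D).inv_mem hu') h hh))
  have hle : ⁅UD D, UD D⁆ ≤ stab V hN := by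
    refine comm_mem_of_gen hstabn hXU hgen fun a ha b hb => ?_
    refine ⟨?_, fun h hh => ?_⟩
    · rw [commutatorElement_def]
      exact (UD D).mul_mem ((UD D).mul_mem ((UD D).mul_mem (hXU ha) (hXU hb))
        ((UD D).inv_mem (hXU ha))) ((UD D).inv_mem (hXU hb))
    · obtain ⟨e₁, he₁, he₁n, hae⟩ := hX a ha ε h0
      obtain ⟨e₂, he₂, he₂n, hbe⟩ := hX b hb ε h0
      exact comm_comm (K := K) hVU hNV hcomm hN hab hopen hdense (hXU ha) (hXU hb)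
        ⟨e₁, memV.mpr ⟨he₁, he₁n⟩, hae⟩ ⟨e₂, memV.mpr ⟨he₂, he₂n⟩, hbe⟩ hh
  refine ⟨ε, h0, fun g hg v hv hvε => ?_⟩
  obtain ⟨w, hw, hwO⟩ := hdU g hg ε h0
  have h3 : w⁻¹ * g ∈ V := memV.mpr ⟨G.mul_mem (G.inv_mem (hcomm hw)) hg, hwO⟩
  have h4 : w⁻¹ * g ∈ stab V hN :=
    ⟨hVU h3, fun x hx => hab (Subgroup.commutator_mem_commutator h3 hx)⟩
  have h5 : g ∈ stab V hN := by
    have e : g = w * (w⁻¹ * g) := by group
    rw [e]
    exact (stab V hN).mul_mem (hle hw) h4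
  have h6 := h5.2 v (memV.mpr ⟨hv, hvε⟩)
  rw [hNdef] at h6
  exact core_le M h6.1

end main

end Vale.Agent.P011.H698
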