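import Vale.Agent.P011.H698.Rem

/-!
# Function fields: removing the places which are not of division type, and solvability

`LocE` at the split places which are not of division type; `rem_FF`; the derived series of `G(k)`;
`solvable_of_core_FF'`: the remaining hypotheses are strong approximation, the core, and `LocE` at
the places which do not split in `K`.
-/

open Module Matrix Topology commutatorElement TensorProduct

set_option linter.unusedSectionVars false

namespace Vale.Agent.P011.H698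

open Vale.Agent.P011.H738 Vale.Agent.P011.H271 Vale.Agent.P011.H74 Vale.Agent.P011.H976

variable {k K A Ω : Type} [Field k] [Field K] [StarRing K] [Ring A] [StarRing A]
  [Algebra k K] [Algebra k A] [Algebra K A] [IsScalarTower k K A] [StarModule K A] {n N : ℕ}
  [Field Ω] [Algebra K Ω]

theorem infinite_of_place {k : Type} [Field k] (v : Place k) : Infinite k := by
  obtain ⟨x, hx⟩ := v.normalized.2.1
  have hx1 : 1 < v.abv x := by
    rw [hx]
    exact one_lt_qq' v
  refine Infinite.of_injective (fun m : ℕ => x ^ m) fun a b hab => ?_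
  have h1 : v.abv x ^ a = v.abv x ^ b := by
    rw [← map_pow, ← map_pow]
    exact congrArg v.abv hab
  exact pow_right_injective₀ (by linarith) hx1.ne' h1

/-- **The local property at the split places which are not of division type.** -/
theorem locE_split_place [StarLinR k A] (hA : Anis k K A n) (hn : n ≠ 0) (B : Basis (Fin N) k A)
    {v : Place k} (φ : K →ₐ[k] v.comp) (hv : v ∉ Adiv k K A) : LocE (BR B v.comp) := by
  classical
  letI : Algebra K v.comp := (φ : K →+* v.comp).toAlgebra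
  have hcen := hA.central
  have hsim := hA.simple
  have htow : ∀ c : k, algebraMap K v.comp (algebraMap k K c) = algebraMap k v.comp c := fun c =>
    φ.commutes c
  have hx : ∃ x : v.comp ⊗[K] A, x ≠ 0 ∧ ¬ IsUnit x := by
    by_contra hcon
    push Not at hcon
    exact hv ⟨φ, hcon⟩
  obtain ⟨x, hx0, hx⟩ := hx
  have hRs : IsSimpleRing (v.comp ⊗[K] A) := H268.isSimpleRing_baseChange
  have hfr : finrank v.comp (v.comp ⊗[K] A) = n ^ 2 := by
    rw [Module.finrank_baseChange, hA.finrank_eq]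
  have hfd : FiniteDimensional v.comp (v.comp ⊗[K] A) :=
    FiniteDimensional.of_finrank_pos (by rw [hfr]; positivity)
  let g : A →+* v.comp ⊗[K] A := (Algebra.TensorProduct.includeRight : A →ₐ[K] _).toRingHom
  have hgv : ∀ x : A, g x = 1 ⊗ₜ[K] x := fun _ => rfl
  have hφ : ∀ c : K, g (algebraMap K A c) = algebraMap v.comp (v.comp ⊗[K] A) (φ c) := by
    intro c
    rw [hgv, Algebra.algebraMap_eq_smul_one, ← TensorProduct.smul_tmul,
      Algebra.TensorProduct.algebraMap_apply, Algebra.smul_def, mul_one]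
    rfl
  have hg : ∀ (c : k) (x : A), g (c • x) = algebraMap k v.comp c • g x := by
    intro c x
    rw [← algebraMap_smul K c x, Algebra.smul_def, map_mul, hφ, φ.commutes, Algebra.smul_def]
  have hspan : Submodule.span v.comp (Set.range g) = ⊤ := by
    rw [eq_top_iff]
    rintro y -
    induction y using TensorProduct.induction_on with
    | zero => exact Submodule.zero_mem _
    | tmul r a =>
      have h1 : r ⊗ₜ[K] a = r • ((1 : v.comp) ⊗ₜ[K] a) := by
        rw [TensorProduct.smul_tmul', smul_eq_mul, mul_one]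
      rw [h1]
      exact Submodule.smul_mem _ _ (Submodule.subset_span ⟨a, rfl⟩)
    | add y y' h h' => exact Submodule.add_mem _ h h'
  obtain ⟨a, ha0, ha4⟩ : ∃ a : v.comp, a ≠ 0 ∧ a ^ 4 ≠ 1 := by
    obtain ⟨x, hx⟩ := v.normalized.2.1
    have h1 : 1 < ‖algebraMap k v.comp x‖ := by
      rw [norm_alg, hx]
      exact one_lt_qq' v
    refine ⟨algebraMap k v.comp x, ?_, ?_⟩
    · intro h
      rw [h, norm_zero] at h1
      linarith
    · intro h
      have h2 : 1 < ‖algebraMap k v.comp x‖ ^ 4 := one_lt_pow₀ h1 (by norm_num)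
      rw [← norm_pow, h, norm_one] at h2
      exact lt_irrefl _ h2
  refine locE_of_bij (extA (bcrT B v.comp) hg)
    (bij_split (bcrT B v.comp) hA φ hφ hg hspan hfr hn) fun Γ hΓ hns S T => ?_
  exact comm_mem_simple (F := v.comp) ha0 ha4 hx0 hx hns S T

/-- **Removing places.** -/
theorem rem_FF [StarLinR k A] (hk : IsGlobalFunctionField k) (hA : Anis k K A n) (hn : 3 ≤ n)
    (f : A →ₐ[K] Matrix (Fin n) (Fin n) Ω) (B : Basis (Fin N) k A)
    (hns : ∀ v : Place k, IsEmpty (K →ₐ[k] v.comp) → LocE (BR B v.comp))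
    (Q : Subgroup (UA A)) (hQn : Q.Normal) (hQ : Q ≤ GA f) (hQF : (Q : Set (UA A)) ∈ FNr f B) :
    ∃ T : Finset (Place k), (∀ v ∈ T, v ∈ Adiv k K A) ∧ ∃ ε : ℝ, 0 < ε ∧
      ∀ a ∈ GA f, ∀ b ∈ GA f,
        (∀ v ∈ T, Sm B v ε ((((⁅a, b⁆ : UA A) : Aˣ) : A) - 1)) → ⁅a, b⁆ ∈ Q := by
  classical
  have hgff := gff_of_isGlobal hk
  have hn0 : n ≠ 0 := by omega
  have hinf : Infinite k := by
    obtain ⟨q, -⟩ := H519.exists_split_place hk hA hn0 ∅ 0
    exact infinite_of_place q
  obtain ⟨T, ε, hε, hT⟩ := mem_FNr.mp hQF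
  -- an element of `Q` which is not central
  obtain ⟨u, hu, a₀, x₀, hx₀⟩ : ∃ u ∈ Q, ∃ a : UA A, ∃ x : A,
      (((⁅a, u⁆ : UA A) : Aˣ) : A) * x ≠ x * (((⁅a, u⁆ : UA A) : Aˣ) : A) := by
    obtain ⟨T', hTT', hT'⟩ := exists_big B T
    obtain ⟨q, hq, -, φ, g, hφ, -, hspan⟩ := H519.exists_split_place hk hA hn0 T 0
    obtain ⟨u, hu, hu', hun⟩ := exists_noncentral hA (by omega) hφ hspan f B hT' hε
    have huQ : u ∈ Q := by
      refine hT u hu fun v hv => hu'.1 v (hTT' hv) ?_
      rw [Set.mem_singleton_iff]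
      rintro rfl
      exact hq hv
    obtain ⟨a, x, hx⟩ := exists_comm_noncentral hA hn hφ hspan hun
    exact ⟨u, huQ, a, x, hx⟩
  let E : T → Type := fun v => BR B (v : Place k).comp
  let H : ∀ v : T, BCR k (v : Place k).comp A (BR B (v : Place k).comp) (Fin N) := fun v =>
    bcrT B (v : Place k).comp
  let ι : ∀ v : T, UA A →* UA (BR B (v : Place k).comp) := fun v => jUA (H v)
  have hcoord : ∀ (v : T) (x : A) (i : Fin N),
      ‖(H v).φ ((H v).j x) i‖ = (v : Place k).abv (B.repr x i) := by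
    intro v x i
    rw [(H v).φ_eq, norm_alg]
    rfl
  -- density
  have hdense : DenseRange fun (g : UA A) (v : T) => ι v g := by
    intro p
    rw [mem_closure_iff_nhds]
    intro O hO
    rw [nhds_pi, Filter.mem_pi] at hO
    obtain ⟨I, -, W, hW, hIW⟩ := hO
    choose δ hδ hδW using fun v : T => nhds_UA (H v) (p v) (hW v)
    obtain ⟨η, hη, hηδ⟩ := exists_pos_le δ hδ
    obtain ⟨g, hg⟩ := weak_unitary hA B T (fun v => (((p v : UA (BR B (v : Place k).comp)) :
      (BR B (v : Place k).comp)ˣ) : BR B (v : Place k).comp))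
      (fun v => ua_mul_star (p v)) (fun v => ua_star_mul (p v)) hη
    refine ⟨fun v => ι v g, hIW fun v _ => hδW v _ fun i => ?_, g, rfl⟩
    exact (hg v i).trans_le (hηδ v)
  have hO : {p : ∀ v : T, UA (BR B (v : Place k).comp) | ∀ v i,
      ‖(H v).φ ((((p v : UA (BR B (v : Place k).comp)) : (BR B (v : Place k).comp)ˣ) :
        BR B (v : Place k).comp) - 1) i‖ < ε} ∈ 𝓝 (1 : ∀ v : T, UA (BR B (v : Place k).comp)) := by
    have h1 := set_pi_mem_nhds (x := (1 : ∀ v : T, UA (BR B (v : Place k).comp)))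
      (Set.toFinite (Set.univ : Set T)) fun v _ => box_mem (H v) (1 : UA (BR B (v : Place k).comp)) hε
    refine Filter.mem_of_superset h1 fun p hp v i => ?_
    exact hp v (Set.mem_univ v) i
  obtain ⟨W, hW, hWQ⟩ := rem_abs ι hdense Q (GA f) hQ hO
    (fun g hg hgO => hT g hg fun v hv i => by
      have h1 := hgO ⟨v, hv⟩ i
      change ‖(H ⟨v, hv⟩).φ ((H ⟨v, hv⟩).j ((g : Aˣ) : A) - 1) i‖ < ε at h1
      rw [← map_one (H ⟨v, hv⟩).j, ← map_sub, hcoord] at h1
      exact h1)
    {v : T | (v : Place k) ∈ Adiv k K A} hu (fun v hv M hM hMu a b => by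
      have hloc : LocE (BR B (v : Place k).comp) := by
        by_cases hemp : IsEmpty (K →ₐ[k] (v : Place k).comp)
        · exact hns v hemp
        · rw [not_isEmpty_iff] at hemp
          obtain ⟨φ⟩ := hemp
          exact locE_split_place hA hn0 B φ hv
      rw [map_commutatorElement]
      refine hloc M hM ⟨ι v ⁅a₀, u⁆, hMu a₀, (H v).j x₀, fun h => hx₀ ?_⟩ _ _
      apply (H v).j_inj
      rw [map_mul, map_mul]
      exact h)
  choose δ hδ hδW using fun v : T => nhds_UA (H v) (1 : UA (BR B (v : Place k).comp)) (hW v)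
  obtain ⟨η, hη, hηδ⟩ := exists_pos_le δ hδ
  refine ⟨T.filter fun v => v ∈ Adiv k K A, fun v hv => (Finset.mem_filter.mp hv).2, η, hη,
    fun a ha b hb hab => hWQ a ha b hb fun v hv => hδW v _ fun i => ?_⟩
  have h1 := hab v (Finset.mem_filter.mpr ⟨v.2, hv⟩) i
  change ‖(H v).φ ((H v).j (((⁅a, b⁆ : UA A) : Aˣ) : A) - 1) i‖ < δ v
  rw [← map_one (H v).j, ← map_sub, hcoord]
  exact h1.trans_le (hηδ v)

/-- **The continuous finite quotients are solvable.** -/
theorem derived_le_of_near [StarLinR k A] (hk : IsGlobalFunctionField k) (hA : Anis k K A n)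
    (hn : 3 ≤ n) (f : A →ₐ[K] Matrix (Fin n) (Fin n) Ω) (B : Basis (Fin N) k A)
    (hns : ∀ v : Place k, IsEmpty (K →ₐ[k] v.comp) → LocE (BR B v.comp))
    (Q : Subgroup (UA A)) (hQn : Q.Normal) (hQ : Q ≤ GA f) (hQF : (Q : Set (UA A)) ∈ FNr f B) :
    ∃ m : ℕ, ∀ g ∈ derivedSeries (GA f) m, (g : UA A) ∈ Q := by
  obtain ⟨T, hT, ε, hε, h⟩ := rem_FF hk hA hn f B hns Q hQn hQ hQF
  obtain ⟨m, hm⟩ := exists_derived_near_places hk (by omega) hA T hT
    ((UA A).subtype.comp (GA f).subtype) (fun g => ua_mul_star (g : UA A)) B hε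
  refine ⟨m + 1, fun g hg => ?_⟩
  have h1 : derivedSeries (GA f) (m + 1) ≤ Q.comap (GA f).subtype := by
    rw [derivedSeries_succ, Subgroup.commutator_le]
    intro a ha b hb
    refine h a a.2 b b.2 fun v hv i => ?_
    have h2 : ⁅a, b⁆ ∈ derivedSeries (GA f) m := derivedSeries_antitone (GA f) (Nat.le_succ m)
      (Subgroup.commutator_mem_commutator ha hb)
    exact hm _ h2 v hv i
  exact h1 hg

section final

/-- **Every finite quotient is solvable, conditional on strong approximation, the core, and the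
local property at the places which do not split in `K`.** -/
theorem solvable_of_core_FF' (hk : IsGlobalFunctionField k) (hA : Anis k K A n) (hn : 3 ≤ n)
    (f : A →ₐ[K] Matrix (Fin n) (Fin n) Ω) (B : Basis (Fin N) k A) (S : Set (Place k))
    (hSA : ∀ Q : Subgroup (UA A), Q.Normal → Q ≤ GA f → (Q : Set (UA A)) ∈ FLv f B S →
      (Q : Set (UA A)) ∈ FNr f B)
    (hFG : ∃ X : Set (GA f), X.Finite ∧
      (Subgroup.closure X : Set (GA f)) ∈ Fc (GA f) (FLv f B S))
    (hcore : ∀ (E : Type) (_ : Group E) (c : UA A →* E) (R : Subgroup E),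
      Target0 (FLv f B S) c R → (∀ u : UA A, (∀ g ∈ GA f, u * g = g * u) → c u = 1) → False)
    (hns : ∀ (_ : StarLinR k A) (v : Place k), IsEmpty (K →ₐ[k] v.comp) → LocE (BR B v.comp))
    (M : Subgroup (SUA f)) [M.Normal] (hi : M.index ≠ 0) : Group.IsSolvable (SUA f ⧸ M) := by
  have hgff := gff_of_isGlobal hk
  have hst := H519.star_smul_of_anis hA
  have hSL : StarLinR k A := ⟨hst⟩
  rw [isSolvable_quotient_iff]
  by_contra hcon
  set M' : Subgroup (GA f) := M.comap (eGA f : GA f →* SUA f) with hM'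
  have hM'n : M'.Normal := inferInstance
  have hM'i : M'.FiniteIndex := ⟨by
    rw [hM', Subgroup.index_comap_of_surjective _ (eGA f).surjective]
    exact hi⟩
  have hnot : ¬ Group.IsSolvable (GA f ⧸ M') := by
    rw [isSolvable_quotient_iff]
    rintro ⟨m, hm⟩
    refine hcon ⟨m, ?_⟩
    have h1 : derivedSeries (SUA f) m ≤ M'.map (eGA f : GA f →* SUA f) := by
      rw [← map_derivedSeries_eq (f := (eGA f : GA f →* SUA f)) (eGA f).surjective m]
      exact Subgroup.map_mono hm
    refine h1.trans ?_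
    rw [hM']
    exact Subgroup.map_comap_le _ _
  rcases exists_target0 (GA f) (lev_FLv hst S) hFG M' hnot with
    ⟨E, iE, c, R, hT, hc⟩ | ⟨C, hCn, hNC, hCi, hCF, hCs⟩
  · exact hcore E iE c R hT hc
  · obtain ⟨Q, hQn, hQG, hQF, hQ1, hQC⟩ := mem_of_SA (F₁ := FNr f B) (GA f)
      (lev_FLv hst S) (GA_mem S) hSA hFG C hCF
    obtain ⟨m, hm⟩ := derived_le_of_near hk hA hn f B (hns hSL) Q hQn hQG hQ1
    apply hCs
    rw [isSolvable_quotient_iff]
    exact ⟨m, fun g hg => hQC g (hm g hg)⟩

end final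

end Vale.Agent.P011.H698
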