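import Vale.Agent.P011.H698.DensU
import Vale.Agent.P011.H519.SplitPlaceK

/-!
# Function fields: weak approximation for the unitary group
-/

open Module Topology

set_option linter.unusedSectionVars false

namespace Vale.Agent.P011.H698

open Vale.Agent.P011.H738 Vale.Agent.P011.H271 Vale.Agent.P011.H74

section places

variable {k : Type} [Field k]

theorem place_eq_of_isEquiv {v w : Place k} (h : v.abv.IsEquiv w.abv) : v = w := by
  refine toPl_injective (Subtype.ext ?_)
  ext x
  change plV v x ≤ 1 ↔ plV w x ≤ 1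
  rw [plV_le_one, plV_le_one]
  have := h x 1
  rwa [map_one, map_one] at this

theorem place_nontrivial (v : Place k) : v.abv.IsNontrivial := by
  obtain ⟨x, hx⟩ := v.normalized.2.1
  have hx' : v.abv x = qq v := hx
  refine ⟨x, ?_, ?_⟩
  · rintro rfl
    rw [map_zero] at hx'
    exact (qq_pos v).ne hx'
  · rw [hx']
    exact (one_lt_qq' v).ne'

/-- Weak approximation. -/
theorem place_weak (S : Finset (Place k)) (y : ∀ v : S, (v : Place k).comp) {η : ℝ} (hη : 0 < η) :
    ∃ a : k, ∀ v : S, ‖algebraMap k (v : Place k).comp a - y v‖ < η := by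
  have hd := AbsoluteValue.denseRange_algebraMap_pi (F := k) (v := fun v : S => (v : Place k).abv)
    (fun v => place_nontrivial (v : Place k)) (fun v w hvw h => hvw (Subtype.ext (place_eq_of_isEquiv h)))
  choose b hb using fun v : S =>
    (UniformSpace.Completion.denseRange_coe (α := WithAbs (v : Place k).abv)).exists_dist_lt (y v)
      (half_pos hη)
  obtain ⟨a, ha⟩ := hd.exists_dist_lt b (half_pos hη)
  refine ⟨a, fun v => ?_⟩
  have h1 : dist (b v) (WithAbs.toAbs (v : Place k).abv a) < η / 2 :=
    (dist_le_pi_dist b _ v).trans_lt ha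
  have h2 : algebraMap k (v : Place k).comp a =
      ((WithAbs.toAbs (v : Place k).abv a : WithAbs (v : Place k).abv) : (v : Place k).comp) := rfl
  rw [h2, ← dist_eq_norm, dist_comm]
  calc dist (y v) _ ≤ dist (y v) (b v : (v : Place k).comp) + dist (b v : (v : Place k).comp) _ :=
        dist_triangle _ _ _
    _ < η / 2 + η / 2 := by
        refine add_lt_add (hb v) ?_
        rwa [UniformSpace.Completion.dist_eq]
    _ = η := by ring

end places

section main

variable {k K A : Type} [Field k] [Field K] [StarRing K] [Ring A] [StarRing A]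
  [Algebra k K] [Algebra k A] [Algebra K A] [IsScalarTower k K A] [StarModule K A] {n N : ℕ}

/-- **Weak approximation for the unitary group.** -/
theorem weak_unitary [Infinite k] [StarLinR k A] (hA : Anis k K A n) (B : Basis (Fin N) k A)
    (S : Finset (Place k)) (x : ∀ v : S, BR B (v : Place k).comp)
    (hx : ∀ v, x v * star (x v) = 1) (hx' : ∀ v, star (x v) * x v = 1) {ε : ℝ} (hε : 0 < ε) :
    ∃ u : UA A, ∀ (v : S) (i : Fin N), ‖eqF B (v : Place k).comp
      ((bcrT B (v : Place k).comp).j ((u : Aˣ) : A) - x v) i‖ < ε := by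
  classical
  obtain ⟨u, hu⟩ := exists_unitary_near hA.fixed hA.star_ne hA.anisotropic B
    (fun v : S => bcrT B (v : Place k).comp) (fun _ => rfl)
    (fun y η hη => place_weak S y hη) x hx hx' hε
  exact ⟨u, fun v i => (nE_coord (bcrT B (v : Place k).comp) _ i).trans_lt (hu v)⟩

theorem eqF_j [StarLinR k A] (B : Basis (Fin N) k A) (v : Place k) (y : A) (i : Fin N) :
    ‖eqF B v.comp ((bcrT B v.comp).j y) i‖ = v.abv (B.repr y i) := by
  classical
  have h1 : eqF B v.comp ((bcrT B v.comp).j y) i = algebraMap k v.comp (B.repr y i) :=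
    (bcrT B v.comp).φ_eq y i
  rw [h1, norm_alg]

/-- **Weak approximation for the unitary group**, for unitary elements of `A`. -/
theorem weak_unitary' [Infinite k] (hA : Anis k K A n) (B : Basis (Fin N) k A)
    (S : Finset (Place k)) (a : Place k → UA A) {ε : ℝ} (hε : 0 < ε) :
    ∃ u : UA A, ∀ v ∈ S, Sm B v ε (((u : Aˣ) : A) - ((a v : Aˣ) : A)) := by
  classical
  have hSL : StarLinR k A := ⟨H519.star_smul_of_anis hA⟩
  obtain ⟨u, hu⟩ := weak_unitary hA B S (fun v => (bcrT B (v : Place k).comp).j ((a v : Aˣ) : A))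
    (fun v => by
      rw [← (bcrT B (v : Place k).comp).j_star, ← map_mul, ua_mul_star, map_one])
    (fun v => by
      rw [← (bcrT B (v : Place k).comp).j_star, ← map_mul, ua_star_mul, map_one]) hε
  refine ⟨u, fun v hv i => ?_⟩
  have h1 := hu ⟨v, hv⟩ i
  rwa [← map_sub, eqF_j] at h1

end main

end Vale.Agent.P011.H698
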