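import Vale.Agent.P011.H698.PlusLoc3
import Vale.Agent.P011.H698.PlusPair
import Vale.Agent.P011.H698.PlusTriv
import Vale.Agent.P011.H698.RemFF
import Vale.Agent.P011.H738.LocDensFF
import Vale.Agent.P011.H565.P11FF

/-!
# Function fields: the group acts trivially on the abelian quotients of the open subgroups
-/

open Module Matrix Topology Filter
open scoped commutatorElement

set_option linter.unusedSectionVars false

namespace Vale.Agent.P011.H698

open Vale.Agent.P011.H738 Vale.Agent.P011.H271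
open Vale.Agent.P011.H465 (UD mem_UD nu_eq nu_inv conj_near)

section nu

variable {A D : Type*} [DivisionRing A] [NormedDivisionRing D] (ι : A →+* D)

/-- The absolute value defined by an embedding. -/
noncomputable def nu0 : AbsoluteValue A ℝ where
  toFun x := ‖ι x‖
  map_mul' x y := by rw [map_mul, norm_mul]
  nonneg' x := norm_nonneg _
  eq_zero' x := by rw [norm_eq_zero, map_eq_zero_iff _ ι.injective]
  add_le' x y := by rw [map_add]; exact norm_add_le _ _

theorem nu0_apply (x : A) : nu0 ι x = ‖ι x‖ := rfl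

/-- The absolute value defined by an embedding and the involution. -/
noncomputable def nu1 [StarRing A] : AbsoluteValue A ℝ where
  toFun x := ‖ι (star x)‖
  map_mul' x y := by rw [star_mul, map_mul, norm_mul, mul_comm]
  nonneg' x := norm_nonneg _
  eq_zero' x := by rw [norm_eq_zero, map_eq_zero_iff _ ι.injective, star_eq_zero]
  add_le' x y := by rw [star_add, map_add]; exact norm_add_le _ _

theorem nu1_apply [StarRing A] (x : A) : nu1 ι x = ‖ι (star x)‖ := rfl

end nu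

section gen

variable {k K B : Type} [Field k] [Field K] [StarRing K] [Ring B] [StarRing B]
  [Algebra k K] [Algebra k B] [Algebra K B] [IsScalarTower k K B] [StarModule K B] {n : ℕ}

/-- The unitary group is generated by the Cayley transforms of the symmetric elements which are
split regular at `q`. -/
theorem ua_gen_FF {q : Place k} {φ : K →ₐ[k] q.comp} {f : B →+* Matrix (Fin n) (Fin n) q.comp}
    (hB : Anis k K B n) (hn : n ≠ 0)
    (hf : ∀ c : K, f (algebraMap K B c) = algebraMap q.comp _ (φ c))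
    (hspan : Submodule.span q.comp (Set.range fun x : B => (f x, (f (star x)).transpose)) = ⊤)
    {w : K} (hw : star w ≠ w) (Γ : Subgroup (UA B))
    (hΓ : ∀ σ : B, star σ = σ → f σ ∈ H210.SR (Fin n) q.comp → ∀ u : UA B,
      ((u : Bˣ) : B) * (σ + algebraMap K B (star w)) = σ + algebraMap K B w → u ∈ Γ) :
    Γ = ⊤ := by
  have := H565.nebot_comp q
  refine H565.eq_top_of_split' (w := algebraMap K B w) (ω := φ w) (ω' := φ (star w)) (U := UA B)
    (fun x => Algebra.commutes w x) ?_ (fun _ => Iff.rfl) f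
    (fun x hx => H565.isUnit_of_splitting hB hn f hx) ?_ ?_ ?_
    (fun X O hO => H565.dense_sym_FF hB hf hspan X hO) (H565.isOpen_splitReg_comp q) Γ
    fun σ h1 h2 h3 u h4 => hΓ σ h1 h2 u ?_
  · rw [H565.star_algKB, ← map_sub]
    exact (isUnit_iff_ne_zero.2 (sub_ne_zero.2 (Ne.symm hw))).map (algebraMap K B)
  · rw [hf, Algebra.algebraMap_eq_smul_one]
  · rw [H565.star_algKB, hf, Algebra.algebraMap_eq_smul_one]
  · exact fun h => hw (φ.injective h.symm)
  · rwa [H565.star_algKB] at h4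

end gen

section main

variable {k K A Ω : Type} [Field k] [Field K] [StarRing K] [DivisionRing A] [StarRing A]
  [Algebra k K] [Algebra k A] [Algebra K A] [IsScalarTower k K A] [StarModule K A] {n N : ℕ}
  [Field Ω] [Algebra K Ω]

/-- **The group acts trivially on the abelian quotients of the open subgroups**, for a division
algebra over a function field. -/
theorem rh_div (hk : IsGlobalFunctionField k) (hA : Anis k K A n) (hn0 : n ≠ 0)
    (f : A →ₐ[K] Matrix (Fin n) (Fin n) Ω) (B : Basis (Fin N) k A)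
    (H Q : Subgroup (GA f)) (T : Finset (Place k)) (hTne : T.Nonempty)
    (hT : ∀ v ∈ T, v ∈ Adiv k K A) {ε : ℝ} (hε : 0 < ε)
    (hH : ∀ g : GA f, (∀ v ∈ T, Sm B v ε ((((g : UA A) : Aˣ) : A) - 1)) → g ∈ H)
    (hab : ⁅H, H⁆ ≤ Q) :
    ∃ ε' : ℝ, 0 < ε' ∧ ∀ v : GA f, (∀ p ∈ T, Sm B p ε' ((((v : UA A) : Aˣ) : A) - 1)) →
      ∀ g : GA f, ⁅g, v⁆ ∈ Q := by
  classical
  have hgff := gff_of_isGlobal hk
  have hn : 0 < n := Nat.pos_of_ne_zero hn0
  have hcen := hA.central
  have hfdA := hA.finiteDimensional hn0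
  have hTne' : Nonempty T := hTne.to_subtype
  have hstarK : ∀ c : K, star (algebraMap K A c) = algebraMap K A (star c) := by
    intro c
    rw [Algebra.algebraMap_eq_smul_one, star_smul, star_one, ← Algebra.algebraMap_eq_smul_one]
  obtain ⟨w, hw⟩ := hA.star_ne
  obtain ⟨q, -, -, φ, g, hφ, -, hspan⟩ := H519.exists_split_place hk hA hn0 T 0
  have hinf : Infinite k := infinite_of_place q
  have hspan1 := H565.span_fst hspan
  -- the local data
  choose φv hφv using fun v : T => hT v v.2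
  have hdat := fun v : T => @exists_locPlus k K A (v : Place k).comp Ω _ _ _ _ _ _ _ _ _ _ _ _ _
    (ntComp (v : Place k)) _ _ _ _ _ n hA.fixed hA.star_ne hn hA.finrank_eq f (φv v) (hφv v)
  choose D hD1 hD2 hD3 ι L using hdat
  -- the absolute values
  let ν : T ⊕ T → AbsoluteValue A ℝ := Sum.elim (fun v => nu0 (ι v)) (fun v => nu1 (ι v))
  have hν0 : ∀ v x, ν (Sum.inl v) x = ‖ι v x‖ := fun _ _ => rfl
  have hν1 : ∀ v x, ν (Sum.inr v) x = ‖ι v (star x)‖ := fun _ _ => rfl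
  have hu : ∀ i x y, ν i (x + y) ≤ max (ν i x) (ν i y) := by
    rintro (v | v) x y
    · rw [hν0, hν0, hν0, map_add]
      exact IsUltrametricDist.norm_add_le_max _ _
    · rw [hν1, hν1, hν1, star_add, map_add]
      exact IsUltrametricDist.norm_add_le_max _ _
  have hs : ∀ i, ∃ j, ∀ x, ν i (star x) = ν j x := by
    rintro (v | v)
    · exact ⟨Sum.inr v, fun x => rfl⟩
    · exact ⟨Sum.inl v, fun x => by rw [hν1, star_star, hν0]⟩
  have hnrd : ∀ ε : ℝ, 0 < ε → ∃ δ : ℝ, 0 < δ ∧ ∀ (x : A) (c : K), (∀ i, ν i (x - 1) < δ) →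
      (f x).det = algebraMap K Ω c → ∀ i, ν i (algebraMap K A c - 1) < ε := by
    intro ε hε
    choose δ hδ h using fun v => (L v).nrd ε hε
    obtain ⟨δ', hδ', hle⟩ := exists_pos_le δ hδ
    refine ⟨δ', hδ', fun x c hx hc i => ?_⟩
    rcases i with v | v
    · rw [hν0, map_sub, map_one]
      refine h v x c ?_ hc
      have h1 := hx (Sum.inl v)
      rw [hν0, map_sub, map_one] at h1
      exact h1.trans_le (hle v)
    · rw [hν1, star_sub, star_one, hstarK, map_sub, map_one]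
      refine h v (star x) (star c) ?_ (H268.nrd_star hn hA.finrank_eq hstarK f x hc)
      have h1 := hx (Sum.inr v)
      rw [hν1, star_sub, star_one, map_sub, map_one] at h1
      exact h1.trans_le (hle v)
  -- the scalars
  obtain ⟨c, hc0, hc1⟩ : ∃ c : k, c ≠ 0 ∧ ∀ v : T, ‖algebraMap k (v : Place k).comp c‖ < 1 := by
    choose y hy0 hy using fun v : T =>
      @NormedField.exists_norm_lt _ (ntComp (v : Place k)) (1 / 2) (by norm_num)
    obtain ⟨η, hη, hle⟩ := exists_pos_le (fun v : T => ‖y v‖) hy0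
    obtain ⟨c, hc⟩ := place_weak T y (lt_min hη (by norm_num : (0 : ℝ) < 1 / 2))
    refine ⟨c, ?_, fun v => ?_⟩
    · rintro rfl
      obtain ⟨v0⟩ := hTne'
      have h1 := hc v0
      rw [map_zero, zero_sub, norm_neg] at h1
      exact absurd (h1.trans_le ((min_le_left _ _).trans (hle v0))) (lt_irrefl _)
    · have h1 : algebraMap k (v : Place k).comp c =
          (algebraMap k (v : Place k).comp c - y v) + y v := by rw [sub_add_cancel]
      rw [h1]
      refine (norm_add_le _ _).trans_lt ?_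
      have h2 := (hc v).trans_le (min_le_right _ _)
      have h3 := hy v
      linarith
  obtain ⟨b, hb⟩ : ∃ b : ℕ → K, ∀ j, b j = algebraMap k K (c ^ (j + 1)) := ⟨_, fun _ => rfl⟩
  have hbs : ∀ j, star (b j) = b j := fun j => (hA.fixed _).mpr ⟨_, (hb j).symm⟩
  have hkν : ∀ (x : k) (i : T ⊕ T), ν i (algebraMap K A (algebraMap k K x)) =
      ‖algebraMap k ((Sum.elim id id i : T) : Place k).comp x‖ := by
    rintro x (v | v)
    · rw [hν0, ← IsScalarTower.algebraMap_apply, Algebra.algebraMap_eq_smul_one, (L v).norm_k,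
        map_one, norm_one, mul_one]
      rfl
    · rw [hν1, hstarK, (hA.fixed _).mpr ⟨x, rfl⟩, ← IsScalarTower.algebraMap_apply,
        Algebra.algebraMap_eq_smul_one, (L v).norm_k, map_one, norm_one, mul_one]
      rfl
  have hbi : Function.Injective b := by
    obtain ⟨v0⟩ := hTne'
    intro j j' hjj
    rw [hb, hb] at hjj
    have h1 := congrArg (fun z => ν (Sum.inl v0) (algebraMap K A z)) hjj
    simp only [hkν, map_pow] at h1
    have h2 : 0 < ‖algebraMap k (v0 : Place k).comp c‖ :=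
      norm_pos_iff.mpr ((map_ne_zero_iff _ (algebraMap k (v0 : Place k).comp).injective).mpr hc0)
    have h3 := pow_right_injective₀ h2 (hc1 v0).ne h1
    omega
  have hb0 : ∀ i, Tendsto (fun j => ν i (algebraMap K A (b j))) atTop (𝓝 0) := by
    intro i
    have h1 : Tendsto (fun j : ℕ => ‖algebraMap k ((Sum.elim id id i : T) : Place k).comp c‖ ^ j)
        atTop (𝓝 0) := tendsto_pow_atTop_nhds_zero_of_lt_one (norm_nonneg _) (hc1 _)
    refine (h1.comp (tendsto_add_atTop_nat 1)).congr fun j => ?_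
    rw [hb, hkν, map_pow, norm_pow]
    rfl
  -- a split regular symmetric element
  have hinfq : Infinite q.comp := Infinite.of_injective _ (algebraMap k q.comp).injective
  obtain ⟨σ, hσ, hσR⟩ : ∃ σ : A, star σ = σ ∧ g σ ∈ H210.SR (Fin n) q.comp := by
    obtain ⟨a, ha⟩ : ∃ a : Fin n → q.comp, Function.Injective a :=
      ⟨fun i => Infinite.natEmbedding q.comp i, fun i j hij => by
        have h1 := (Infinite.natEmbedding q.comp).injective hij
        exact Fin.val_injective h1⟩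
    have hO : {s | H565.SplitReg s} ∈ 𝓝 (diagonal a) :=
      (H565.isOpen_splitReg_comp q).mem_nhds (H210.diagonal_mem_SR ha)
    obtain ⟨σ, h1, h2⟩ := H565.dense_sym_FF hA hφ hspan (diagonal a) hO
    exact ⟨σ, h1, h2⟩
  have hh : ∀ P : (Matrix (Fin n) (Fin n) q.comp)ˣ, ∃ h ∈ UD A, ∀ i l,
      (((P⁻¹ : (Matrix (Fin n) (Fin n) q.comp)ˣ) : Matrix (Fin n) (Fin n) q.comp) * g (h : A) *
        (P : Matrix (Fin n) (Fin n) q.comp)) i l ≠ 0 := by
    intro P
    obtain ⟨M, hM⟩ := exists_full_entries (F := q.comp) (n := n)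
    have hd := H565.denseRange_FF (U := UA A) hA hn0 hφ hspan fun _ => Iff.rfl
    have hO : {X : (Matrix (Fin n) (Fin n) q.comp)ˣ | ∀ i l,
        (((P⁻¹ : (Matrix (Fin n) (Fin n) q.comp)ˣ) : Matrix (Fin n) (Fin n) q.comp) * X *
          (P : Matrix (Fin n) (Fin n) q.comp)) i l ≠ 0} ∈ 𝓝 (P * M * P⁻¹) := by
      have h1 : ∀ i l, Continuous fun X : (Matrix (Fin n) (Fin n) q.comp)ˣ =>
          (((P⁻¹ : (Matrix (Fin n) (Fin n) q.comp)ˣ) : Matrix (Fin n) (Fin n) q.comp) * X *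
          (P : Matrix (Fin n) (Fin n) q.comp)) i l := by
        intro i l
        have h2 : Continuous fun X : (Matrix (Fin n) (Fin n) q.comp)ˣ =>
            ((P⁻¹ : (Matrix (Fin n) (Fin n) q.comp)ˣ) : Matrix (Fin n) (Fin n) q.comp) * X *
            (P : Matrix (Fin n) (Fin n) q.comp) :=
          (continuous_const.mul Units.continuous_val).mul continuous_const
        exact (continuous_apply l).comp ((continuous_apply i).comp h2)
      refine eventually_all.mpr fun i => eventually_all.mpr fun l => ?_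
      refine (h1 i l).continuousAt.eventually_ne ?_
      have h3 : ((P⁻¹ : (Matrix (Fin n) (Fin n) q.comp)ˣ) : Matrix (Fin n) (Fin n) q.comp) *
          ((P * M * P⁻¹ : (Matrix (Fin n) (Fin n) q.comp)ˣ) : Matrix (Fin n) (Fin n) q.comp) *
          (P : Matrix (Fin n) (Fin n) q.comp) = M := by
        rw [← Units.val_mul, ← Units.val_mul]
        congr 1
        group
      rw [h3]
      exact hM i l
    obtain ⟨_, h1, h, rfl⟩ := mem_closure_iff_nhds.mp (hd (P * M * P⁻¹)) _ hO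
    exact ⟨(h : Aˣ), h.2, h1⟩
  -- the theorem
  have hGU : SUA f ≤ UD A := fun u hu => hu.1
  have hcomm : ⁅UD A, UD A⁆ ≤ SUA f := by
    rw [Subgroup.commutator_le]
    intro u hu v hv
    refine ⟨?_, ?_⟩
    · rw [commutatorElement_def]
      exact (UD A).mul_mem ((UD A).mul_mem ((UD A).mul_mem hu hv) ((UD A).inv_mem hu))
        ((UD A).inv_mem hv)
    · have h2 : ∀ u : Aˣ, (f (u : A)).det * (f ((u⁻¹ : Aˣ) : A)).det = 1 := by
        intro u
        rw [← det_mul, ← map_mul, Units.mul_inv, map_one, det_one]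
      rw [commutatorElement_def, Units.val_mul, Units.val_mul, Units.val_mul, map_mul, map_mul,
        map_mul, det_mul, det_mul, det_mul]
      calc (f (u : A)).det * (f (v : A)).det * (f ((u⁻¹ : Aˣ) : A)).det *
            (f ((v⁻¹ : Aˣ) : A)).det = ((f (u : A)).det * (f ((u⁻¹ : Aˣ) : A)).det) *
            ((f (v : A)).det * (f ((v⁻¹ : Aˣ) : A)).det) := by ring
        _ = 1 := by rw [h2, h2, one_mul]
  -- coordinates
  have hup : ∀ ε : ℝ, 0 < ε → ∃ δ : ℝ, 0 < δ ∧ ∀ u ∈ UD A,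
      (∀ v ∈ T, Sm B v δ ((u : A) - 1)) → ∀ i, ν i ((u : A) - 1) < ε := by
    intro ε hε
    choose C hC hCb using fun v => (L v).upper N B
    obtain ⟨δ, hδ, hle⟩ := exists_pos_le (fun v => min ε 1 / (2 * C v)) fun v => by
      have := hC v
      have h1 : 0 < min ε 1 := lt_min hε one_pos
      positivity
    refine ⟨δ, hδ, fun u hu' hnear => ?_⟩
    have h1 : ∀ v : T, ‖ι v ((u : A) - 1)‖ < min ε 1 := by
      intro v
      have h2 := hCb v ((u : A) - 1) δ hδ fun j => by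
        rw [norm_alg]
        exact hnear v v.2 j
      have h3 := hle v
      have h4 := hC v
      have h5 : 0 < min ε 1 := lt_min hε one_pos
      calc ‖ι v ((u : A) - 1)‖ ≤ C v * δ := h2
        _ ≤ C v * (min ε 1 / (2 * C v)) := mul_le_mul_of_nonneg_left h3 h4.le
        _ = min ε 1 / 2 := by field_simp
        _ < min ε 1 := by linarith
    rintro (v | v)
    · rw [hν0]
      exact (h1 v).trans_le (min_le_left _ _)
    · rw [hν1]
      have h2 : ν (Sum.inl v) (u : A) = 1 := by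
        rw [← H465.nu_one (ν := ν (Sum.inl v))]
        refine nu_eq (hu _) ?_
        rw [H465.nu_one, hν0]
        exact (h1 v).trans_le (min_le_right _ _)
      have h3 : star ((u : A) - 1) = -(((u⁻¹ : Aˣ) : A) * ((u : A) - 1)) := by
        rw [star_sub, star_one, H465.star_of_mem hu', mul_sub, Units.inv_mul, mul_one, neg_sub]
      rw [h3, ← hν0, AbsoluteValue.map_neg, map_mul, Units.val_inv_eq_inv_val, nu_inv, h2,
        inv_one, one_mul, hν0]
      exact (h1 v).trans_le (min_le_left _ _)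
  have hdown : ∀ ε : ℝ, 0 < ε → ∃ δ : ℝ, 0 < δ ∧ ∀ x : A, (∀ i, ν i x < δ) →
      ∀ v ∈ T, Sm B v ε x := by
    intro ε hε
    choose C hC hCb using fun v => (L v).dat.coord N B
    obtain ⟨δ, hδ, hle⟩ := exists_pos_le (fun v => ε / (2 * C v)) fun v => by
      have := hC v
      positivity
    refine ⟨δ, hδ, fun x hx v hv j => ?_⟩
    have h1 := hCb ⟨v, hv⟩ x j
    have h2 := hx (Sum.inl ⟨v, hv⟩)
    have h3 := hx (Sum.inr ⟨v, hv⟩)
    rw [hν0] at h2
    rw [hν1] at h3
    have h4 := hle ⟨v, hv⟩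
    have h5 := hC ⟨v, hv⟩
    rw [← norm_alg]
    calc _ ≤ C ⟨v, hv⟩ * (‖ι ⟨v, hv⟩ x‖ + ‖ι ⟨v, hv⟩ (star x)‖) := h1
      _ < C ⟨v, hv⟩ * (δ + δ) := mul_lt_mul_of_pos_left (add_lt_add h2 h3) h5
      _ ≤ C ⟨v, hv⟩ * (ε / (2 * C ⟨v, hv⟩) + ε / (2 * C ⟨v, hv⟩)) :=
          mul_le_mul_of_nonneg_left (add_le_add h4 h4) h5.le
      _ = ε := by field_simp; ring
  have hdU : ∀ g ∈ SUA f, ∀ ε : ℝ, 0 < ε → ∃ w ∈ ⁅UD A, UD A⁆,
      ∀ i, ν i (((w⁻¹ * g : Aˣ) : A) - 1) < ε := by
    intro g hg ε hε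
    obtain ⟨δ, hδ, hδ'⟩ := hup ε hε
    obtain ⟨c, hc, hcn⟩ := ff_exists_commutator_near hk hn0 hA f T hT B
      (x := (⟨g, hg.1⟩ : UA A)) hg.2 hδ
    have h1 : ∀ i, ν i (((g * (c : Aˣ)⁻¹ : Aˣ) : A) - 1) < ε :=
      hδ' _ ((UD A).mul_mem hg.1 ((UD A).inv_mem c.2)) fun v hv j => hcn v hv j
    refine ⟨(c : Aˣ), ?_, fun i => ?_⟩
    · have h2 : (commutator (UA A)).map (UA A).subtype ≤ ⁅UD A, UD A⁆ := by
        rw [commutator_def, Subgroup.map_commutator]
        refine Subgroup.commutator_mono ?_ ?_ <;>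
        · rintro _ ⟨u, -, rfl⟩
          exact u.2
      exact h2 ⟨c, hc, rfl⟩
    · have h2 : (c : Aˣ)⁻¹ * g = (c : Aˣ)⁻¹ * (g * (c : Aˣ)⁻¹) * ((c : Aˣ)⁻¹)⁻¹ := by group
      rw [h2, conj_near]
      exact h1 i
  have hdense := denseRange_theta ι f (fun v => (L v).dat)
    (fun y η hη => place_weak T y hη) hA.fixed hA.star_ne hA.anisotropic
  have hloc : ∀ (ε₀ : ℝ) (h0 : 0 < ε₀) (h1 : ε₀ ≤ 1), ∃ ε : ℝ, 0 < ε ∧ ∀ h ∈ SUA f,
      (∀ i, ν i ((h : A) - 1) < ε) → ∀ δ : ℝ, 0 < δ →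
        ∃ x ∈ ⁅VG hu (SUA f) h0 h1, VG hu (SUA f) h0 h1⁆, ∀ i, ν i ((x : A) - h) < δ := by
    intro ε₀ h0 h1
    obtain ⟨a, b', e, haU, hbU, had, hbd, han, hbn, hsurj, htr⟩ := exists_pair hn hA.finrank_eq f
      (φ : K →+* q.comp) g hφ hw hσ hσR hh hu hnrd hbs hbi hb0 h0
    let V' : Subgroup (UA A) := (VG hu (SUA f) h0 h1).comap (UA A).subtype
    have hV'n : V'.Normal := by
      refine ⟨fun x hx u => ?_⟩
      have h2 : ((x : UA A) : Aˣ) ∈ VG hu (SUA f) h0 h1 := hx
      rw [mem_VG] at h2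
      change ((u : Aˣ) * (x : Aˣ) * (u : Aˣ)⁻¹) ∈ VG hu (SUA f) h0 h1
      rw [mem_VG]
      refine ⟨?_, fun i => ?_⟩
      · have h3 : (u : Aˣ) * (x : Aˣ) * (u : Aˣ)⁻¹ = ⁅(u : Aˣ), (x : Aˣ)⁆ * x := by
          rw [commutatorElement_def]; group
        rw [h3]
        exact (SUA f).mul_mem (hcomm (Subgroup.commutator_mem_commutator u.2 x.2)) h2.1
      · rw [conj_near]
        exact h2.2 i
    have haV : (⟨a, haU⟩ : UA A) ∈ V' := by
      show a ∈ VG hu (SUA f) h0 h1
      exact ⟨⟨haU, had⟩, han⟩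
    have hbV : (⟨b', hbU⟩ : UA A) ∈ V' := by
      show b' ∈ VG hu (SUA f) h0 h1
      exact ⟨⟨hbU, hbd⟩, hbn⟩
    obtain ⟨δ, hδ, hδ'⟩ := loc3 ι f L hdense hV'n haV hbV hsurj htr
    refine ⟨δ, hδ, fun h hh hhn δ₁ hδ₁ => ?_⟩
    obtain ⟨x, hx, hxn⟩ := hδ' (⟨h, hh.1⟩ : UA A) hh.2 (fun v => by
      have h2 := hhn (Sum.inl v)
      rwa [hν0, map_sub, map_one] at h2) δ₁ hδ₁
    refine ⟨(x : Aˣ), ?_, ?_⟩
    · have h2 : (⁅V', V'⁆).map (UA A).subtype ≤
          ⁅VG hu (SUA f) h0 h1, VG hu (SUA f) h0 h1⁆ := by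
        rw [Subgroup.map_commutator]
        exact Subgroup.commutator_mono (Subgroup.map_comap_le _ _) (Subgroup.map_comap_le _ _)
      exact h2 ⟨x, hx, rfl⟩
    · rintro (v | v)
      · rw [hν0, map_sub]
        exact (hxn v).1
      · rw [hν1, star_sub, map_sub]
        exact (hxn v).2
  -- the good elements
  let X : Set Aˣ := {u | u ∈ UD A ∧ ∃ σ : A, star σ = σ ∧ g σ ∈ H210.SR (Fin n) q.comp ∧
    (u : A) * (σ + algebraMap K A (star w)) = σ + algebraMap K A w}
  have hgen : UD A ≤ Subgroup.closure X := by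
    intro u hu'
    have h1 := ua_gen_FF hA hn0 hφ hspan hw ((Subgroup.closure X).comap (UA A).subtype)
      fun σ h1 h2 u h3 => Subgroup.subset_closure ⟨u.2, σ, h1, h2, h3⟩
    have h2 : (⟨u, hu'⟩ : UA A) ∈ (Subgroup.closure X).comap (UA A).subtype := by
      rw [h1]
      exact Subgroup.mem_top _
    exact h2
  have hX : ∀ u ∈ X, ∀ ε : ℝ, 0 < ε → ∃ e ∈ SUA f, (∀ i, ν i ((e : A) - 1) < ε) ∧
      (u : A) ∈ Algebra.adjoin K {(e : A)} := by
    rintro u ⟨huU, σ', h1, h2, h3⟩ ε hε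
    obtain ⟨e, heU, hed, hen, heR, heσ⟩ := exists_near_SR hn hA.finrank_eq f (φ : K →+* q.comp) g
      hφ hw h1 h2 hu hnrd hbs hbi hb0 hε
    refine ⟨e, ⟨heU, hed⟩, hen, ?_⟩
    have h4 : σ' ∈ Algebra.adjoin K {(e : A)} := by
      refine mem_adjoin_of_degree heσ ?_
      rw [(H158.minpoly_of_SR (φ : K →+* q.comp) g hφ hspan1 hA.finrank_eq h2).2,
        (H158.minpoly_of_SR (φ : K →+* q.comp) g hφ hspan1 hA.finrank_eq heR).2]
    have h5 : σ' + algebraMap K A (star w) ∈ Algebra.adjoin K {(e : A)} :=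
      add_mem h4 (Subalgebra.algebraMap_mem _ _)
    have h6 : σ' + algebraMap K A w ∈ Algebra.adjoin K {(e : A)} :=
      add_mem h4 (Subalgebra.algebraMap_mem _ _)
    have h7 : σ' + algebraMap K A (star w) ≠ 0 := by
      intro h7
      rw [h7, mul_zero] at h3
      have h8 : algebraMap K A (star w) = algebraMap K A w := by
        have h9 : σ' + algebraMap K A (star w) = σ' + algebraMap K A w := h7.trans h3
        exact add_left_cancel h9
      exact hw ((algebraMap K A).injective h8)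
    have h8 : (u : A) = (σ' + algebraMap K A w) * (σ' + algebraMap K A (star w))⁻¹ := by
      rw [← h3, mul_inv_cancel_right₀ h7]
    rw [h8]
    exact mul_mem h6 ((Algebra.IsIntegral.isIntegral (R := K) _).inv_mem h5)
  -- the conclusion
  let M : Subgroup Aˣ := (Q.map (GA f).subtype).map (UA A).subtype
  have hM : ∀ x : GA f, ((x : UA A) : Aˣ) ∈ M → x ∈ Q := by
    rintro x ⟨_, ⟨y, hy, rfl⟩, h1⟩
    have h2 : y = x := Subtype.ext (Subtype.ext h1)
    rwa [← h2]
  obtain ⟨ε₀, hε₀, hε₀'⟩ := hdown ε hε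
  have hmemH : ∀ (g : Aˣ) (hg : g ∈ SUA f), (∀ i, ν i ((g : A) - 1) < ε₀) →
      ∃ g' ∈ H, ((g' : UA A) : Aˣ) = g := by
    intro g hg hgn
    exact ⟨⟨⟨g, hg.1⟩, mem_GA.mpr hg.2⟩, hH _ (hε₀' _ hgn), rfl⟩
  obtain ⟨ε₁, hε₁, h1⟩ := open_comm_gen (K := K) hu hs hGU hcomm hdU (fun u hu' => hu'.1) hgen hX
    hloc (M := M) hε₀ (fun g hg hgn h hh hhn => by
      obtain ⟨g', hg', rfl⟩ := hmemH g hg hgn
      obtain ⟨h', hh', rfl⟩ := hmemH h hh hhn
      exact ⟨_, ⟨⁅g', h'⁆, hab (Subgroup.commutator_mem_commutator hg' hh'), rfl⟩, rfl⟩)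
  obtain ⟨ε', hε', h2⟩ := hup ε₁ hε₁
  refine ⟨ε', hε', fun v hv g => hM _ ?_⟩
  exact h1 _ ⟨(g : UA A).2, mem_GA.mp g.2⟩ _ ⟨(v : UA A).2, mem_GA.mp v.2⟩
    (h2 _ (v : UA A).2 hv)

end main

end Vale.Agent.P011.H698
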