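import Vale.Agent.P011.H698.TorS7
import Vale.Agent.P011.H518.Star
import Vale.Agent.P011.H738.LocDensNF
import Vale.Agent.P011.H511.CSpl

/-!
# Number fields: moving an element of the unitary torus close to one
-/

open Module TensorProduct Topology NumberField IsDedekindDomain

set_option linter.unusedSectionVars false

namespace Vale.Agent.P011.H698

open Vale.Agent.P011.Arith Vale.Agent.P011.Even Vale.Agent.P011.Two Vale.Agent.P011.One
  Vale.Agent.P011.H775 Vale.Agent.P011.H948 Vale.Agent.P011.H518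

variable {k K D : Type} [Field k] [NumberField k] [Field K] [StarRing K]
  [DivisionRing D] [StarRing D] [Algebra k K] [Algebra k D] [Algebra K D] [IsScalarTower k K D]
  {d : kˣ} {s : K} {Ω : Type} [Field Ω] [Algebra K Ω] {N : ℕ}

/-- The reduced trace, norm and adjoint, form over `K` for the norm. -/
theorem s7_nf' (hS : Setting k K D d s) (hdeg : finrank K D = 3 ^ 2) (C : Cub K D)
    (B : Basis (Fin N) k D) (hTf : (Tdiv k K D).Finite) {ε : ℝ} (hε : 0 < ε) :
    ∃ δ : ℝ, 0 < δ ∧ ∀ u w e : D, (∀ p ∈ Tdiv k K D, nm B p (u - 1) < δ) →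
      w * star w = 1 → w ∉ Set.range (algebraMap K D) → e * star e = 1 → e * w = w * e →
      C.N e = C.N u → ∃ t : D, t * star t = 1 ∧ C.N t = 1 ∧ (∀ y, y * w = w * y → y * t = t * y) ∧
        ∀ p ∈ Tdiv k K D, nm B p (e * t - 1) < ε := by
  classical
  have := hS.fin
  have := hS.cen
  have hTf' : Finite (Tdiv k K D) := hTf
  have h0 : ∀ p : Tdiv k K D, ∃ v : HeightOneSpectrum (𝓞 k), (p : Pl k) = Sum.inl v ∧
      ∃ φ : K →ₐ[k] v.adicCompletion k, letI := (φ : K →+* v.adicCompletion k).toAlgebra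
        ∀ x : v.adicCompletion k ⊗[K] D, x ≠ 0 → IsUnit x := fun p => p.2
  choose v hv φ hφ using h0
  have hvinj : Function.Injective v := fun p q h => Subtype.ext (by rw [hv p, hv q, h])
  let i1 : ∀ p, NontriviallyNormedField ((v p).adicCompletion k) := fun p => nnf (v p)
  let i2 : ∀ p, Algebra K ((v p).adicCompletion k) := fun p =>
    (φ p : K →+* (v p).adicCompletion k).toAlgebra
  have i3 : ∀ p, IsScalarTower k K ((v p).adicCompletion k) := fun p =>
    IsScalarTower.of_algebraMap_eq fun c => ((φ p).commutes c).symm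
  have hC : SCub C := sCub_of C hdeg hS.star_smul
  have hs0 : s ≠ 0 := by
    intro h1
    have h2 := hS.sq
    rw [h1, zero_pow two_ne_zero] at h2
    exact d.ne_zero ((map_eq_zero _).mp h2.symm)
  have hε' : 0 < ε / (N + 1) := by positivity
  obtain ⟨δ, hδ, h1⟩ := @s7_abs k K D _ _ _ _ _ _ _ _ _ _ _ C (Tdiv k K D) _
    (fun p => (v p).adicCompletion k) i1 (fun p => inferInstance) (fun p => inferInstance) i2 i3 N
    hC hdeg (fun x hx => (hS.fix x).mp hx) (fun x => (hS.fix _).mpr ⟨x, rfl⟩) s hS.star_s hs0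
    two_ne_zero three_ne_zero hφ (fun y η hη => H738.nf_weak v hvinj y hη) B _ hε'
  have hn : ∀ (p : Tdiv k K D) (c : k), ‖algebraMap k ((v p).adicCompletion k) c‖ =
      plAbv (p : Pl k) c := by
    intro p c
    have h4 : ‖algebraMap k ((v p).adicCompletion k) c‖ = plAbv (Sum.inl (v p)) c :=
      NumberField.FinitePlace.norm_embedding (v p) _
    rw [h4, hv p]
  refine ⟨δ, hδ, fun u w e hu hw hwK he hew hN => ?_⟩
  obtain ⟨t, ht1, ht2, ht3, ht4⟩ := h1 u w e (fun p i => by
    rw [hn]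
    refine lt_of_le_of_lt ?_ (hu p p.2)
    unfold Even.nm
    exact Finset.single_le_sum (f := fun i => plAbv (p : Pl k) (B.repr (u - 1) i))
      (fun _ _ => apply_nonneg _ _) (Finset.mem_univ i)) hw hwK he hew hN
  refine ⟨t, ht1, ht2, ht3, fun p hp => ?_⟩
  unfold Even.nm
  have h2 : ∀ j, plAbv p (B.repr (e * t - 1) j) ≤ ε / (N + 1) := by
    intro j
    have h3 := ht4 ⟨p, hp⟩ j
    rw [hn] at h3
    exact h3.le
  calc ∑ j, plAbv p (B.repr (e * t - 1) j) ≤ ∑ _j : Fin N, ε / (N + 1) :=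
        Finset.sum_le_sum fun j _ => h2 j
    _ = N * (ε / (N + 1)) := by
        rw [Finset.sum_const, Finset.card_univ, Fintype.card_fin, nsmul_eq_mul]
    _ < ε := by
        rw [mul_div_assoc', div_lt_iff₀ (by positivity)]
        nlinarith

/-- **S7**, over number fields. -/
theorem s7_nf (hS : Setting k K D d s) (hdeg : finrank K D = 3 ^ 2) (C : Cub K D)
    (f : D →ₐ[K] Matrix (Fin 3) (Fin 3) Ω) (B : Basis (Fin N) k D)
    (hTf : (Tdiv k K D).Finite) :
    ∀ ε : ℝ, 0 < ε → ∃ δ : ℝ, 0 < δ ∧ ∀ u w e : Dˣ, Un u → Un w → Un e →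
      Nr k K B δ u → (w : D) ∉ Set.range (algebraMap K D) → Commute e w →
        (f (e : D)).det = (f (u : D)).det → ∃ e' : Dˣ, Un e' ∧ Commute e' w ∧
          (f (e' : D)).det = (f (u : D)).det ∧ Nr k K B ε e' := by
  have := hS.fin
  have := hS.cen
  intro ε hε
  obtain ⟨δ, hδ, h1⟩ := s7_nf' hS hdeg C B hTf hε
  refine ⟨δ, hδ, fun u w e hu hw he hun hwK hew hd => ?_⟩
  have hdN : ∀ x : D, (f x).det = algebraMap K Ω (C.N x) := fun x =>
    (H511.spl_compat C hdeg f x).2.2.1
  have hN : C.N (e : D) = C.N (u : D) := by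
    rw [hdN, hdN] at hd
    exact (algebraMap K Ω).injective hd
  obtain ⟨t, ht1, ht2, ht3, ht4⟩ := h1 (u : D) (w : D) (e : D) hun hw hwK he
    (congrArg Units.val hew.eq) hN
  have ht0 : t ≠ 0 := left_ne_zero_of_mul_eq_one ht1
  refine ⟨e * Units.mk0 t ht0, ?_, ?_, ?_, ht4⟩
  · change ((e : D) * t) * star ((e : D) * t) = 1
    have he' : (e : D) * star (e : D) = 1 := he
    rw [star_mul, mul_assoc, ← mul_assoc t, ht1, one_mul, he']
  · have h2 : Commute (Units.mk0 t ht0) w := Units.ext (ht3 (w : D) rfl).symm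
    exact hew.mul_left h2
  · have h2 : (f ((e * Units.mk0 t ht0 : Dˣ) : D)).det = (f (e : D)).det := by
      rw [hdN, hdN]
      congr 1
      change C.N ((e : D) * t) = _
      rw [C.N_mul, ht2, mul_one]
    rw [h2, hd]

end Vale.Agent.P011.H698
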