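import Vale.Agent.P011.H271.KSF

/-!
# Sizes of coordinates at all places of a function field

Linear and bilinear maps, uniformly in the place: the constants are equal to one at almost all
places.  Orders given by a basis, good places.
-/

open Module

set_option linter.unusedSectionVars false

namespace Vale.Agent.P011.H698

open Vale.Agent.P011.H738 Vale.Agent.P011.H271

section one

variable {k A : Type} [Field k] [AddCommGroup A] [Module k A] {N : ℕ} (B : Basis (Fin N) k A)
  (v : Place k)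

/-- The coordinates of `x` are at most `c` at `v`. -/
def Bd (c : ℝ) (x : A) : Prop := ∀ i, v.abv (B.repr x i) ≤ c

/-- The coordinates of `x` are less than `c` at `v`. -/
def Sm (c : ℝ) (x : A) : Prop := ∀ i, v.abv (B.repr x i) < c

variable {B v}

theorem Sm.bd {c : ℝ} {x : A} (h : Sm B v c x) : Bd B v c x := fun i => (h i).le

theorem Bd.sm {c d : ℝ} {x : A} (h : Bd B v c x) (hcd : c < d) : Sm B v d x := fun i =>
  (h i).trans_lt hcd

theorem Bd.mono {c d : ℝ} {x : A} (h : Bd B v c x) (hcd : c ≤ d) : Bd B v d x := fun i =>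
  (h i).trans hcd

theorem Sm.mono {c d : ℝ} {x : A} (h : Sm B v c x) (hcd : c ≤ d) : Sm B v d x := fun i =>
  (h i).trans_le hcd

theorem bd_zero {c : ℝ} (hc : 0 ≤ c) : Bd B v c (0 : A) := fun i => by
  rw [map_zero, Finsupp.zero_apply, map_zero]
  exact hc

theorem sm_zero {c : ℝ} (hc : 0 < c) : Sm B v c (0 : A) := fun i => by
  rw [map_zero, Finsupp.zero_apply, map_zero]
  exact hc

theorem Bd.add {c : ℝ} {x y : A} (hx : Bd B v c x) (hy : Bd B v c y) : Bd B v c (x + y) :=
  fun i => by
    rw [map_add, Finsupp.add_apply]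
    exact (v.nonarch _ _).trans (max_le (hx i) (hy i))

theorem Sm.add {c : ℝ} {x y : A} (hx : Sm B v c x) (hy : Sm B v c y) : Sm B v c (x + y) :=
  fun i => by
    rw [map_add, Finsupp.add_apply]
    exact (v.nonarch _ _).trans_lt (max_lt (hx i) (hy i))

theorem Bd.neg {c : ℝ} {x : A} (hx : Bd B v c x) : Bd B v c (-x) := fun i => by
  rw [map_neg, Finsupp.neg_apply, AbsoluteValue.map_neg]
  exact hx i

theorem Sm.neg {c : ℝ} {x : A} (hx : Sm B v c x) : Sm B v c (-x) := fun i => by
  rw [map_neg, Finsupp.neg_apply, AbsoluteValue.map_neg]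
  exact hx i

theorem Bd.sub {c : ℝ} {x y : A} (hx : Bd B v c x) (hy : Bd B v c y) : Bd B v c (x - y) := by
  rw [sub_eq_add_neg]
  exact hx.add hy.neg

theorem Sm.sub {c : ℝ} {x y : A} (hx : Sm B v c x) (hy : Sm B v c y) : Sm B v c (x - y) := by
  rw [sub_eq_add_neg]
  exact hx.add hy.neg

theorem Bd.smul {a c : ℝ} {t : k} (ht : v.abv t ≤ a) {x : A} (hx : Bd B v c x) :
    Bd B v (a * c) (t • x) := fun i => by
  rw [map_smul, Finsupp.smul_apply, smul_eq_mul, map_mul]
  exact mul_le_mul ht (hx i) (v.abv.nonneg _) ((v.abv.nonneg _).trans ht)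

theorem Bd.sum {c : ℝ} (hc : 0 ≤ c) {ι : Type*} (s : Finset ι) {f : ι → A}
    (hf : ∀ i ∈ s, Bd B v c (f i)) : Bd B v c (∑ i ∈ s, f i) := by
  classical
  induction s using Finset.induction_on with
  | empty => rw [Finset.sum_empty]; exact bd_zero hc
  | insert b s hb ih =>
    rw [Finset.sum_insert hb]
    exact (hf b (Finset.mem_insert_self _ _)).add
      (ih fun i hi => hf i (Finset.mem_insert_of_mem hi))

/-- Every element is bounded. -/
theorem exists_bd (x : A) : ∃ c : ℝ, 1 ≤ c ∧ Bd B v c x := by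
  refine ⟨1 + ∑ i, v.abv (B.repr x i), ?_, fun i => ?_⟩
  · have := Finset.sum_nonneg fun (i : Fin N) (_ : i ∈ Finset.univ) => v.abv.nonneg (B.repr x i)
    linarith
  · have := Finset.single_le_sum (f := fun i => v.abv (B.repr x i))
      (fun _ _ => v.abv.nonneg _) (Finset.mem_univ i)
    have h2 : v.abv (B.repr x i) ≤ ∑ i, v.abv (B.repr x i) := this
    linarith

end one

section sup

variable {k : Type} [Field k] [GFF k]

/-- A common bound for finitely many elements, equal to one at almost all places. -/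
theorem exists_sup (s : Finset k) : ∃ C : Place k → ℝ, (∀ v, 1 ≤ C v) ∧ {v | C v ≠ 1}.Finite ∧
    ∀ v, ∀ a ∈ s, v.abv a ≤ C v := by
  classical
  refine ⟨fun v => ∏ a ∈ s, max 1 (v.abv a), fun v => ?_, ?_, fun v a ha => ?_⟩
  · exact Finset.one_le_prod fun a _ => le_max_left _ _
  · refine (((s.erase 0).finite_toSet).biUnion (t := fun x => {w : Place k | w.abv x ≠ 1})
      fun x hx => place_finite (Finset.mem_erase.1 (Finset.mem_coe.1 hx)).1).subset ?_
    intro v hv
    rw [Set.mem_ofPred_eq] at hv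
    by_contra hcon
    apply hv
    refine Finset.prod_eq_one fun a ha => ?_
    by_cases h0 : a = 0
    · rw [h0, map_zero, max_eq_left zero_le_one]
    · have h1 : v.abv a = 1 := by
        by_contra h2
        exact hcon (Set.mem_biUnion (Finset.mem_coe.2 (Finset.mem_erase.2 ⟨h0, ha⟩)) h2)
      rw [h1, max_self]
  · have h1 : max 1 (v.abv a) ≤ ∏ a ∈ s, max 1 (v.abv a) := by
      rw [← Finset.mul_prod_erase s _ ha]
      refine le_mul_of_one_le_right (le_trans zero_le_one (le_max_left _ _)) ?_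
      exact Finset.one_le_prod fun a _ => le_max_left _ _
    exact (le_max_right _ _).trans h1

end sup

section maps

variable {k A A' A'' : Type} [Field k] [GFF k] [AddCommGroup A] [Module k A] [AddCommGroup A']
  [Module k A'] [AddCommGroup A''] [Module k A''] {N N' N'' : ℕ} (B : Basis (Fin N) k A)
  (B' : Basis (Fin N') k A') (B'' : Basis (Fin N'') k A'')

/-- A common bound for finitely many elements. -/
theorem exists_sup_family {ι : Type*} [Finite ι] (x : ι → A) :
    ∃ C : Place k → ℝ, (∀ v, 1 ≤ C v) ∧ {v | C v ≠ 1}.Finite ∧ ∀ v i, Bd B v (C v) (x i) := by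
  classical
  have := Fintype.ofFinite ι
  obtain ⟨C, h1, h2, h3⟩ := exists_sup
    (Finset.univ.image fun p : ι × Fin N => B.repr (x p.1) p.2)
  exact ⟨C, h1, h2, fun v i j => h3 v _ (Finset.mem_image_of_mem
    (fun p : ι × Fin N => B.repr (x p.1) p.2) (Finset.mem_univ (i, j)))⟩

/-- Linear maps. -/
theorem lin_bd (L : A →ₗ[k] A') : ∃ C : Place k → ℝ, (∀ v, 1 ≤ C v) ∧ {v | C v ≠ 1}.Finite ∧
    ∀ v c x, 0 ≤ c → Bd B v c x → Bd B' v (C v * c) (L x) := by
  obtain ⟨C, h1, h2, h3⟩ := exists_sup_family B' fun i => L (B i)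
  refine ⟨C, h1, h2, fun v c x hc hx => ?_⟩
  rw [← B.sum_repr x, map_sum]
  have hC : 0 ≤ C v := zero_le_one.trans (h1 v)
  refine Bd.sum (mul_nonneg hC hc) _ fun i _ => ?_
  rw [map_smul, mul_comm]
  exact (h3 v i).smul (hx i)

/-- Bilinear maps. -/
theorem bil_bd (L : A →ₗ[k] A' →ₗ[k] A'') : ∃ C : Place k → ℝ, (∀ v, 1 ≤ C v) ∧
    {v | C v ≠ 1}.Finite ∧ ∀ v c c' x y, 0 ≤ c → 0 ≤ c' → Bd B v c x → Bd B' v c' y →
      Bd B'' v (C v * c * c') (L x y) := by
  obtain ⟨C, h1, h2, h3⟩ := exists_sup_family B'' fun p : Fin N × Fin N' => L (B p.1) (B' p.2)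
  refine ⟨C, h1, h2, fun v c c' x y hc hc' hx hy => ?_⟩
  have hC : 0 ≤ C v := zero_le_one.trans (h1 v)
  have e : L x y = ∑ i, ∑ j, (B.repr x i * B'.repr y j) • L (B i) (B' j) := by
    have e1 : L x y = ∑ i, B.repr x i • L (B i) y := by
      conv_lhs => rw [← B.sum_repr x]
      rw [map_sum, LinearMap.sum_apply]
      exact Finset.sum_congr rfl fun i _ => by rw [map_smul, LinearMap.smul_apply]
    rw [e1]
    refine Finset.sum_congr rfl fun i _ => ?_
    have e2 : L (B i) y = ∑ j, B'.repr y j • L (B i) (B' j) := by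
      conv_lhs => rw [← B'.sum_repr y]
      rw [map_sum]
      exact Finset.sum_congr rfl fun j _ => by rw [map_smul]
    rw [e2, Finset.smul_sum]
    exact Finset.sum_congr rfl fun j _ => by rw [smul_smul]
  rw [e]
  have h0 : 0 ≤ C v * c * c' := mul_nonneg (mul_nonneg hC hc) hc'
  refine Bd.sum h0 _ fun i _ => Bd.sum h0 _ fun j _ => ?_
  have h4 : v.abv (B.repr x i * B'.repr y j) ≤ c * c' := by
    rw [map_mul]
    exact mul_le_mul (hx i) (hy j) (v.abv.nonneg _) hc
  have h5 := (h3 v (i, j)).smul h4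
  refine h5.mono (le_of_eq (by ring))

end maps

section alg

variable {k A : Type} [Field k] [GFF k] [Ring A] [Algebra k A] {N : ℕ} (B : Basis (Fin N) k A)

/-- The multiplication. -/
theorem mul_bd : ∃ C : Place k → ℝ, (∀ v, 1 ≤ C v) ∧
    {v | C v ≠ 1}.Finite ∧ ∀ v c c' x y, 0 ≤ c → 0 ≤ c' → Bd B v c x → Bd B v c' y →
      Bd B v (C v * c * c') (x * y) :=
  bil_bd B B B (LinearMap.mul k A)

variable [StarRing A]

/-- The involution. -/
theorem star_bd (hst : ∀ (c : k) (x : A), star (c • x) = c • star x) :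
    ∃ C : Place k → ℝ, (∀ v, 1 ≤ C v) ∧ {v | C v ≠ 1}.Finite ∧
    ∀ v c x, 0 ≤ c → Bd B v c x → Bd B v (C v * c) (star x) :=
  lin_bd B B { toFun := star, map_add' := star_add, map_smul' := hst }

/-- One constant for the multiplication, the involution and the element one. -/
theorem exists_const (hst : ∀ (c : k) (x : A), star (c • x) = c • star x) :
    ∃ C : Place k → ℝ, (∀ v, 1 ≤ C v) ∧ {v | C v ≠ 1}.Finite ∧
      (∀ v c c' x y, 0 ≤ c → 0 ≤ c' → Bd B v c x → Bd B v c' y →
        Bd B v (C v * c * c') (x * y)) ∧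
      (∀ v c x, 0 ≤ c → Bd B v c x → Bd B v (C v * c) (star x)) ∧ ∀ v, Bd B v (C v) 1 := by
  obtain ⟨C1, h1, h1', h1''⟩ := mul_bd B
  obtain ⟨C2, h2, h2', h2''⟩ := star_bd B hst
  obtain ⟨C3, h3, h3', h3''⟩ := exists_sup_family B fun _ : Unit => (1 : A)
  refine ⟨fun v => max (C1 v) (max (C2 v) (C3 v)), fun v => le_max_of_le_left (h1 v), ?_, ?_, ?_,
    ?_⟩
  · refine ((h1'.union h2').union h3').subset fun v hv => ?_
    rw [Set.mem_ofPred_eq] at hv
    by_contra hcon
    simp only [Set.mem_union, Set.mem_ofPred_eq, not_or, not_not] at hcon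
    apply hv
    change max (C1 v) (max (C2 v) (C3 v)) = 1
    rw [hcon.1.1, hcon.1.2, hcon.2, max_self, max_self]
  · intro v c c' x y hc hc' hx hy
    refine (h1'' v c c' x y hc hc' hx hy).mono ?_
    exact mul_le_mul_of_nonneg_right (mul_le_mul_of_nonneg_right (le_max_left _ _) hc) hc'
  · intro v c x hc hx
    refine (h2'' v c x hc hx).mono ?_
    exact mul_le_mul_of_nonneg_right (le_max_of_le_right (le_max_left _ _)) hc
  · intro v
    exact (h3'' v ()).mono (le_max_of_le_right (le_max_right _ _))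

end alg

section good

variable {k A : Type} [Field k] [Ring A] [StarRing A] [Algebra k A] {N : ℕ}
  (B : Basis (Fin N) k A) (v : Place k)

/-- The basis spans an order stable under the involution. -/
structure Gd : Prop where
  one : Bd B v 1 (1 : A)
  mul : ∀ i j, Bd B v 1 (B i * B j)
  str : ∀ i, Bd B v 1 (star (B i))

variable {B v}

theorem Gd.mul' (h : Gd B v) {c c' : ℝ} (hc : 0 ≤ c) (hc' : 0 ≤ c') {x y : A} (hx : Bd B v c x)
    (hy : Bd B v c' y) : Bd B v (c * c') (x * y) := by
  have e : x * y = ∑ i, ∑ j, (B.repr x i * B.repr y j) • (B i * B j) := by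
    conv_lhs => rw [← B.sum_repr x, ← B.sum_repr y]
    rw [Finset.sum_mul_sum]
    refine Finset.sum_congr rfl fun i _ => Finset.sum_congr rfl fun j _ => ?_
    rw [smul_mul_smul_comm]
  rw [e]
  have h0 : 0 ≤ c * c' := mul_nonneg hc hc'
  refine Bd.sum h0 _ fun i _ => Bd.sum h0 _ fun j _ => ?_
  have h4 : v.abv (B.repr x i * B.repr y j) ≤ c * c' := by
    rw [map_mul]
    exact mul_le_mul (hx i) (hy j) (v.abv.nonneg _) hc
  have h5 := (h.mul i j).smul h4
  rwa [mul_one] at h5

theorem Gd.star' (h : Gd B v) (hst : ∀ (c : k) (x : A), star (c • x) = c • star x) {c : ℝ}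
    (hc : 0 ≤ c) {x : A} (hx : Bd B v c x) : Bd B v c (star x) := by
  have e : star x = ∑ i, B.repr x i • star (B i) := by
    conv_lhs => rw [← B.sum_repr x]
    rw [star_sum]
    exact Finset.sum_congr rfl fun i _ => hst _ _
  rw [e]
  refine Bd.sum hc _ fun i _ => ?_
  have h5 := (h.str i).smul (hx i)
  rwa [mul_one] at h5

/-- Elements close to one are integral. -/
theorem Gd.of_near (h : Gd B v) {x : A} (hx : Bd B v 1 (x - 1)) : Bd B v 1 x := by
  have e : x = (x - 1) + 1 := by abel
  rw [e]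
  exact hx.add h.one

variable (B)

/-- Almost all places are good. -/
theorem finite_bad [GFF k] : {v : Place k | ¬ Gd B v}.Finite := by
  obtain ⟨C1, -, h1, h1'⟩ := exists_sup_family B fun _ : Unit => (1 : A)
  obtain ⟨C2, -, h2, h2'⟩ := exists_sup_family B fun p : Fin N × Fin N => B p.1 * B p.2
  obtain ⟨C3, -, h3, h3'⟩ := exists_sup_family B fun i : Fin N => star (B i)
  refine ((h1.union h2).union h3).subset fun v hv => ?_
  rw [Set.mem_ofPred_eq] at hv
  by_contra hcon
  simp only [Set.mem_union, Set.mem_ofPred_eq, not_or, not_not] at hcon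
  refine hv ⟨?_, fun i j => ?_, fun i => ?_⟩
  · have := h1' v ()
    rwa [hcon.1.1] at this
  · have := h2' v (i, j)
    rwa [hcon.1.2] at this
  · have := h3' v i
    rwa [hcon.2] at this

/-- Every element is integral at almost all places. -/
theorem finite_nonint [GFF k] (x : A) : {v : Place k | ¬ Bd B v 1 x}.Finite := by
  obtain ⟨C1, -, h1, h1'⟩ := exists_sup_family B fun _ : Unit => x
  refine h1.subset fun v hv => ?_
  rw [Set.mem_ofPred_eq] at hv ⊢
  intro h
  have := h1' v ()
  rw [h] at this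
  exact hv this

end good

end Vale.Agent.P011.H698
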