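import Vale.Agent.P011.H748.Mautner
import Vale.Agent.P011.H976.Gen

/-!
# The special linear group over a locally compact field is generated by a compact set
-/

open Matrix Topology Filter Matrix.SpecialLinearGroup Pointwise

namespace Vale.Agent.P011.H698

section SL

variable {ι F : Type*} [Fintype ι] [DecidableEq ι] [Nontrivial ι] [NormedField F]

/-- The small transvections, the elements `diag (c, c⁻¹)` and one. -/
def smallGen (ι : Type*) [Fintype ι] [DecidableEq ι] {F : Type*} [NormedField F] (c : F)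
    (hc : c ≠ 0) : Set (SpecialLinearGroup ι F) :=
  {g | g = 1 ∨ ∃ (i j : ι) (hij : i ≠ j), g = diag2n hij c hc ∨ ∃ a : F, ‖a‖ ≤ 1 ∧
    g = transvection hij a}

/-- **Bounded generation.** -/
theorem closure_smallGen {c : F} (hc1 : 1 < ‖c‖) (hc : c ≠ 0) :
    Subgroup.closure (smallGen ι c hc) = ⊤ := by
  rw [eq_top_iff]
  rintro g -
  refine diagonal_transvection_induction' (fun g => g ∈ Subgroup.closure (smallGen ι c hc)) g ?_ ?_
    (fun A B hA hB => mul_mem hA hB)
  · intro i j hij d hd
    have htr : ∀ (i j : ι) (hij : i ≠ j) (a : F),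
        transvection hij a ∈ Subgroup.closure (smallGen ι c hc) := by
      intro i j hij a
      have hlt : ‖((c⁻¹) ^ 2)‖ < 1 := by
        rw [norm_pow, norm_inv]
        exact pow_lt_one₀ (by positivity) (inv_lt_one_of_one_lt₀ hc1) (by norm_num)
      have h0 : Tendsto (fun m : ℕ => a * ((c⁻¹) ^ 2) ^ m) atTop (𝓝 (0 : F)) := by
        simpa using (tendsto_pow_atTop_nhds_zero_of_norm_lt_one hlt).const_mul a
      obtain ⟨m, hm⟩ := ((Metric.tendsto_atTop.mp h0) 1 one_pos)
      have hm' := hm m le_rfl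
      rw [dist_zero_right] at hm'
      have h1 := H748.conj_transvection hij a c hc m
      have h2 : transvection hij a = (diag2n hij c hc) ^ m *
          transvection hij (a * ((c⁻¹) ^ 2) ^ m) * ((diag2n hij c hc) ^ m)⁻¹ := by
        rw [← h1]; group
      rw [h2]
      have hd : diag2n hij c hc ∈ Subgroup.closure (smallGen ι c hc) :=
        Subgroup.subset_closure (Or.inr ⟨i, j, hij, Or.inl rfl⟩)
      exact mul_mem (mul_mem (pow_mem hd m) (Subgroup.subset_closure
        (Or.inr ⟨i, j, hij, Or.inr ⟨_, hm'.le, rfl⟩⟩))) (inv_mem (pow_mem hd m))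
    rw [H748.diag2n_eq hij d hd]
    exact mul_mem (mul_mem (mul_mem (htr _ _ _ _) (htr _ _ _ _)) (htr _ _ _ _))
      (mul_mem (mul_mem (htr _ _ _ _) (htr _ _ _ _)) (htr _ _ _ _))
  · intro i j hij a
    have hlt : ‖((c⁻¹) ^ 2)‖ < 1 := by
      rw [norm_pow, norm_inv]
      exact pow_lt_one₀ (by positivity) (inv_lt_one_of_one_lt₀ hc1) (by norm_num)
    have h0 : Tendsto (fun m : ℕ => a * ((c⁻¹) ^ 2) ^ m) atTop (𝓝 (0 : F)) := by
      simpa using (tendsto_pow_atTop_nhds_zero_of_norm_lt_one hlt).const_mul a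
    obtain ⟨m, hm⟩ := ((Metric.tendsto_atTop.mp h0) 1 one_pos)
    have hm' := hm m le_rfl
    rw [dist_zero_right] at hm'
    have h1 := H748.conj_transvection hij a c hc m
    have h2 : transvection hij a = (diag2n hij c hc) ^ m *
        transvection hij (a * ((c⁻¹) ^ 2) ^ m) * ((diag2n hij c hc) ^ m)⁻¹ := by
      rw [← h1]; group
    rw [h2]
    have hd : diag2n hij c hc ∈ Subgroup.closure (smallGen ι c hc) :=
      Subgroup.subset_closure (Or.inr ⟨i, j, hij, Or.inl rfl⟩)
    exact mul_mem (mul_mem (pow_mem hd m) (Subgroup.subset_closure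
      (Or.inr ⟨i, j, hij, Or.inr ⟨_, hm'.le, rfl⟩⟩))) (inv_mem (pow_mem hd m))

omit [Nontrivial ι] in
/-- The image of the transvections in the general linear group is continuous. -/
theorem continuous_transvection {i j : ι} (hij : i ≠ j) :
    Continuous fun a : F => ((transvection hij a : SpecialLinearGroup ι F) : GL ι F) := by
  rw [Units.continuous_iff]
  have h1 : ∀ a : F, ((transvection hij a : SpecialLinearGroup ι F) : Matrix ι ι F) =
      1 + Matrix.single i j a := fun a => transvection_coe hij a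
  have h2 : ∀ a : F, ((transvection hij a : SpecialLinearGroup ι F)⁻¹ : SpecialLinearGroup ι F) =
      transvection hij (-a) := by
    intro a
    rw [inv_eq_iff_mul_eq_one]
    refine H748.sl_ext ?_
    rw [map_mul, map_one, coeMonoidHom_apply, coeMonoidHom_apply, transvection_coe,
      transvection_coe, mul_add, add_mul, add_mul, mul_one, one_mul, mul_one,
      single_mul_single_of_ne _ _ _ _ hij.symm, add_zero, add_assoc, ← Matrix.single_add]
    simp
  have hcont : Continuous fun a : F => (1 : Matrix ι ι F) + Matrix.single i j a := by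
    refine continuous_const.add (continuous_matrix fun k l => ?_)
    simp only [Matrix.single_apply]
    split_ifs
    · exact continuous_id
    · exact continuous_const
  constructor
  · refine hcont.congr fun a => ?_
    rw [← h1]
    rfl
  · refine (hcont.comp continuous_neg).congr fun a => ?_
    change (1 : Matrix ι ι F) + Matrix.single i j (-a) = _
    rw [← h1, ← h2]
    rfl

omit [Nontrivial ι] in
/-- The generating set is contained in a compact subset of the general linear group. -/
theorem exists_compact_smallGen [ProperSpace F] {c : F} (hc : c ≠ 0) :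
    ∃ K : Set (GL ι F), IsCompact K ∧ ∀ g ∈ smallGen ι c hc, (g : GL ι F) ∈ K := by
  refine ⟨{1} ∪ ⋃ p : {p : ι × ι // p.1 ≠ p.2},
    ({((diag2n p.2 c hc : SpecialLinearGroup ι F) : GL ι F)} ∪
      (fun a : F => ((transvection p.2 a : SpecialLinearGroup ι F) : GL ι F)) ''
        Metric.closedBall 0 1), ?_, ?_⟩
  · refine isCompact_singleton.union (isCompact_iUnion fun p => isCompact_singleton.union ?_)
    exact (isCompact_closedBall _ _).image (continuous_transvection p.2)
  · rintro g (rfl | ⟨i, j, hij, rfl | ⟨a, ha, rfl⟩⟩)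
    · left
      exact Set.mem_singleton_iff.mpr (map_one _)
    · exact Or.inr (Set.mem_iUnion.mpr ⟨⟨(i, j), hij⟩, Or.inl rfl⟩)
    · refine Or.inr (Set.mem_iUnion.mpr ⟨⟨(i, j), hij⟩, Or.inr ⟨a, ?_, rfl⟩⟩)
      rwa [Metric.mem_closedBall, dist_zero_right]

end SL

/-- **Discrete cocompact subgroups of the special linear group are finitely generated.** The
statement is for a homomorphism from an abstract group which is proper on compact sets. -/
theorem exists_finite_gen {n : ℕ} (hn : 2 ≤ n) {F : Type*} [NormedField F]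
    [ProperSpace F] (hF : ∃ c : F, 1 < ‖c‖) {Γ : Type*} [Group Γ] (φ : Γ →* SpecialLinearGroup (Fin n) F)
    (hdisc : ∀ D : Set (GL (Fin n) F), IsCompact D →
      {γ : Γ | ((φ γ : SpecialLinearGroup (Fin n) F) : GL (Fin n) F) ∈ D}.Finite)
    {D : Set (GL (Fin n) F)} (hD : IsCompact D)
    (hcoc : ∀ g : SpecialLinearGroup (Fin n) F, ∃ γ : Γ,
      ((g * φ γ : SpecialLinearGroup (Fin n) F) : GL (Fin n) F) ∈ D) :
    ∃ X : Set Γ, X.Finite ∧ Subgroup.closure X = ⊤ := by
  have : Nontrivial (Fin n) := Fin.nontrivial_iff_two_le.mpr hn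
  obtain ⟨c, hc1⟩ := hF
  have hc : c ≠ 0 := by
    rintro rfl
    rw [norm_zero] at hc1
    linarith
  obtain ⟨K', hK', hKK'⟩ := exists_compact_smallGen (ι := Fin n) hc
  set K := smallGen (Fin n) c hc with hK
  set C : Set (SpecialLinearGroup (Fin n) F) := {g | g = 1 ∨ (g : GL (Fin n) F) ∈ D⁻¹} with hC
  have hC' : ∀ g : SpecialLinearGroup (Fin n) F, ∃ γ : Γ, ∃ c ∈ C, φ γ * c = g := by
    intro g
    obtain ⟨γ, hγ⟩ := hcoc g⁻¹
    refine ⟨γ, (φ γ)⁻¹ * g, Or.inr ?_, by rw [mul_inv_cancel_left]⟩
    rw [Set.mem_inv]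
    have e : ((((φ γ)⁻¹ * g : SpecialLinearGroup (Fin n) F) : GL (Fin n) F))⁻¹ =
        ((g⁻¹ * φ γ : SpecialLinearGroup (Fin n) F) : GL (Fin n) F) := by
      rw [← map_inv]
      congr 1
      group
    rw [e]
    exact hγ
  refine ⟨{x : Γ | φ x ∈ C * K * C⁻¹}, ?_, ?_⟩
  · have hcomp : IsCompact (({1} ∪ D⁻¹) * K' * ({1} ∪ D⁻¹)⁻¹) :=
      ((isCompact_singleton.union hD.inv).mul hK').mul (isCompact_singleton.union hD.inv).inv
    refine (hdisc _ hcomp).subset ?_
    rintro x ⟨_, ⟨a, ha, b, hb, rfl⟩, d, hd, hx⟩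
    have hCD : ∀ a ∈ C, (a : GL (Fin n) F) ∈ ({1} ∪ D⁻¹ : Set (GL (Fin n) F)) := by
      rintro a (rfl | ha)
      · exact Or.inl (Set.mem_singleton_iff.mpr (map_one _))
      · exact Or.inr ha
    rw [Set.mem_ofPred_eq, ← hx]
    have e : ((a * b * d : SpecialLinearGroup (Fin n) F) : GL (Fin n) F) =
        (a : GL (Fin n) F) * (b : GL (Fin n) F) * (d : GL (Fin n) F) := by
      rw [map_mul, map_mul]
    change ((a * b * d : SpecialLinearGroup (Fin n) F) : GL (Fin n) F) ∈ _
    rw [e]
    refine Set.mul_mem_mul (Set.mul_mem_mul (hCD a ha) (hKK' b hb)) ?_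
    rw [Set.mem_inv, ← map_inv]
    exact hCD _ hd
  · rw [eq_top_iff]
    rintro x -
    refine H976.mem_closure_of_cover φ (Or.inl rfl) hC' (Or.inl rfl) ?_
    rw [hK, closure_smallGen hc1 hc]
    trivial

end Vale.Agent.P011.H698
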