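import Vale.Agent.P011.H698.LevFF
import Vale.Agent.P011.H698.SLgen
import Vale.Agent.P011.H976.Solv
import Vale.Agent.P011.H74.OneSL
import Vale.Agent.P011.H268.Nrd

/-!
# Function fields: finitely many elements generate a level
-/

open Module Matrix Topology Filter

set_option linter.unusedSectionVars false

namespace Vale.Agent.P011.H698

open Vale.Agent.P011.H738 Vale.Agent.P011.H271 Vale.Agent.P011.H976 Vale.Agent.P011.H74

variable {k K A Ω : Type} [Field k] [GFF k] [Field K] [StarRing K] [Ring A] [StarRing A]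
  [Algebra k K] [Algebra k A] [Algebra K A] [IsScalarTower k K A] [StarModule K A] {n N : ℕ}
  [Field Ω] [Algebra K Ω] {f : A →ₐ[K] Matrix (Fin n) (Fin n) Ω} {B : Basis (Fin N) k A}

/-- The reduced norm one condition can be tested at a split place. -/
theorem det_eq_one_iff (hA : Anis k K A n) (hn : n ≠ 0) {F : Type*} [Field F] (φ : K →+* F)
    {g : A →+* Matrix (Fin n) (Fin n) F} (hφ : ∀ c : K, g (algebraMap K A c) = algebraMap F _ (φ c))
    (f : A →ₐ[K] Matrix (Fin n) (Fin n) Ω) (x : A) : (f x).det = 1 ↔ (g x).det = 1 := by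
  have hcen := hA.central
  have hsim := hA.simple
  have hfd : FiniteDimensional K A := by
    refine Module.finite_of_finrank_pos ?_
    rw [hA.finrank_eq]
    positivity
  let _ : Algebra K F := φ.toAlgebra
  let g' : A →ₐ[K] Matrix (Fin n) (Fin n) F :=
    { g with
      commutes' := fun c => by
        change g (algebraMap K A c) = _
        rw [hφ]
        rfl }
  have hg' : ∀ x, g' x = g x := fun _ => rfl
  obtain ⟨ν, hν⟩ := H268.exists_nrd (Nat.pos_of_ne_zero hn) hA.finrank_eq f x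
  have h1 := H268.det_compare (Nat.pos_of_ne_zero hn) hA.finrank_eq f g' x hν
  rw [hg'] at h1
  rw [hν, h1]
  constructor
  · intro h
    have : ν = 1 := by
      apply (algebraMap K Ω).injective
      rw [h, map_one]
    rw [this, map_one]
  · intro h
    have : ν = 1 := by
      apply (algebraMap K F).injective
      rw [h, map_one]
    rw [this, map_one]

/-- The elements of an order in the special unitary group. -/
def GL' (f : A →ₐ[K] Matrix (Fin n) (Fin n) Ω) (Lam : Subring A) : Subgroup (GA f) :=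
  (UL Lam).comap ((UA A).subtype.comp (GA f).subtype)

omit [GFF k] [StarRing K] [Algebra k K] [IsScalarTower k K A] [StarModule K A] in
theorem mem_GL' {Lam : Subring A} {g : GA f} :
    g ∈ GL' f Lam ↔ (((g : UA A) : Aˣ) : A) ∈ Lam ∧ star (((g : UA A) : Aˣ) : A) ∈ Lam := by
  rw [GL', Subgroup.mem_comap]
  have h1 := star_eq_inv (ua_mul_star (g : UA A))
  constructor
  · rintro ⟨h2, h3, -⟩
    exact ⟨h2, by rw [h1]; exact h3⟩
  · rintro ⟨h2, h3⟩
    exact ⟨h2, by rw [h1] at h3; exact h3, ua_mul_star (g : UA A)⟩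

/-- The elements of an order contain a level. -/
theorem order_mem [NeZero N] {q : Place k} {Lam : Subring A}
    (H : IsOrdR B (OSF {q}) Lam) :
    ∃ T : Finset (Place k), Big B T ∧ ∃ ε : ℝ, 0 < ε ∧ ε ≤ 1 ∧ ∀ x ∈ Lv B {q} T ε, x ∈ Lam := by
  classical
  obtain ⟨d, hd, hlo⟩ := H.lo
  obtain ⟨T, hT1, hT⟩ := exists_big B (place_finite hd).toFinset
  obtain ⟨ε, hε, hε1, hεT⟩ : ∃ ε : ℝ, 0 < ε ∧ ε ≤ 1 ∧ ∀ v ∈ T, ε ≤ v.abv d := by
    refine ⟨∏ v ∈ T, min 1 (v.abv d), Finset.prod_pos fun v _ => lt_min one_pos (v.abv.pos hd),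
      Finset.prod_le_one (fun v _ => le_min zero_le_one (v.abv.nonneg _))
        (fun v _ => min_le_left _ _), fun v hv => ?_⟩
    rw [← Finset.mul_prod_erase T _ hv]
    refine (mul_le_of_le_one_right (le_min zero_le_one (v.abv.nonneg _)) ?_).trans
      (min_le_right _ _)
    exact Finset.prod_le_one (fun v _ => le_min zero_le_one (v.abv.nonneg _))
        (fun v _ => min_le_left _ _)
  refine ⟨T, hT, ε, hε, hε1, ?_⟩
  rintro x ⟨hx1, hx2⟩
  have h1 : x - 1 = ∑ i, (d * (d⁻¹ * B.repr (x - 1) i)) • B i := by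
    conv_lhs => rw [← B.sum_repr (x - 1)]
    exact Finset.sum_congr rfl fun i _ => by rw [mul_inv_cancel_left₀ hd]
  have h2 : x - 1 ∈ Lam := by
    rw [h1]
    refine hlo _ fun i v hv => ?_
    have hvq : v ∉ ({q} : Set (Place k)) := fun h => hv (Finset.mem_singleton.mpr h)
    rw [map_mul, map_inv₀, inv_mul_le_iff₀ (v.abv.pos hd), mul_one]
    by_cases hvT : v ∈ T
    · exact ((hx1 v hvT hvq) i).le.trans (hεT v hvT)
    · have h3 : v.abv d = 1 := by
        by_contra hcon
        exact hvT (hT1 ((place_finite hd).mem_toFinset.mpr hcon))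
      rw [h3]
      exact ((hx2 v hvT hvq).sub (hT v hvT).one) i
  have h3 : x = (x - 1) + 1 := by abel
  rw [h3]
  exact Lam.add_mem h2 Lam.one_mem

/-- The homomorphism to the special linear group. -/
def toSL {F : Type*} [Field F] (g : A →+* Matrix (Fin n) (Fin n) F)
    (hg : ∀ x : A, (f x).det = 1 → (g x).det = 1) : GA f →* SpecialLinearGroup (Fin n) F where
  toFun γ := ⟨g (((γ : UA A) : Aˣ) : A), hg _ (mem_GA.mp γ.2)⟩
  map_one' := by
    apply Subtype.ext
    exact map_one g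
  map_mul' γ γ' := by
    apply Subtype.ext
    exact map_mul g _ _

theorem toSL_GL {F : Type*} [Field F] (g : A →+* Matrix (Fin n) (Fin n) F)
    (hg : ∀ x : A, (f x).det = 1 → (g x).det = 1) (γ : GA f) :
    ((toSL g hg γ : SpecialLinearGroup (Fin n) F) : GL (Fin n) F) =
      Units.map (g : A →* Matrix (Fin n) (Fin n) F) ((γ : UA A) : Aˣ) :=
  Units.ext rfl

/-- The special unitary group of an order is finitely generated. -/
theorem fg_order (hA : Anis k K A n) (hn : 2 ≤ n) {q : Place k} {φ : K →ₐ[k] q.comp}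
    {g : A →+* Matrix (Fin n) (Fin n) q.comp}
    (hφ : ∀ c : K, g (algebraMap K A c) = algebraMap q.comp _ (φ c))
    (hspan : Submodule.span q.comp (Set.range fun x : A => (g x, (g (star x)).transpose)) = ⊤)
    (f : A →ₐ[K] Matrix (Fin n) (Fin n) Ω) (B : Basis (Fin N) k A) {Lam : Subring A}
    (H : IsOrdR B (OSF {q}) Lam) (hOL : ∀ c ∈ OSF {q}, c • (1 : A) ∈ Lam) :
    ∃ X : Set (GL' f Lam), X.Finite ∧ Subgroup.closure X = ⊤ := by
  have hn0 : n ≠ 0 := by omega
  have hf : ∀ c : k, g (algebraMap k A c) = algebraMap q.comp _ (algebraMap k q.comp c) := by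
    intro c
    rw [IsScalarTower.algebraMap_apply k K A, hφ, φ.commutes]
  obtain ⟨D, hD, hcoc⟩ := one_SL hA hn0 hφ hspan B H hOL
  have hdet : ∀ x : A, (f x).det = 1 ↔ (g x).det = 1 := det_eq_one_iff hA hn0 _ hφ f
  have hF : ∃ c : q.comp, 1 < ‖c‖ := by
    obtain ⟨x, hx⟩ := q.normalized.2.1
    refine ⟨algebraMap k _ x, ?_⟩
    rw [norm_alg, hx]
    exact one_lt_qq' q
  refine exists_finite_gen hn hF ((toSL g fun x => (hdet x).mp).comp (GL' f Lam).subtype)
    (fun D' hD' => ?_) hD (fun s => ?_)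
  · have h1 := one_GL_disc hA hf hspan B H D' hD'
    refine Set.Finite.of_finite_image (f := fun γ : GL' f Lam => (((γ : GA f) : UA A) : Aˣ))
      ((h1.image (fun γ : UL Lam => (γ : Aˣ))).subset ?_) ?_
    · rintro _ ⟨γ, hγ, rfl⟩
      refine ⟨⟨(((γ : GA f) : UA A) : Aˣ), γ.2⟩, ?_, rfl⟩
      rw [Set.mem_ofPred_eq, MonoidHom.comp_apply, Subgroup.subtype_apply, toSL_GL] at hγ
      exact hγ
    · intro γ _ γ' _ h
      exact Subtype.ext (Subtype.ext (Subtype.ext h))
  · obtain ⟨γ, hγ, hs⟩ := hcoc (s : GL (Fin n) q.comp) s.2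
    have hγU : (γ : Aˣ) ∈ UA A := γ.2.2.2
    have hγG : (⟨(γ : Aˣ), hγU⟩ : UA A) ∈ GA f := mem_GA.mpr ((hdet _).mpr hγ)
    refine ⟨⟨⟨⟨(γ : Aˣ), hγU⟩, hγG⟩, γ.2⟩, ?_⟩
    rw [map_mul, MonoidHom.comp_apply, Subgroup.subtype_apply, toSL_GL]
    exact hs

/-- **Finitely many elements generate a level.** -/
theorem fg_FLv (hA : Anis k K A n) (hn : 2 ≤ n) {q : Place k} {φ : K →ₐ[k] q.comp}
    {g : A →+* Matrix (Fin n) (Fin n) q.comp}
    (hφ : ∀ c : K, g (algebraMap K A c) = algebraMap q.comp _ (φ c))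
    (hspan : Submodule.span q.comp (Set.range fun x : A => (g x, (g (star x)).transpose)) = ⊤)
    (f : A →ₐ[K] Matrix (Fin n) (Fin n) Ω) (B : Basis (Fin N) k A) :
    ∃ X : Set (GA f), X.Finite ∧
      (Subgroup.closure X : Set (GA f)) ∈ Fc (GA f) (FLv f B ({q} : Set (Place k))) := by
  classical
  have hst := H519.star_smul_of_anis hA
  have hSL : StarLinR k A := ⟨hst⟩
  have hq : ({q} : Finset (Place k)).Nonempty := ⟨q, Finset.mem_singleton_self q⟩
  have hNZ : NeZero N := by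
    refine ⟨?_⟩
    rintro rfl
    have h1 := H519.finrank_of_anis hA
    rw [finrank_eq_card_basis B, Fintype.card_fin] at h1
    have : 0 < 2 * n ^ 2 := by positivity
    omega
  obtain ⟨d, -, hd⟩ := exists_denR B (OSF {q}) (OSF_den hq)
  obtain ⟨H, -⟩ := isOrdR_ordO B hd
  obtain ⟨X, hX, hXc⟩ := fg_order hA hn hφ hspan f B H fun c hc => smul_one_mem_ordO B hc
  refine ⟨Subtype.val '' X, hX.image _, ?_⟩
  have h1 : Subgroup.closure (((GL' f (ordO B (OSF {q}))).subtype) '' X) =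
      GL' f (ordO B (OSF {q})) := by
    rw [← MonoidHom.map_closure, hXc, ← MonoidHom.range_eq_map, Subgroup.range_subtype]
  have h2 : (Subgroup.closure (Subtype.val '' X : Set (GA f)) : Subgroup (GA f)) =
      GL' f (ordO B (OSF {q})) := h1
  rw [h2, mem_Fc (GA_mem _)]
  obtain ⟨T, hT, ε, hε, hε1, hTL⟩ := order_mem (B := B) (q := q) H
  refine mem_FLv.mpr ?_
  obtain ⟨ε', hε', hle, hle1, -, hstar⟩ := mul_level (B := B) (S := ({q} : Set (Place k))) hst hT hε
  refine ⟨T, hT, ε', hε', hle1, fun u hu hu' => ⟨⟨u, hu⟩, ?_, rfl⟩⟩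
  refine mem_GL'.mpr ⟨hTL _ (lv_mono (Finset.Subset.refl T) hT hle hle1 hu'), hTL _ (hstar _ hu')⟩

end Vale.Agent.P011.H698
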