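import Vale.Agent.P011.H698.MatComm
import Vale.Agent.P011.H738.LocFull

/-!
# Elements of reduced norm one of a simple algebra over a local field

They are limits of products of commutators.
-/

open Module Matrix Topology commutatorElement

set_option linter.unusedSectionVars false

namespace Vale.Agent.P011.H698

open Vale.Agent.P011.H487.Lin

section mat

variable {D ι : Type*} [DivisionRing D] [Fintype ι] [DecidableEq ι]

/-- A normal subgroup which contains an element which is not central contains the transvections. -/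
theorem Em_le {a : D} (ha0 : a ≠ 0) (hac : ∀ x : D, a * x = x * a) (ha4 : a ^ 4 ≠ 1)
    (hι : 2 ≤ Fintype.card ι) {Γ : Subgroup (Matrix ι ι D)ˣ} [Γ.Normal]
    (hns : ∃ T ∈ Γ, ∃ Y : Matrix ι ι D, (T : Matrix ι ι D) * Y ≠ Y * T) : Em D ι ≤ Γ := by
  rw [Em, Subgroup.closure_le]
  rintro _ ⟨r, x, h, rfl⟩
  refine mat_S2 ha0 hac ha4 hι (fun r x h T hT => (inferInstance : Γ.Normal).conj_mem T hT _) ?_ r
    x h
  obtain ⟨T, hT, Y, hY⟩ := hns
  refine ⟨T, hT, fun c hc hTc => hY ?_⟩
  rw [hTc]
  ext i l
  rw [diagonal_mul, mul_diagonal]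
  exact hc _

/-- Dilations of one coordinate. -/
def dil (q : ι) : Dˣ →* (Matrix ι ι D)ˣ where
  toFun c := ⟨diagonal (Function.update (fun _ => 1) q (c : D)),
    diagonal (Function.update (fun _ => 1) q ((c⁻¹ : Dˣ) : D)), by
      rw [diagonal_mul_diagonal, ← diagonal_one]
      congr 1
      funext i
      by_cases hi : i = q
      · subst hi
        rw [Function.update_self, Function.update_self, Units.mul_inv]
      · rw [Function.update_of_ne hi, Function.update_of_ne hi, mul_one], by
      rw [diagonal_mul_diagonal, ← diagonal_one]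
      congr 1
      funext i
      by_cases hi : i = q
      · subst hi
        rw [Function.update_self, Function.update_self, Units.inv_mul]
      · rw [Function.update_of_ne hi, Function.update_of_ne hi, mul_one]⟩
  map_one' := by
    apply Units.ext
    change diagonal (Function.update (fun _ => 1) q (1 : D)) = 1
    rw [← diagonal_one]
    congr 1
    exact Function.update_eq_self q _
  map_mul' c d := by
    apply Units.ext
    change diagonal (Function.update (fun _ => 1) q ((c : D) * d)) =
      diagonal (Function.update (fun _ => 1) q (c : D)) *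
        diagonal (Function.update (fun _ => 1) q (d : D))
    rw [diagonal_mul_diagonal]
    congr 1
    funext i
    by_cases hi : i = q
    · subst hi
      rw [Function.update_self, Function.update_self, Function.update_self]
    · rw [Function.update_of_ne hi, Function.update_of_ne hi, Function.update_of_ne hi, mul_one]

theorem dil_val (q : ι) (c : Dˣ) : ((dil q c : (Matrix ι ι D)ˣ) : Matrix ι ι D) =
    diagonal (Function.update (fun _ => 1) q (c : D)) := rfl

theorem dil_inv_val (q : ι) (c : Dˣ) : (((dil q c)⁻¹ : (Matrix ι ι D)ˣ) : Matrix ι ι D) =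
    diagonal (Function.update (fun _ => 1) q ((c⁻¹ : Dˣ) : D)) := rfl

/-- A commutator which is not central. -/
theorem exists_comm_mat {a : D} (ha0 : a ≠ 0) (ha1 : a ≠ 1)
    {p q : ι} (hpq : p ≠ q) : ∃ T ∈ commutator (Matrix ι ι D)ˣ, ∃ Y : Matrix ι ι D,
      (T : Matrix ι ι D) * Y ≠ Y * T := by
  have h1 : (Pi.single q (1 : D) : ι → D) ⬝ᵥ Pi.single p (a - 1) = 0 := by
    rw [single_dot, Pi.single_eq_of_ne hpq.symm]
  have h2 : (Pi.single q (1 : D) : ι → D) ⬝ᵥ Pi.single p 1 = 0 := by
    rw [single_dot, Pi.single_eq_of_ne hpq.symm]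
  set S : (Matrix ι ι D)ˣ := dil p (Units.mk0 a ha0) with hS
  set T := tvm _ _ h2 with hT
  set T' := tvm _ _ h1 with hT'
  have hSv : (S : Matrix ι ι D) = diagonal (Function.update (fun _ => 1) p a) := rfl
  have hv : ∀ c : D, vecMulVec (Pi.single p c) (Pi.single q (1 : D)) = single p q c := by
    intro c
    ext i j
    rw [vecMulVec_apply, single_apply]
    by_cases hi : i = p
    · subst hi
      by_cases hj : j = q
      · subst hj
        simp
      · simp [hj, Ne.symm hj]
    · simp [hi, Ne.symm hi]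
  have hTv : (T : Matrix ι ι D) = 1 + single p q 1 := by rw [hT, tvm_val, hv]
  have hT'v : (T' : Matrix ι ι D) = 1 + single p q (a - 1) := by rw [hT', tvm_val, hv]
  have h3 : S * T = T' * T * S := by
    apply Units.ext
    rw [Units.val_mul, Units.val_mul, Units.val_mul, hSv, hTv, hT'v]
    have e1 : single p q (a - 1) * single p q (1 : D) = 0 := by
      rw [single_mul_single_of_ne]
      exact hpq.symm
    have e2 : diagonal (Function.update (fun _ => (1 : D)) p a) * single p q 1 = single p q a := by
      ext i j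
      rw [diagonal_mul, single_apply, single_apply]
      by_cases h : p = i ∧ q = j
      · rw [if_pos h, if_pos h, ← h.1, Function.update_self, mul_one]
      · rw [if_neg h, if_neg h, mul_zero]
    have e3 : ∀ c : D, single p q c * diagonal (Function.update (fun _ => (1 : D)) p a) =
        single p q c := by
      intro c
      ext i j
      rw [mul_diagonal, single_apply]
      by_cases h : p = i ∧ q = j
      · rw [if_pos h, ← h.2, Function.update_of_ne hpq.symm, mul_one]
      · rw [if_neg h, zero_mul]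
    rw [mul_add, mul_one, e2, add_mul 1 (single p q (a - 1)), one_mul, mul_add, mul_one, e1,
      add_zero, add_mul, add_mul, one_mul, e3, e3, add_assoc, ← single_add]
    congr 2
    abel
  have h4 : T' = ⁅S, T⁆ := by
    rw [commutatorElement_def, h3]
    group
  refine ⟨T', ?_, single q p 1, fun h => ?_⟩
  · rw [h4]
    exact Subgroup.commutator_mem_commutator (Subgroup.mem_top _) (Subgroup.mem_top _)
  · rw [hT'v, add_mul, mul_add, one_mul, mul_one, single_mul_single_same,
      single_mul_single_same] at h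
    have h4 := add_left_cancel h
    have h5 := congrFun (congrFun h4 p) p
    rw [single_apply_same, mul_one, single_apply_of_ne] at h5
    · exact ha1 (sub_eq_zero.mp h5)
    · exact fun h6 => hpq h6.1.symm

/-- The transvections are products of commutators. -/
theorem Em_le_commutator {a : D} (ha0 : a ≠ 0) (hac : ∀ x : D, a * x = x * a) (ha4 : a ^ 4 ≠ 1) :
    Em D ι ≤ commutator (Matrix ι ι D)ˣ := by
  by_cases hι : 2 ≤ Fintype.card ι
  · obtain ⟨p, q, hpq⟩ := Fintype.exists_pair_of_one_lt_card (by omega : 1 < Fintype.card ι)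
    refine Em_le ha0 hac ha4 hι (exists_comm_mat ha0 ?_ hpq)
    rintro rfl
    exact ha4 (one_pow _)
  · have hs : Subsingleton ι := Fintype.card_le_one_iff_subsingleton.mp (by omega)
    rw [Em, Subgroup.closure_le]
    rintro _ ⟨r, x, h, rfl⟩
    have h1 : tvm r x h = 1 := by
      apply Units.ext
      rw [tvm_val, Units.val_one, add_eq_left]
      ext i j
      rw [vecMulVec_apply, Matrix.zero_apply]
      have h2 : x i * r i = 0 := by
        have h3 := h
        rw [dotProduct, Finset.sum_eq_single i (fun j _ hj => absurd (Subsingleton.elim j i) hj)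
          (fun h4 => absurd (Finset.mem_univ i) h4)] at h3
        exact h3
      rw [Subsingleton.elim j i]
      rcases mul_eq_zero.mp h2 with h4 | h4
      · rw [h4, mul_zero]
      · rw [h4, zero_mul]
    rw [h1]
    exact Subgroup.one_mem _

end mat

section det

/-- The determinant of a dilation. -/
theorem det_dil {D E : Type*} [Semiring D] [CommRing E] {m r : Type*} [Fintype m] [DecidableEq m]
    [Fintype r] [DecidableEq r] (f0 : D →+* Matrix r r E) (q : m) (c : D) :
    (Matrix.comp m m r r E ((diagonal (Function.update (fun _ => (1 : D)) q c)).map f0)).det =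
      (f0 c).det := by
  have h1 : Matrix.comp m m r r E ((diagonal (Function.update (fun _ => (1 : D)) q c)).map f0) =
      (blockDiagonal fun i => f0 (Function.update (fun _ => (1 : D)) q c i)).submatrix
        (Equiv.prodComm m r) (Equiv.prodComm m r) := by
    ext ⟨i, k⟩ ⟨j, l⟩
    rw [submatrix_apply, blockDiagonal_apply, comp_apply, map_apply, diagonal_apply]
    change (f0 (if i = j then _ else 0)) k l = if i = j then _ else 0
    by_cases hij : i = j
    · rw [if_pos hij, if_pos hij]
      rfl
    · rw [if_neg hij, if_neg hij, map_zero, Matrix.zero_apply]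
  rw [h1, det_submatrix_equiv_self, det_blockDiagonal, Finset.prod_eq_single q]
  · rw [Function.update_self]
  · intro i _ hi
    rw [Function.update_of_ne hi, map_one, det_one]
  · intro h
    exact absurd (Finset.mem_univ q) h

end det

section near

theorem simple_comm_near_aux {F R Ω D : Type} [NontriviallyNormedField F] [ProperSpace F]
    [IsUltrametricDist F] [Ring R] [Algebra F R] [FiniteDimensional F R] [IsSimpleRing R]
    [Algebra.IsCentral F R] [Field Ω] [Algebra F Ω] [NormedDivisionRing D] [IsUltrametricDist D]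
    [ProperSpace D] [NormedAlgebra F D] [FiniteDimensional F D] [Algebra.IsCentral F D] {m r : ℕ}
    (hm : 0 < m) (hr0 : 0 < r) (hr : finrank F D = r ^ 2) (e : R ≃ₐ[F] Matrix (Fin m) (Fin m) D)
    (hR : finrank F R = (m * r) ^ 2) (f : R →ₐ[F] Matrix (Fin (m * r)) (Fin (m * r)) Ω) {x : Rˣ}
    (hx : (f x).det = 1) {N : ℕ} (b : Basis (Fin N) F R) {ε : ℝ} (hε : 0 < ε) :
    ∃ c ∈ commutator Rˣ, (∀ j, ‖b.repr ((c : R) - x) j‖ < ε) ∧
      ∀ j, ‖b.repr (((c⁻¹ : Rˣ) : R) - ((x⁻¹ : Rˣ) : R)) j‖ < ε := by
  classical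
  obtain ⟨a, ha⟩ := NormedField.exists_one_lt_norm F
  have ha0 : algebraMap F D a ≠ 0 := by
    intro h
    have h1 : a = 0 := (algebraMap F D).injective (by rw [h, map_zero])
    rw [h1, norm_zero] at ha
    linarith
  have ha4 : (algebraMap F D a) ^ 4 ≠ 1 := by
    intro h
    have h1 : a ^ 4 = 1 := (algebraMap F D).injective (by rw [map_pow, h, map_one])
    have h2 : 1 < ‖a‖ ^ 4 := one_lt_pow₀ ha (by norm_num)
    rw [← norm_pow, h1, norm_one] at h2
    exact lt_irrefl _ h2
  obtain ⟨f0⟩ := Vale.Agent.P011.H268.exists_split_sepClosed (K := F) (A := D)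
    (E := SeparableClosure F) hr
  let ρ : Matrix (Fin m) (Fin m) D →ₐ[F]
      Matrix (Fin (m * r)) (Fin (m * r)) (SeparableClosure F) :=
    ((reindexAlgEquiv F (SeparableClosure F) finProdFinEquiv).toAlgHom.comp
      (compAlgEquiv (Fin m) (Fin r) (SeparableClosure F) F).toAlgHom).comp f0.mapMatrix
  have hρ : ∀ X, (ρ X).det = (Matrix.comp _ _ _ _ _ (X.map f0)).det := by
    intro X
    change (reindexAlgEquiv F (SeparableClosure F) finProdFinEquiv
      (compAlgEquiv (Fin m) (Fin r) (SeparableClosure F) F (f0.mapMatrix X))).det = _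
    rw [det_reindexAlgEquiv]
    rfl
  have hρx : (ρ (e x)).det = 1 := by
    have h1 := Vale.Agent.P011.H268.det_compare (Nat.mul_pos hm hr0) hR f
      (ρ.comp (e : R →ₐ[F] Matrix (Fin m) (Fin m) D)) (x : R) (ν := 1) (by rw [hx, map_one])
    rw [map_one] at h1
    exact h1
  let e' : Rˣ ≃* (Matrix (Fin m) (Fin m) D)ˣ := Units.mapEquiv e.toMulEquiv
  have he' : ∀ u : Rˣ, ((e' u : (Matrix (Fin m) (Fin m) D)ˣ) : Matrix (Fin m) (Fin m) D) = e u :=
    fun _ => rfl
  obtain ⟨t, ht, c0, h1⟩ := exists_dilation (⟨0, hm⟩ : Fin m) (e' x)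
  set q : Fin m := ⟨0, hm⟩ with hq
  have htc : t ∈ commutator (Matrix (Fin m) (Fin m) D)ˣ :=
    Em_le_commutator ha0 (fun y => Algebra.commutes a y) ha4 ht
  have htd : (ρ (t : Matrix (Fin m) (Fin m) D)).det = 1 := by
    let δ : (Matrix (Fin m) (Fin m) D)ˣ →* (SeparableClosure F)ˣ :=
      (Units.map (Matrix.detMonoidHom : Matrix (Fin (m * r)) (Fin (m * r)) (SeparableClosure F) →*
        SeparableClosure F)).comp (Units.map (ρ : Matrix (Fin m) (Fin m) D →*
          Matrix (Fin (m * r)) (Fin (m * r)) (SeparableClosure F)))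
    have h2 : δ t = 1 := Abelianization.commutator_subset_ker δ htc
    have h3 := congrArg (fun u : (SeparableClosure F)ˣ => (u : SeparableClosure F)) h2
    exact h3
  have hc0 : (f0 c0).det = 1 := by
    have h2 := det_dil (f0 : D →+* Matrix (Fin r) (Fin r) (SeparableClosure F)) q c0
    have h3 := hρ (diagonal (Function.update (fun _ => 1) q c0))
    rw [← h1, Units.val_mul, he', map_mul, det_mul, hρx, htd, one_mul] at h3
    rw [← h1, Units.val_mul, he'] at h2
    exact h2.symm.trans h3.symm
  have hc00 : c0 ≠ 0 := by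
    intro h
    have : Nonempty (Fin r) := ⟨⟨0, hr0⟩⟩
    rw [h, map_zero, det_zero] at hc0
    exact zero_ne_one hc0
  -- the linear maps
  let up : D →ₗ[F] Matrix (Fin m) (Fin m) D :=
    { toFun := fun y => single q q y
      map_add' := fun y z => single_add _ _ _ _
      map_smul' := fun c y => by
        rw [RingHom.id_apply, smul_single] }
  let L1 : D →ₗ[F] R := (e.symm.toLinearEquiv : Matrix (Fin m) (Fin m) D →ₗ[F] R).comp
    ((LinearMap.mulRight F ((t⁻¹ : (Matrix (Fin m) (Fin m) D)ˣ) : Matrix (Fin m) (Fin m) D)).comp up)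
  let L2 : D →ₗ[F] R := (e.symm.toLinearEquiv : Matrix (Fin m) (Fin m) D →ₗ[F] R).comp
    ((LinearMap.mulLeft F (t : Matrix (Fin m) (Fin m) D)).comp up)
  have hL1 : ∀ j, Continuous fun y : D => b.repr (L1 y) j := fun j =>
    LinearMap.continuous_of_finiteDimensional ((b.coord j).comp L1)
  have hL2 : ∀ j, Continuous fun y : D => b.repr (L2 y) j := fun j =>
    LinearMap.continuous_of_finiteDimensional ((b.coord j).comp L2)
  have hev : ∀ᶠ y in 𝓝 c0, (∀ j, ‖b.repr (L1 (y - c0)) j‖ < ε) ∧
      ∀ j, ‖b.repr (L2 (y⁻¹ - c0⁻¹)) j‖ < ε := by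
    refine Filter.Eventually.and ?_ ?_
    · refine Filter.eventually_all.mpr fun j => ?_
      have h2 : Continuous fun y : D => ‖b.repr (L1 (y - c0)) j‖ :=
        ((hL1 j).comp (continuous_id.sub continuous_const)).norm
      have h3 := h2.tendsto c0
      rw [sub_self, map_zero, map_zero, Finsupp.zero_apply, norm_zero] at h3
      exact h3.eventually (Iio_mem_nhds hε)
    · refine Filter.eventually_all.mpr fun j => ?_
      have h2 : ContinuousAt (fun y : D => ‖b.repr (L2 (y⁻¹ - c0⁻¹)) j‖) c0 :=
        ((hL2 j).continuousAt.comp ((continuousAt_inv₀ hc00).sub continuousAt_const)).norm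
      have h3 := h2.tendsto
      rw [sub_self, map_zero, map_zero, Finsupp.zero_apply, norm_zero] at h3
      exact h3.eventually (Iio_mem_nhds hε)
  obtain ⟨η, hη, hball⟩ := Metric.eventually_nhds_iff.mp hev
  obtain ⟨c, hc, hcn⟩ := Vale.Agent.P011.H738.exists_commutator_near hr0 hr f0 hc0 hη
  obtain ⟨h2, h3⟩ := hball (y := (c : D)) (by rw [dist_eq_norm]; exact hcn)
  have hx' : (x : R) = e.symm (diagonal (Function.update (fun _ => 1) q c0) *
      ((t⁻¹ : (Matrix (Fin m) (Fin m) D)ˣ) : Matrix (Fin m) (Fin m) D)) := by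
    rw [← h1, ← Units.val_mul, mul_inv_cancel_right, he', e.symm_apply_apply]
  have hx'' : ((x⁻¹ : Rˣ) : R) = e.symm ((t : Matrix (Fin m) (Fin m) D) *
      diagonal (Function.update (fun _ => 1) q c0⁻¹)) := by
    have h4 : e' x = dil q (Units.mk0 c0 hc00) * t⁻¹ := by
      rw [eq_mul_inv_iff_mul_eq]
      apply Units.ext
      rw [h1]
      rfl
    have h5 : e' x⁻¹ = t * (dil q (Units.mk0 c0 hc00))⁻¹ := by
      rw [map_inv, h4, _root_.mul_inv_rev, inv_inv]
    rw [← e.symm_apply_apply ((x⁻¹ : Rˣ) : R), ← he', h5]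
    rfl
  have hsub : ∀ y z : D, diagonal (Function.update (fun _ => 1) q y) -
      diagonal (Function.update (fun _ => 1) q z) = single q q (y - z) := by
    intro y z
    ext i j
    rw [Matrix.sub_apply, diagonal_apply, diagonal_apply, single_apply]
    by_cases hij : i = j
    · subst hij
      rw [if_pos rfl, if_pos rfl]
      by_cases hi : q = i
      · subst hi
        rw [Function.update_self, Function.update_self, if_pos ⟨rfl, rfl⟩]
      · rw [Function.update_of_ne (Ne.symm hi), Function.update_of_ne (Ne.symm hi), sub_self,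
          if_neg fun h => hi h.1]
    · rw [if_neg hij, if_neg hij, sub_self, if_neg fun h => hij (h.1.symm.trans h.2)]
  refine ⟨e'.symm (dil q c * t⁻¹), ?_, fun j => ?_, fun j => ?_⟩
  · have h4 : (commutator (Matrix (Fin m) (Fin m) D)ˣ).map
        (e'.symm : (Matrix (Fin m) (Fin m) D)ˣ →* Rˣ) ≤ commutator Rˣ := by
      rw [commutator_def, Subgroup.map_commutator, commutator_def]
      exact Subgroup.commutator_mono le_top le_top
    have h5 : (commutator Dˣ).map (dil q) ≤ commutator (Matrix (Fin m) (Fin m) D)ˣ := by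
      rw [commutator_def, Subgroup.map_commutator, commutator_def]
      exact Subgroup.commutator_mono le_top le_top
    exact h4 ⟨_, Subgroup.mul_mem _ (h5 ⟨c, hc, rfl⟩) (Subgroup.inv_mem _ htc), rfl⟩
  · have h4 : ((e'.symm (dil q c * t⁻¹) : Rˣ) : R) - x = L1 ((c : D) - c0) := by
      change e.symm (diagonal (Function.update (fun _ => 1) q (c : D)) *
        ((t⁻¹ : (Matrix (Fin m) (Fin m) D)ˣ) : Matrix (Fin m) (Fin m) D)) - (x : R) =
        e.symm (single q q ((c : D) - c0) *
        ((t⁻¹ : (Matrix (Fin m) (Fin m) D)ˣ) : Matrix (Fin m) (Fin m) D))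
      rw [hx', ← map_sub, ← sub_mul, hsub]
    rw [h4]
    exact h2 j
  · have h4 : (((e'.symm (dil q c * t⁻¹))⁻¹ : Rˣ) : R) - ((x⁻¹ : Rˣ) : R) =
        L2 ((c : D)⁻¹ - c0⁻¹) := by
      have h5 : (((e'.symm (dil q c * t⁻¹))⁻¹ : Rˣ) : R) =
          e.symm ((t : Matrix (Fin m) (Fin m) D) *
            diagonal (Function.update (fun _ => 1) q (c : D)⁻¹)) := by
        rw [← map_inv, _root_.mul_inv_rev, inv_inv]
        rw [← Units.val_inv_eq_inv_val]
        rfl
      change _ = e.symm ((t : Matrix (Fin m) (Fin m) D) * single q q ((c : D)⁻¹ - c0⁻¹))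
      rw [h5, hx'', ← map_sub, ← mul_sub, hsub]
    rw [h4]
    exact h3 j

/-- **Elements of reduced norm one of a simple algebra over a local field are limits of products of
commutators.** -/
theorem simple_comm_near {F R Ω : Type} [NontriviallyNormedField F] [ProperSpace F]
    [IsUltrametricDist F] [Ring R] [Algebra F R] [FiniteDimensional F R] [IsSimpleRing R]
    [Algebra.IsCentral F R] [Field Ω] [Algebra F Ω] {n : ℕ} (hn : 0 < n)
    (hR : finrank F R = n ^ 2) (f : R →ₐ[F] Matrix (Fin n) (Fin n) Ω) {x : Rˣ}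
    (hx : (f x).det = 1) {N : ℕ} (b : Basis (Fin N) F R) {ε : ℝ} (hε : 0 < ε) :
    ∃ c ∈ commutator Rˣ, (∀ j, ‖b.repr ((c : R) - x) j‖ < ε) ∧
      ∀ j, ‖b.repr (((c⁻¹ : Rˣ) : R) - ((x⁻¹ : Rˣ) : R)) j‖ < ε := by
  classical
  have hart : IsArtinianRing R := IsArtinianRing.of_finite F R
  obtain ⟨m, hm, D, _, _, _, ⟨e⟩⟩ :=
    IsSimpleRing.exists_algEquiv_matrix_divisionRing_finite F R
  have hcenM : Algebra.IsCentral F (Matrix (Fin m) (Fin m) D) :=
    Algebra.IsCentral.of_algEquiv _ _ _ e
  have hcen : Algebra.IsCentral F D := by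
    refine ⟨fun c hc => ?_⟩
    rw [Subalgebra.mem_center_iff] at hc
    have h1 : Matrix.scalar (Fin m) c ∈ Subalgebra.center F (Matrix (Fin m) (Fin m) D) := by
      rw [Subalgebra.mem_center_iff]
      intro M
      ext i j
      rw [Matrix.scalar_apply, Matrix.mul_diagonal, Matrix.diagonal_mul]
      exact hc _
    rw [Algebra.IsCentral.center_eq_bot, Algebra.mem_bot] at h1
    obtain ⟨e, he⟩ := h1
    rw [Algebra.mem_bot]
    refine ⟨e, ?_⟩
    have h2 := congrFun (congrFun he 0) 0
    rw [Matrix.scalar_apply, Matrix.diagonal_apply_eq, Matrix.algebraMap_matrix_apply,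
      if_pos rfl] at h2
    exact h2
  -- the degree of `D`
  have hdim : m ^ 2 * finrank F D = n ^ 2 := by
    rw [← hR, e.toLinearEquiv.finrank_eq, Module.finrank_matrix, Fintype.card_fin, pow_two]
  have hm0 : 0 < m := Nat.pos_of_ne_zero hm.ne
  obtain ⟨r, rfl⟩ : m ∣ n := (Nat.pow_dvd_pow_iff two_ne_zero).mp ⟨_, hdim.symm⟩
  have hr : finrank F D = r ^ 2 := by
    rw [mul_pow] at hdim
    exact Nat.eq_of_mul_eq_mul_left (by positivity) hdim
  have hr0 : 0 < r := Nat.pos_of_mul_pos_left hn
  let hN : NormedDivisionRing D := Vale.Agent.P011.H738.ndNormed F (D := D)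
  have hU : IsUltrametricDist D := Vale.Agent.P011.H738.ndNormed_ultra F
  have hP : ProperSpace D := Vale.Agent.P011.H738.ndNormed_proper F
  let hAlg : NormedAlgebra F D := { (inferInstance : Algebra F D) with
    norm_smul_le := fun a x => by
      change Vale.Agent.P011.H738.nu F (a • x) ≤ ‖a‖ * Vale.Agent.P011.H738.nu F x
      rw [Vale.Agent.P011.H738.nu_smul] }
  exact simple_comm_near_aux hm0 hr0 hr e hR f hx b hε

end near

end Vale.Agent.P011.H698
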