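import Vale.Agent.P011.H698.T1FF
import Vale.Agent.P011.H698.PlusLoc

/-!
# Function fields: removing all places which are not of division type
-/

open Module Matrix Topology commutatorElement TensorProduct

set_option linter.unusedSectionVars false

namespace Vale.Agent.P011.H698

open Vale.Agent.P011.H738 Vale.Agent.P011.H271 Vale.Agent.P011.H74 Vale.Agent.P011.H976
  Vale.Agent.P011.H961

section abs

variable {G : Type*} [Group G] {P : Type*} [Finite P] [DecidableEq P] {E : P → Type*}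
  [∀ v, Group (E v)] [∀ v, TopologicalSpace (E v)] [∀ v, IsTopologicalGroup (E v)]

/-- **Removing places, abstractly**, all elements. -/
theorem rem_abs' (ι : ∀ v, G →* E v) (hd : DenseRange fun (g : G) (v : P) => ι v g)
    (Q G₀ : Subgroup G) [Q.Normal] (hQ : Q ≤ G₀) {O : Set (∀ v, E v)} (hO : O ∈ 𝓝 1)
    (hOQ : ∀ g ∈ G₀, (fun v => ι v g) ∈ O → g ∈ Q) (S : Set P) {u : G} (hu : u ∈ Q)
    (hloc : ∀ v ∉ S, ∀ M : Subgroup (E v), M.Normal → IsClosed (M : Set (E v)) →
      (∀ a : G, ι v ⁅a, u⁆ ∈ M) → ∀ g ∈ G₀, ι v g ∈ M) :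
    ∃ W : ∀ v, Set (E v), (∀ v, W v ∈ 𝓝 1) ∧
      ∀ g ∈ G₀, (∀ v ∈ S, ι v g ∈ W v) → g ∈ Q := by
  classical
  let j : G →* (∀ v, E v) := MonoidHom.pi ι
  set cl : Subgroup (∀ v, E v) := (Q.map j).topologicalClosure with hcl
  have hclosed : IsClosed (cl : Set (∀ v, E v)) := Subgroup.isClosed_topologicalClosure _
  have hmem : ∀ h ∈ Q, j h ∈ cl := fun h hh =>
    Subgroup.le_topologicalClosure _ ⟨h, hh, rfl⟩
  -- the closure is normal
  have hconj1 : ∀ g : G, ∀ x ∈ cl, j g * x * (j g)⁻¹ ∈ cl := by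
    intro g
    have hc : IsClosed {x : ∀ v, E v | j g * x * (j g)⁻¹ ∈ cl} :=
      hclosed.preimage (by fun_prop)
    refine fun x hx => ?_
    have h1 : (cl : Set (∀ v, E v)) ⊆ {x : ∀ v, E v | j g * x * (j g)⁻¹ ∈ cl} := by
      rw [hcl, Subgroup.topologicalClosure_coe]
      refine closure_minimal ?_ hc
      rintro _ ⟨h, hh, rfl⟩
      rw [Set.mem_ofPred_eq, ← map_inv, ← map_mul, ← map_mul]
      exact hmem _ ((inferInstance : Q.Normal).conj_mem h hh g)
    exact h1 hx
  have hconj : ∀ p : ∀ v, E v, ∀ x ∈ cl, p * x * p⁻¹ ∈ cl := by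
    intro p x hx
    have hc : IsClosed {p : ∀ v, E v | p * x * p⁻¹ ∈ cl} :=
      hclosed.preimage (by fun_prop)
    have h1 : closure (Set.range fun (g : G) (v : P) => ι v g) ⊆
        {p : ∀ v, E v | p * x * p⁻¹ ∈ cl} := by
      refine closure_minimal ?_ hc
      rintro _ ⟨g, rfl⟩
      exact hconj1 g x hx
    exact h1 (hd p)
  have hnormal : cl.Normal := ⟨fun x hx p => hconj p x hx⟩
  -- the local subgroups
  have hM : ∀ v ∉ S, ∀ g ∈ G₀, Pi.mulSingle v (ι v g) ∈ cl := by
    intro v hv g hg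
    have hsc : Continuous (MonoidHom.mulSingle E v) := by
      change Continuous fun x => Pi.mulSingle v x
      exact continuous_mulSingle v
    refine hloc v hv (cl.comap (MonoidHom.mulSingle E v)) inferInstance
      (hclosed.preimage hsc) (fun a => ?_) g hg
    rw [Subgroup.mem_comap, MonoidHom.mulSingle_apply]
    have h1 : (Pi.mulSingle v (ι v ⁅a, u⁆) : ∀ v, E v) =
        (Pi.mulSingle v (ι v a) * j u * (Pi.mulSingle v (ι v a))⁻¹) * (j u)⁻¹ := by
      funext w
      by_cases hw : w = v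
      · subst hw
        rw [Pi.mulSingle_eq_same, Pi.mul_apply, Pi.mul_apply, Pi.mul_apply, Pi.inv_apply,
          Pi.inv_apply, Pi.mulSingle_eq_same, commutatorElement_def, map_mul, map_mul, map_mul,
          map_inv, map_inv]
        rfl
      · rw [Pi.mulSingle_eq_of_ne hw, Pi.mul_apply, Pi.mul_apply, Pi.mul_apply, Pi.inv_apply,
          Pi.inv_apply, Pi.mulSingle_eq_of_ne hw, inv_one, mul_one, one_mul, mul_inv_cancel]
    rw [h1]
    exact cl.mul_mem (hconj _ _ (hmem u hu)) (cl.inv_mem (hmem u hu))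
  -- the neighbourhoods
  obtain ⟨O₁, hO₁, h1O, hOO⟩ := exists_open_nhds_one_mul_subset hO
  have hO₁' : O₁ ∈ 𝓝 (1 : ∀ v, E v) := hO₁.mem_nhds h1O
  rw [nhds_pi, Filter.mem_pi] at hO₁'
  obtain ⟨I, hI, W, hW, hIW⟩ := hO₁'
  refine ⟨W, hW, fun g hg hab => ?_⟩
  let y : ∀ v, E v := fun v => if v ∈ S then 1 else ι v g
  have hy : y ∈ cl := by
    refine Subgroup.pi_mem_of_mulSingle_mem _ fun v => ?_
    by_cases hv : v ∈ S
    · have : y v = 1 := if_pos hv
      rw [this, Pi.mulSingle_one]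
      exact cl.one_mem
    · have : y v = ι v g := if_neg hv
      rw [this]
      exact hM v hv g hg
  have hz : y⁻¹ * j g ∈ O₁ := by
    refine hIW fun v _ => ?_
    by_cases hv : v ∈ S
    · have : y v = 1 := if_pos hv
      rw [Pi.mul_apply, Pi.inv_apply, this, inv_one, one_mul]
      exact hab v hv
    · have : y v = ι v g := if_neg hv
      rw [Pi.mul_apply, Pi.inv_apply, this]
      have h2 : j g v = ι v g := rfl
      rw [h2, inv_mul_cancel]
      exact mem_of_mem_nhds (hW v)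
  obtain ⟨_, hp, h, hh, rfl⟩ : ({p : ∀ v, E v | p⁻¹ * y ∈ O₁} ∩
      (Q.map j : Set (∀ v, E v))).Nonempty := by
    have h2 : y ∈ closure (Q.map j : Set (∀ v, E v)) := by
      rw [← Subgroup.topologicalClosure_coe]
      exact hy
    refine mem_closure_iff_nhds.mp h2 _ ?_
    have hc : Continuous fun p : ∀ v, E v => p⁻¹ * y := by fun_prop
    refine hc.continuousAt.preimage_mem_nhds ?_
    have : y⁻¹ * y = 1 := inv_mul_cancel y
    rw [this]
    exact hO₁.mem_nhds h1O
  have h3 : j (h⁻¹ * g) ∈ O := by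
    have : j (h⁻¹ * g) = ((j h)⁻¹ * y) * (y⁻¹ * j g) := by
      rw [map_mul, map_inv]
      group
    rw [this]
    exact hOO (Set.mul_mem_mul hp hz)
  have h5 := hOQ _ (G₀.mul_mem (G₀.inv_mem (hQ hh)) hg) h3
  have h6 := Q.mul_mem hh h5
  rwa [mul_inv_cancel_left] at h6

end abs

section bij

/-- Functionals are bounded by the coordinates. -/
theorem functional_bound {F V : Type*} [NormedField F] [AddCommGroup V] [Module F V] {N : ℕ}
    (b : Basis (Fin N) F V) (g : V →ₗ[F] F) : ∃ C : ℝ, 0 < C ∧ ∀ (r : V) (ε : ℝ),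
      (∀ j, ‖b.repr r j‖ < ε) → 0 < ε → ‖g r‖ ≤ C * ε := by
  refine ⟨1 + ∑ j, ‖g (b j)‖, by positivity, fun r ε h hε => ?_⟩
  have h1 : g r = ∑ j, b.repr r j * g (b j) := by
    conv_lhs => rw [← b.sum_repr r, map_sum]
    refine Finset.sum_congr rfl fun j _ => ?_
    rw [map_smul, smul_eq_mul]
  rw [h1, add_mul, one_mul]
  calc ‖∑ j, b.repr r j * g (b j)‖ ≤ ∑ j, ‖b.repr r j * g (b j)‖ := norm_sum_le _ _
    _ ≤ ∑ j, ‖g (b j)‖ * ε := by
        refine Finset.sum_le_sum fun j _ => ?_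
        rw [norm_mul, mul_comm]
        exact mul_le_mul_of_nonneg_left (h j).le (norm_nonneg _)
    _ = (∑ j, ‖g (b j)‖) * ε := by rw [Finset.sum_mul]
    _ ≤ ε + (∑ j, ‖g (b j)‖) * ε := by linarith

variable {k F A E : Type} [Field k] [NormedField F] [Algebra k F]
  [Ring A] [StarRing A] [Algebra k A] [Ring E] [StarRing E] [TopologicalSpace E]
  [IsTopologicalRing E] [Algebra F E] {N N' : ℕ} (H : BCR k F A E (Fin N))
  {R : Type*} [Ring R] [Algebra F R]

include H in
/-- Closed subgroups which contain the commutators, at the split places. -/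
theorem mem_of_bij (bR : Basis (Fin N') F R) (P : E →ₗ[F] R) (p : E →+* R)
    (hPp : ∀ x, P x = p x) (hbij : Function.Bijective fun x : E => (p x, p (star x)))
    {M : Subgroup (UA E)} (hMc : IsClosed (M : Set (UA E))) (hM : ∀ a b : UA E, ⁅a, b⁆ ∈ M)
    (x : UA E) (hx : ∀ ε : ℝ, 0 < ε → ∀ r : Rˣ, (r : R) = p ((x : Eˣ) : E) →
      ∃ c ∈ commutator Rˣ, (∀ j, ‖bR.repr ((c : R) - r) j‖ < ε) ∧
        ∀ j, ‖bR.repr (((c⁻¹ : Rˣ) : R) - ((r⁻¹ : Rˣ) : R)) j‖ < ε) : x ∈ M := by
  have hinj : ∀ x y : E, p x = p y → p (star x) = p (star y) → x = y := fun x y h1 h2 =>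
    hbij.1 (Prod.ext h1 h2)
  set π : UA E →* Rˣ := (Units.map (p : E →* R)).comp (UA E).subtype with hπ
  have hπc : ∀ x : UA E, ((π x : Rˣ) : R) = p ((x : Eˣ) : E) := fun _ => rfl
  have hπi : ∀ x : UA E, (((π x)⁻¹ : Rˣ) : R) = p (star ((x : Eˣ) : E)) := by
    intro x
    rw [← map_inv, hπc, ua_inv]
  have hsurj : Function.Surjective π := by
    intro r
    obtain ⟨x, hx⟩ := hbij.2 ((r : R), ((r⁻¹ : Rˣ) : R))
    have hx1 : p x = r := congrArg Prod.fst hx
    have hx2 : p (star x) = ((r⁻¹ : Rˣ) : R) := congrArg Prod.snd hx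
    have h1 : x * star x = 1 := by
      apply hinj
      · rw [map_mul, hx1, hx2, map_one, Units.mul_inv]
      · rw [star_mul, star_star, map_mul, hx1, hx2, star_one, map_one, Units.mul_inv]
    have h2 : star x * x = 1 := by
      apply hinj
      · rw [map_mul, hx1, hx2, map_one, Units.inv_mul]
      · rw [star_mul, star_star, map_mul, hx1, hx2, star_one, map_one, Units.inv_mul]
    exact ⟨⟨⟨x, star x, h1, h2⟩, h1⟩, Units.ext hx1⟩
  let Q : E ≃ₗ[F] R × R := LinearEquiv.ofBijective (P.prod (P.comp H.starL)) (by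
    have h1 : (fun x : E => (p x, p (star x))) = (P.prod (P.comp H.starL) : E → R × R) := by
      funext y
      exact Prod.ext (hPp y).symm (hPp (star y)).symm
    rw [← h1]
    exact hbij)
  have hQ : ∀ y : E, Q y = (p y, p (star y)) := fun y => Prod.ext (hPp y) (hPp (star y))
  -- the coordinates of `E`
  let ℓ : Fin N → E →ₗ[F] F := fun i => (LinearMap.proj (φ := fun _ => F) i).comp (H.φ.toLinearEquiv : E →ₗ[F] _)
  have h1 := fun i => functional_bound bR
    (((ℓ i).comp (Q.symm : R × R →ₗ[F] E)).comp (LinearMap.inl F R R))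
  have h2 := fun i => functional_bound bR
    (((ℓ i).comp (Q.symm : R × R →ₗ[F] E)).comp (LinearMap.inr F R R))
  choose C hC hCb using h1
  choose C' hC' hCb' using h2
  have hcl : x ∈ closure (M : Set (UA E)) := by
    rw [mem_closure_iff_nhds]
    intro O hO
    obtain ⟨δ, hδ, hδO⟩ := nhds_UA H x hO
    obtain ⟨ε, hε, hεle⟩ := exists_pos_le (fun i => δ / (2 * (C i + C' i))) fun i => by
      have := hC i
      have := hC' i
      positivity
    obtain ⟨c, hc, hc1, hc2⟩ := hx ε hε (π x) (hπc x)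
    have h3 : commutator Rˣ ≤ M.map π := by
      rw [commutator_def, Subgroup.commutator_le]
      intro a _ b _
      obtain ⟨a, rfl⟩ := hsurj a
      obtain ⟨b, rfl⟩ := hsurj b
      exact ⟨_, hM a b, map_commutatorElement _ _ _⟩
    obtain ⟨m, hm, rfl⟩ := h3 hc
    refine ⟨m, hδO m fun i => ?_, hm⟩
    have h4 : (((m : Eˣ) : E) - ((x : Eˣ) : E)) =
        Q.symm (((π m : Rˣ) : R) - ((π x : Rˣ) : R),
          (((π m)⁻¹ : Rˣ) : R) - (((π x)⁻¹ : Rˣ) : R)) := by
      rw [LinearEquiv.eq_symm_apply, hQ, hπi, hπi, hπc, hπc, star_sub, map_sub, map_sub]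
    have h5 : H.φ (((m : Eˣ) : E) - ((x : Eˣ) : E)) i =
        (((ℓ i).comp (Q.symm : R × R →ₗ[F] E)).comp (LinearMap.inl F R R))
          (((π m : Rˣ) : R) - ((π x : Rˣ) : R)) +
        (((ℓ i).comp (Q.symm : R × R →ₗ[F] E)).comp (LinearMap.inr F R R))
          ((((π m)⁻¹ : Rˣ) : R) - (((π x)⁻¹ : Rˣ) : R)) := by
      rw [LinearMap.comp_apply, LinearMap.comp_apply (_ : R × R →ₗ[F] F) (LinearMap.inr F R R),
        ← map_add, LinearMap.inl_apply, LinearMap.inr_apply, Prod.mk_add_mk, add_zero, zero_add,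
        LinearMap.comp_apply, LinearEquiv.coe_coe, ← h4]
      rfl
    rw [h5]
    refine (norm_add_le _ _).trans_lt ?_
    have h6 := hCb i _ ε hc1 hε
    have h7 := hCb' i _ ε hc2 hε
    have h8 := hεle i
    have h9 := hC i
    have h10 := hC' i
    calc _ ≤ C i * ε + C' i * ε := add_le_add h6 h7
      _ = (C i + C' i) * ε := by ring
      _ ≤ (C i + C' i) * (δ / (2 * (C i + C' i))) := by
          refine mul_le_mul_of_nonneg_left h8 (by positivity)
      _ = δ / 2 := by field_simp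
      _ < δ := by linarith
  rwa [hMc.closure_eq] at hcl

end bij

section herm

variable {E : Type} [Ring E] [StarRing E] {n : ℕ} {L : Type*} [NormedField L] [StarRing L]

/-- Normal subgroups contain the elements of determinant one, from a hermitian model. -/
theorem mem_of_herm (p : E →+* Matrix (Fin n) (Fin n) L) (hbij : Function.Bijective p)
    {H : Matrix (Fin n) (Fin n) L} (hdet : H.det ≠ 0)
    (hpH : ∀ x, p (star x) * H = H * (p x)ᴴ) (hloc : LocN (UH H)) {M : Subgroup (UA E)}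
    (hM : M.Normal) (hns : ∃ x ∈ M, ∃ y : E, ((x : Eˣ) : E) * y ≠ y * ((x : Eˣ) : E)) (x : UA E)
    (hx : (p ((x : Eˣ) : E)).det = 1) : x ∈ M := by
  set π : UA E →* (Matrix (Fin n) (Fin n) L)ˣ :=
    (Units.map (p : E →* Matrix (Fin n) (Fin n) L)).comp (UA E).subtype with hπ
  have hπc : ∀ x : UA E, ((π x : (Matrix (Fin n) (Fin n) L)ˣ) : Matrix (Fin n) (Fin n) L) =
    p ((x : Eˣ) : E) := fun _ => rfl
  have hHu : IsUnit H := (Matrix.isUnit_iff_isUnit_det H).mpr (isUnit_iff_ne_zero.mpr hdet)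
  have hmem : ∀ x : UA E, π x ∈ UH H := by
    intro x
    rw [mem_UH, hπc, mul_assoc, ← hpH, ← mul_assoc, ← map_mul, ua_mul_star, map_one, one_mul]
  have hπinj : Function.Injective π := by
    intro x y h
    apply Subtype.ext
    apply Units.ext
    apply hbij.1
    rw [← hπc, ← hπc, h]
  have hsurj : ∀ T ∈ UH H, ∃ x : UA E, π x = T := by
    intro T hT
    obtain ⟨x, hx⟩ := hbij.2 (T : Matrix (Fin n) (Fin n) L)
    have h1 : x * star x = 1 := by
      apply hbij.1
      obtain ⟨Hu, rfl⟩ := hHu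
      rw [← Units.mul_left_inj Hu, map_mul, mul_assoc, hpH, hx, ← mul_assoc, map_one, one_mul]
      exact hT
    have h2 : star x * x = 1 := by
      apply hbij.1
      have h3 : (p x) * (p (star x)) = 1 := by rw [← map_mul, h1, map_one]
      rw [map_mul, map_one]
      exact mul_eq_one_comm.mp h3
    exact ⟨⟨⟨x, star x, h1, h2⟩, h1⟩, Units.ext hx⟩
  have key := hloc (M.map π) (by
    rintro _ ⟨x, -, rfl⟩
    exact hmem x) (by
    rintro e he _ ⟨x, hx, rfl⟩
    obtain ⟨y, rfl⟩ := hsurj e he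
    rw [← map_inv, ← map_mul, ← map_mul]
    exact ⟨_, hM.conj_mem x hx y, rfl⟩) (by
    obtain ⟨x, hx, y, hy⟩ := hns
    refine ⟨π x, ⟨x, hx, rfl⟩, fun c hc => hy ?_⟩
    apply hbij.1
    rw [map_mul, map_mul, ← hπc, hc, smul_mul_assoc, mul_smul_comm, one_mul, mul_one])
    (π x) (hmem _) hx
  obtain ⟨m, hm, h1⟩ := key
  rwa [← hπinj h1]

end herm

section place

variable {k K A Ω : Type} [Field k] [Field K] [StarRing K] [Ring A] [StarRing A]
  [Algebra k K] [Algebra k A] [Algebra K A] [IsScalarTower k K A] [StarModule K A] {n N : ℕ}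
  [Field Ω] [Algebra K Ω]

/-- Closed normal subgroups at the split places. -/
theorem locS_split_place [GFF k] [StarLinR k A] (hA : Anis k K A n) (hn : n ≠ 0)
    (f : A →ₐ[K] Matrix (Fin n) (Fin n) Ω) (B : Basis (Fin N) k A)
    {v : Place k} (φ : K →ₐ[k] v.comp) {M : Subgroup (UA (BR B v.comp))}
    (hMc : IsClosed (M : Set (UA (BR B v.comp)))) (hM : ∀ a b : UA (BR B v.comp), ⁅a, b⁆ ∈ M)
    {g : UA A} (hg : g ∈ GA f) : jUA (bcrT B v.comp) g ∈ M := by
  classical
  let _ := ntComp v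
  let _ : Algebra K v.comp := (φ : K →+* v.comp).toAlgebra
  have hcen := hA.central
  have hsim := hA.simple
  have hfdA := hA.finiteDimensional hn
  have hfr : finrank v.comp (v.comp ⊗[K] A) = n ^ 2 := by
    rw [Module.finrank_baseChange, hA.finrank_eq]
  have hfd : FiniteDimensional v.comp (v.comp ⊗[K] A) :=
    FiniteDimensional.of_finrank_pos (by rw [hfr]; positivity)
  have hRs : IsSimpleRing (v.comp ⊗[K] A) := H268.isSimpleRing_baseChange
  have hRc : Algebra.IsCentral v.comp (v.comp ⊗[K] A) := H268.isCentral_baseChange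
  let j : A →+* v.comp ⊗[K] A := (Algebra.TensorProduct.includeRight : A →ₐ[K] _).toRingHom
  have hjv : ∀ x : A, j x = 1 ⊗ₜ[K] x := fun _ => rfl
  have hφ : ∀ c : K, j (algebraMap K A c) = algebraMap v.comp (v.comp ⊗[K] A) (φ c) := by
    intro c
    rw [hjv, Algebra.algebraMap_eq_smul_one, ← TensorProduct.smul_tmul,
      Algebra.TensorProduct.algebraMap_apply, Algebra.smul_def, mul_one]
    rfl
  have hj : ∀ (c : k) (x : A), j (c • x) = algebraMap k v.comp c • j x := by
    intro c x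
    rw [← algebraMap_smul K c x, Algebra.smul_def, map_mul, hφ, φ.commutes, Algebra.smul_def]
  have hspan : Submodule.span v.comp (Set.range j) = ⊤ := by
    rw [eq_top_iff]
    rintro y -
    induction y using TensorProduct.induction_on with
    | zero => exact Submodule.zero_mem _
    | tmul r a =>
      have h1 : r ⊗ₜ[K] a = r • ((1 : v.comp) ⊗ₜ[K] a) := by
        rw [TensorProduct.smul_tmul', smul_eq_mul, mul_one]
      rw [h1]
      exact Submodule.smul_mem _ _ (Submodule.subset_span ⟨a, rfl⟩)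
    | add y y' h h' => exact Submodule.add_mem _ h h'
  obtain ⟨f'⟩ := H268.exists_split_sepClosed (K := v.comp) (A := v.comp ⊗[K] A)
    (E := SeparableClosure v.comp) hfr
  have hdet : (f' (j ((g : Aˣ) : A))).det = 1 := by
    let _ : Algebra K (SeparableClosure v.comp) :=
      ((algebraMap v.comp (SeparableClosure v.comp)).comp (algebraMap K v.comp)).toAlgebra
    let g' : A →ₐ[K] Matrix (Fin n) (Fin n) (SeparableClosure v.comp) :=
      { (f' : v.comp ⊗[K] A →+* _).comp j with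
        commutes' := fun c => by
          change f' (j (algebraMap K A c)) = _
          rw [hφ, AlgHom.commutes]
          rfl }
    have h1 := H268.det_compare (Nat.pos_of_ne_zero hn) hA.finrank_eq f g' ((g : Aˣ) : A) (ν := 1)
      (by rw [map_one]; exact mem_GA.mp hg)
    rw [map_one] at h1
    exact h1
  refine mem_of_bij (bcrT B v.comp) (Module.finBasis v.comp (v.comp ⊗[K] A))
    (extAl (bcrT B v.comp) j) (extA (bcrT B v.comp) hj) (fun x => rfl)
    (bij_split (bcrT B v.comp) hA φ hφ hj hspan hfr hn) hMc hM _ fun ε hε r hr => ?_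
  have hr' : (r : v.comp ⊗[K] A) = j ((g : Aˣ) : A) := by
    rw [hr, jUA_coe]
    exact extAl_j (bcrT B v.comp) hj _
  exact simple_comm_near (Nat.pos_of_ne_zero hn) hfr f' (x := r) (by rw [hr']; exact hdet)
    (Module.finBasis v.comp (v.comp ⊗[K] A)) hε

/-- Normal subgroups at the places which do not split in the centre. -/
theorem locS_nonsplit_place [StarLinR k A] (hA : Anis k K A n) (hn : n ≠ 0)
    (f : A →ₐ[K] Matrix (Fin n) (Fin n) Ω)
    (B : Basis (Fin N) k A) {v : Place k} (hv : IsEmpty (K →ₐ[k] v.comp)) {L : Type}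
    [NontriviallyNormedField L] [StarRing L] [Algebra v.comp L] {φ : K →+* L}
    (hst : ∀ x : L, ‖star x‖ = ‖x‖) (hφs : ∀ x, φ (star x) = star (φ x))
    (hφk : ∀ c : k, φ (algebraMap k K c) = algebraMap v.comp L (algebraMap k v.comp c))
    (hLn : ∀ c : v.comp, ‖algebraMap v.comp L c‖ = ‖c‖) (hL : finrank v.comp L = 2)
    (g : A →+* Matrix (Fin n) (Fin n) L)
    (hgφ : ∀ c : K, g (algebraMap K A c) = algebraMap L _ (φ c))
    (hiso : ∀ H : Matrix (Fin n) (Fin n) L, Hᴴ = H →
      ∃ x : Fin n → L, x ≠ 0 ∧ x ⬝ᵥ (H *ᵥ star x) = 0) {M : Subgroup (UA (BR B v.comp))}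
    (hM : M.Normal) (hns : ∃ x ∈ M, ∃ y : BR B v.comp,
      ((x : (BR B v.comp)ˣ) : BR B v.comp) * y ≠ y * ((x : (BR B v.comp)ˣ) : BR B v.comp))
    {u : UA A} (hu : u ∈ GA f) : jUA (bcrT B v.comp) u ∈ M := by
  classical
  have hcen := hA.central
  have hsim := hA.simple
  have hfdA := hA.finiteDimensional hn
  have hne : ∃ x : L, star x ≠ x := by
    obtain ⟨w, hw⟩ := hA.star_ne
    refine ⟨φ w, fun h => hw (φ.injective ?_)⟩
    rw [hφs, h]
  -- the involution fixes the completion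
  have hfix : ∀ c : v.comp, star (algebraMap v.comp L c) = algebraMap v.comp L c := by
    have hiso1 : Isometry (algebraMap v.comp L) := by
      refine AddMonoidHomClass.isometry_of_norm _ hLn
    have hiso2 : Isometry (starRingEnd L) := AddMonoidHomClass.isometry_of_norm _ hst
    have h1 : (fun c : v.comp => star (algebraMap v.comp L c)) = fun c => algebraMap v.comp L c := by
      refine (H565.denseRange_comp v).equalizer ?_ ?_ ?_
      · exact (hiso2.comp hiso1).continuous
      · exact hiso1.continuous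
      · funext c
        change star (algebraMap v.comp L (algebraMap k v.comp c)) = _
        rw [← hφk, ← hφs, (hA.fixed _).mpr ⟨c, rfl⟩]
        exact hφk c
    exact fun c => congrFun h1 c
  obtain ⟨H, hH, hdet, hgH⟩ := H756.exists_herm hn hA.finrank_eq hne φ hφs g hgφ
  have hg : ∀ (c : k) (x : A), g (c • x) = algebraMap k v.comp c • g x := by
    intro c x
    rw [← algebraMap_smul K c x, Algebra.smul_def, map_mul, hgφ, hφk, ← algebraMap_smul L
      (algebraMap k v.comp c) (g x), Algebra.smul_def]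
  have hspan := H519.span_range_eq_top hA.finrank_eq hn φ g hgφ
  -- the hermitian identity
  have key : ∀ x : BR B v.comp, extAl (bcrT B v.comp) g (star x) * H =
      H * (extAl (bcrT B v.comp) g x)ᴴ := by
    intro x
    let c := bcrT B v.comp
    change extAl c g (star x) * H = H * (extAl c g x)ᴴ
    rw [← c.b.sum_repr x, star_sum, map_sum, map_sum, conjTranspose_sum, Finset.sum_mul,
      Finset.mul_sum]
    refine Finset.sum_congr rfl fun i _ => ?_
    rw [c.star_smul, map_smul, map_smul, c.b_apply, ← c.j_star, extAl_j c hg, extAl_j c hg,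
      smul_mul_assoc, hgH]
    have h1 : (c.b.repr x i • g (c.a i))ᴴ = c.b.repr x i • (g (c.a i))ᴴ := by
      rw [← algebraMap_smul L (c.b.repr x i) (g (c.a i)), conjTranspose_smul, hfix,
        algebraMap_smul]
    rw [h1, mul_smul_comm]
  refine mem_of_herm (extA (bcrT B v.comp) hg)
    (bij_nonsplit (bcrT B v.comp) hA hn hv hφk hL hgφ hg hspan) hdet key
    (H710.locN_u hne hst hH hdet (hiso H hH)) hM hns _ ?_
  have h1 : extA (bcrT B v.comp) hg (((jUA (bcrT B v.comp) u : UA (BR B v.comp)) :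
      (BR B v.comp)ˣ) : BR B v.comp) = g ((u : Aˣ) : A) := by
    rw [jUA_coe]
    exact extAl_j (bcrT B v.comp) hg _
  rw [h1]
  let _ : Algebra K L := φ.toAlgebra
  let g' : A →ₐ[K] Matrix (Fin n) (Fin n) L := { g with commutes' := fun c => hgφ c }
  have h2 := H268.det_compare (Nat.pos_of_ne_zero hn) hA.finrank_eq f g' ((u : Aˣ) : A) (ν := 1)
    (by rw [map_one]; exact mem_GA.mp hu)
  rw [map_one] at h2
  exact h2

/-- **Removing places**, all elements. -/
theorem rem_FF_all (hk : IsGlobalFunctionField k) (hA : Anis k K A n) (hn : 3 ≤ n)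
    (f : A →ₐ[K] Matrix (Fin n) (Fin n) Ω) (B : Basis (Fin N) k A) (h2 : SplitNS k K A n)
    (Q : Subgroup (UA A)) (hQn : Q.Normal) (hQ : Q ≤ GA f) (hQF : (Q : Set (UA A)) ∈ FNr f B) :
    ∃ T : Finset (Place k), (∀ v ∈ T, v ∈ Adiv k K A) ∧ ∃ ε : ℝ, 0 < ε ∧
      ∀ g ∈ GA f, (∀ v ∈ T, Sm B v ε (((g : Aˣ) : A) - 1)) → g ∈ Q := by
  classical
  have hgff := gff_of_isGlobal hk
  have hn0 : n ≠ 0 := by omega
  have hSL : StarLinR k A := ⟨H519.star_smul_of_anis hA⟩
  have hinf : Infinite k := by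
    obtain ⟨q, -⟩ := H519.exists_split_place hk hA hn0 ∅ 0
    exact infinite_of_place q
  obtain ⟨T, ε, hε, hT⟩ := mem_FNr.mp hQF
  -- an element of `Q` which is not central
  obtain ⟨u, hu, a₀, x₀, hx₀⟩ : ∃ u ∈ Q, ∃ a : UA A, ∃ x : A,
      (((⁅a, u⁆ : UA A) : Aˣ) : A) * x ≠ x * (((⁅a, u⁆ : UA A) : Aˣ) : A) := by
    obtain ⟨T', hTT', hT'⟩ := exists_big B T
    obtain ⟨q, hq, -, φ, g, hφ, -, hspan⟩ := H519.exists_split_place hk hA hn0 T 0
    obtain ⟨u, hu, hu', hun⟩ := exists_noncentral hA (by omega) hφ hspan f B hT' hε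
    have huQ : u ∈ Q := by
      refine hT u hu fun v hv => hu'.1 v (hTT' hv) ?_
      rw [Set.mem_singleton_iff]
      rintro rfl
      exact hq hv
    obtain ⟨a, x, hx⟩ := exists_comm_noncentral hA hn hφ hspan hun
    exact ⟨u, huQ, a, x, hx⟩
  let E : T → Type := fun v => BR B (v : Place k).comp
  let H : ∀ v : T, BCR k (v : Place k).comp A (BR B (v : Place k).comp) (Fin N) := fun v =>
    bcrT B (v : Place k).comp
  let ι : ∀ v : T, UA A →* UA (BR B (v : Place k).comp) := fun v => jUA (H v)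
  have hcoord : ∀ (v : T) (x : A) (i : Fin N),
      ‖(H v).φ ((H v).j x) i‖ = (v : Place k).abv (B.repr x i) := by
    intro v x i
    rw [(H v).φ_eq, norm_alg]
    rfl
  -- density
  have hdense : DenseRange fun (g : UA A) (v : T) => ι v g := by
    intro p
    rw [mem_closure_iff_nhds]
    intro O hO
    rw [nhds_pi, Filter.mem_pi] at hO
    obtain ⟨I, -, W, hW, hIW⟩ := hO
    choose δ hδ hδW using fun v : T => nhds_UA (H v) (p v) (hW v)
    obtain ⟨η, hη, hηδ⟩ := exists_pos_le δ hδ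
    obtain ⟨g, hg⟩ := weak_unitary hA B T (fun v => (((p v : UA (BR B (v : Place k).comp)) :
      (BR B (v : Place k).comp)ˣ) : BR B (v : Place k).comp))
      (fun v => ua_mul_star (p v)) (fun v => ua_star_mul (p v)) hη
    refine ⟨fun v => ι v g, hIW fun v _ => hδW v _ fun i => ?_, g, rfl⟩
    exact (hg v i).trans_le (hηδ v)
  have hO : {p : ∀ v : T, UA (BR B (v : Place k).comp) | ∀ v i,
      ‖(H v).φ ((((p v : UA (BR B (v : Place k).comp)) : (BR B (v : Place k).comp)ˣ) :
        BR B (v : Place k).comp) - 1) i‖ < ε} ∈ 𝓝 (1 : ∀ v : T, UA (BR B (v : Place k).comp)) := by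
    have h1 := set_pi_mem_nhds (x := (1 : ∀ v : T, UA (BR B (v : Place k).comp)))
      (Set.toFinite (Set.univ : Set T)) fun v _ => box_mem (H v) (1 : UA (BR B (v : Place k).comp)) hε
    refine Filter.mem_of_superset h1 fun p hp v i => ?_
    exact hp v (Set.mem_univ v) i
  obtain ⟨W, hW, hWQ⟩ := rem_abs' ι hdense Q (GA f) hQ hO
    (fun g hg hgO => hT g hg fun v hv i => by
      have h1 := hgO ⟨v, hv⟩ i
      change ‖(H ⟨v, hv⟩).φ ((H ⟨v, hv⟩).j ((g : Aˣ) : A) - 1) i‖ < ε at h1
      rw [← map_one (H ⟨v, hv⟩).j, ← map_sub, hcoord] at h1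
      exact h1)
    {v : T | (v : Place k) ∈ Adiv k K A} hu (fun v hv M hM hMc hMu g hg => by
      have hMns : ∃ x ∈ M, ∃ y : BR B (v : Place k).comp,
          ((x : (BR B (v : Place k).comp)ˣ) : BR B (v : Place k).comp) * y ≠
            y * ((x : (BR B (v : Place k).comp)ˣ) : BR B (v : Place k).comp) := by
        refine ⟨ι v ⁅a₀, u⁆, hMu a₀, (H v).j x₀, fun h => hx₀ ?_⟩
        apply (H v).j_inj
        rw [map_mul, map_mul]
        exact h
      by_cases hemp : IsEmpty (K →ₐ[k] (v : Place k).comp)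
      · obtain ⟨L, _, _, _, _, _, φ, hst, hφs, hd, hφk, hLn, hL⟩ :=
          exists_quad_field hA.fixed hA.star_ne (v : Place k) hemp
        obtain ⟨g₀, hg₀⟩ := h2 v hemp L φ hst hφs hd hφk hLn hL
        exact locS_nonsplit_place hA hn0 f B hemp hst hφs hφk hLn hL g₀ hg₀
          (fun H hH => H308.isotropic hk hA.fixed hA.star_ne hst φ hφs hd hn hH) hM hMns hg
      · rw [not_isEmpty_iff] at hemp
        obtain ⟨φ⟩ := hemp
        exact locS_split_place hA hn0 f B φ hMc (locE_split_place hA hn0 B φ hv M hM hMns) hg)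
  choose δ hδ hδW using fun v : T => nhds_UA (H v) (1 : UA (BR B (v : Place k).comp)) (hW v)
  obtain ⟨η, hη, hηδ⟩ := exists_pos_le δ hδ
  refine ⟨T.filter fun v => v ∈ Adiv k K A, fun v hv => (Finset.mem_filter.mp hv).2, η, hη,
    fun g hg hab => hWQ g hg fun v hv => hδW v _ fun i => ?_⟩
  have h1 := hab v (Finset.mem_filter.mpr ⟨v.2, hv⟩) i
  change ‖(H v).φ ((H v).j ((g : Aˣ) : A) - 1) i‖ < δ v
  rw [← map_one (H v).j, ← map_sub, hcoord]
  exact h1.trans_le (hηδ v)

end place

end Vale.Agent.P011.H698
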