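import Vale.Agent.P011.H698.LevFF
import Vale.Agent.P011.H976.Solv
import Vale.Agent.P011.H976.Sa

/-!
# Function fields: solvability of the finite quotients, conditional on the core
-/

open Module Filter

set_option linter.unusedSectionVars false

namespace Vale.Agent.P011.H698

open Vale.Agent.P011.H738 Vale.Agent.P011.H271 Vale.Agent.P011.H976

section

variable {k K A Ω : Type} [Field k] [Field K] [Ring A] [StarRing A] [Algebra k A] [Algebra K A]
  [Field Ω] [Algebra K Ω] {n N : ℕ} (f : A →ₐ[K] Matrix (Fin n) (Fin n) Ω)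
  (B : Basis (Fin N) k A)

theorem sua_le_ua : SUA f ≤ UA A := fun _ hg => hg.1

/-- The group `GA f` is the group `SUA f`. -/
noncomputable def eGA : GA f ≃* SUA f := Subgroup.subgroupOfEquivOfLe (sua_le_ua f)

theorem eGA_coe (g : GA f) : ((eGA f g : SUA f) : Aˣ) = ((g : UA A) : Aˣ) := rfl

/-- The filter of the neighbourhoods of one at finitely many places. -/
def FNr : Filter (UA A) where
  sets := {L | ∃ T : Finset (Place k), ∃ ε : ℝ, 0 < ε ∧
    ∀ u : UA A, u ∈ GA f → (∀ v ∈ T, Sm B v ε (((u : Aˣ) : A) - 1)) → u ∈ L}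
  univ_sets := ⟨∅, 1, one_pos, fun _ _ _ => trivial⟩
  sets_of_superset := by
    rintro L L' ⟨T, ε, hε, h⟩ hL
    exact ⟨T, ε, hε, fun u h1 h2 => hL (h u h1 h2)⟩
  inter_sets := by
    classical
    rintro L L' ⟨T, ε, hε, h⟩ ⟨T', ε', hε', h'⟩
    refine ⟨T ∪ T', min ε ε', lt_min hε hε', fun u h1 h2 => ⟨h u h1 fun v hv => ?_,
      h' u h1 fun v hv => ?_⟩⟩
    · exact (h2 v (Finset.mem_union_left _ hv)).mono (min_le_left _ _)
    · exact (h2 v (Finset.mem_union_right _ hv)).mono (min_le_right _ _)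

variable {f B}

theorem mem_FNr {L : Set (UA A)} : L ∈ FNr f B ↔ ∃ T : Finset (Place k), ∃ ε : ℝ, 0 < ε ∧
    ∀ u : UA A, u ∈ GA f → (∀ v ∈ T, Sm B v ε (((u : Aˣ) : A) - 1)) → u ∈ L := Iff.rfl

theorem FLv_le_FNr [GFF k] : FLv f B (∅ : Set (Place k)) ≤ FNr f B := by
  intro L hL
  obtain ⟨T, ε, hε, h⟩ := mem_FNr.mp hL
  obtain ⟨T', hTT', hT'⟩ := exists_big B T
  refine mem_FLv.mpr ⟨T', hT', min ε 1, lt_min hε one_pos, min_le_right _ _, fun u hu hu' =>
    h u hu fun v hv => (hu'.1 v (hTT' hv) (Set.notMem_empty _)).mono (min_le_left _ _)⟩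

end

section final

variable {k K A Ω : Type} [Field k] [GFF k] [Field K] [Ring A] [StarRing A] [Algebra k A]
  [Algebra K A] [Field Ω] [Algebra K Ω] {n N : ℕ}

/-- The subgroup contains the elements near one at finitely many places. -/
def Near (f : A →ₐ[K] Matrix (Fin n) (Fin n) Ω) (B : Basis (Fin N) k A)
    (C : Subgroup (SUA f)) : Prop :=
  ∃ (T : Finset (Place k)) (ε : ℝ), 0 < ε ∧
      ∀ g : SUA f, (∀ v ∈ T, ∀ i, v.abv (B.repr (((g : Aˣ) : A) - 1) i) < ε) → g ∈ C

/-- **Every finite quotient is solvable, conditional on the core** and on the solvability of the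
continuous finite quotients. -/
theorem solvable_of_core_FF (hst : ∀ (c : k) (x : A), star (c • x) = c • star x)
    (f : A →ₐ[K] Matrix (Fin n) (Fin n) Ω) (B : Basis (Fin N) k A) (S : Set (Place k))
    (hSA : ∀ Q : Subgroup (UA A), Q.Normal → Q ≤ GA f → (Q : Set (UA A)) ∈ FLv f B S →
      (Q : Set (UA A)) ∈ FNr f B)
    (hFG : ∃ X : Set (GA f), X.Finite ∧
      (Subgroup.closure X : Set (GA f)) ∈ Fc (GA f) (FLv f B S))
    (hcore : ∀ (E : Type) (_ : Group E) (c : UA A →* E) (R : Subgroup E),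
      Target0 (FLv f B S) c R → (∀ u : UA A, (∀ g ∈ GA f, u * g = g * u) → c u = 1) → False)
    (hpro : ∀ C : Subgroup (SUA f), C.Normal → C.index ≠ 0 → Near f B C →
      ∃ m, derivedSeries (SUA f) m ≤ C)
    (M : Subgroup (SUA f)) [M.Normal] (hi : M.index ≠ 0) : Group.IsSolvable (SUA f ⧸ M) := by
  rw [isSolvable_quotient_iff]
  by_contra hcon
  set M' : Subgroup (GA f) := M.comap (eGA f : GA f →* SUA f) with hM'
  have hM'n : M'.Normal := inferInstance
  have hM'i : M'.FiniteIndex := ⟨by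
    rw [hM', Subgroup.index_comap_of_surjective _ (eGA f).surjective]
    exact hi⟩
  have htr : ∀ (C : Subgroup (GA f)) (m : ℕ), derivedSeries (GA f) m ≤ C →
      derivedSeries (SUA f) m ≤ C.map (eGA f : GA f →* SUA f) := by
    intro C m h
    rw [← map_derivedSeries_eq (f := (eGA f : GA f →* SUA f)) (eGA f).surjective m]
    exact Subgroup.map_mono h
  have hnot : ¬ Group.IsSolvable (GA f ⧸ M') := by
    rw [isSolvable_quotient_iff]
    rintro ⟨m, hm⟩
    refine hcon ⟨m, (htr _ m hm).trans ?_⟩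
    rw [hM']
    exact Subgroup.map_comap_le _ _
  rcases exists_target0 (GA f) (lev_FLv hst S) hFG M' hnot with
    ⟨E, iE, c, R, hT, hc⟩ | ⟨C, hCn, hNC, hCi, hCF, hCs⟩
  · exact hcore E iE c R hT hc
  · obtain ⟨Q, hQn, hQG, hQF, hQ1, hQC⟩ := mem_of_SA (F₁ := FNr f B) (GA f)
      (lev_FLv hst S) (GA_mem S) hSA hFG C hCF
    obtain ⟨T, ε, hε, h⟩ := mem_FNr.mp hQ1
    have hmap : (C.map (eGA f : GA f →* SUA f)).Normal :=
      Subgroup.Normal.map hCn _ (eGA f).surjective
    have hPF : Near f B (C.map (eGA f : GA f →* SUA f)) := by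
      refine ⟨T, ε, hε, fun g hg => ?_⟩
      obtain ⟨u, rfl⟩ := (eGA f).surjective g
      exact ⟨u, hQC u (h u u.2 hg), rfl⟩
    have hidx : (C.map (eGA f : GA f →* SUA f)).index ≠ 0 := by
      have := Subgroup.index_map_of_bijective (f := (eGA f : GA f →* SUA f)) (eGA f).bijective C
      rw [this]
      exact hCi.index_ne_zero
    obtain ⟨m, hm⟩ := hpro _ hmap hidx hPF
    apply hCs
    rw [isSolvable_quotient_iff]
    refine ⟨m, fun g hg => ?_⟩
    have h2 : eGA f g ∈ derivedSeries (SUA f) m := by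
      rw [← map_derivedSeries_eq (f := (eGA f : GA f →* SUA f)) (eGA f).surjective m]
      exact ⟨g, hg, rfl⟩
    obtain ⟨g', hg', h3⟩ := hm h2
    rwa [(eGA f).injective h3] at hg'

end final

end Vale.Agent.P011.H698
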