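import Vale.Agent.P011.H698.Bd
import Vale.Agent.P011.H976.Full

/-!
# Levels over function fields

The level given by a finite set `T` of places and `ε`, without conditions at the places in `S`, and
the filter of neighbourhoods of one which it generates on the group of unitary elements.
-/

open Module Filter

set_option linter.unusedSectionVars false

namespace Vale.Agent.P011.H698

open Vale.Agent.P011.H738 Vale.Agent.P011.H271 Vale.Agent.P011.H976

section levels

variable {k A : Type} [Field k] [Ring A] [StarRing A] [Algebra k A] {N : ℕ}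
  (B : Basis (Fin N) k A)

/-- The level given by `T` and `ε`, without conditions at the places in `S`. -/
def Lv (S : Set (Place k)) (T : Finset (Place k)) (ε : ℝ) : Set A :=
  {g | (∀ v ∈ T, v ∉ S → Sm B v ε (g - 1)) ∧ ∀ v ∉ T, v ∉ S → Bd B v 1 g}

/-- The finite set `T` contains the bad places. -/
def Big (T : Finset (Place k)) : Prop := ∀ v ∉ T, Gd B v

theorem exists_big [GFF k] (T : Finset (Place k)) : ∃ T' : Finset (Place k), T ⊆ T' ∧ Big B T' := by
  classical
  refine ⟨T ∪ (finite_bad B).toFinset, Finset.subset_union_left, fun v hv => ?_⟩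
  by_contra hcon
  exact hv (Finset.mem_union_right _ ((finite_bad B).mem_toFinset.mpr hcon))

variable {B}

theorem Big.mono {T T' : Finset (Place k)} (h : Big B T) (hT : T ⊆ T') : Big B T' :=
  fun v hv => h v fun h' => hv (hT h')

theorem lv_mono_S {S S' : Set (Place k)} {T : Finset (Place k)} {ε : ℝ} (h : S ⊆ S') :
    Lv B S T ε ⊆ Lv B S' T ε := fun _ hg =>
  ⟨fun v hv hv' => hg.1 v hv fun h' => hv' (h h'), fun v hv hv' => hg.2 v hv fun h' => hv' (h h')⟩

theorem lv_mono {S : Set (Place k)} {T T' : Finset (Place k)} {ε ε' : ℝ} (hT : T ⊆ T')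
    (hb : Big B T) (hε : ε' ≤ ε) (hε1 : ε' ≤ 1) : Lv B S T' ε' ⊆ Lv B S T ε := by
  rintro g ⟨h1, h2⟩
  refine ⟨fun v hv hv' => (h1 v (hT hv) hv').mono hε, fun v hv hv' => ?_⟩
  by_cases hv2 : v ∈ T'
  · exact (hb v hv).of_near (((h1 v hv2 hv').mono hε1).bd)
  · exact h2 v hv2 hv'

theorem lv_one {S : Set (Place k)} {T : Finset (Place k)} {ε : ℝ} (hε : 0 < ε)
    (hb : Big B T) : (1 : A) ∈ Lv B S T ε := by
  refine ⟨fun v _ _ => ?_, fun v hv _ => (hb v hv).one⟩
  rw [sub_self]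
  exact sm_zero hε

/-- Products and involution in a level. -/
theorem mul_level [GFF k] (hst : ∀ (c : k) (x : A), star (c • x) = c • star x)
    {S : Set (Place k)} {T : Finset (Place k)} (hb : Big B T) {ε : ℝ} (hε : 0 < ε) :
    ∃ ε' : ℝ, 0 < ε' ∧ ε' ≤ ε ∧ ε' ≤ 1 ∧
      (∀ x ∈ Lv B S T ε', ∀ y ∈ Lv B S T ε', x * y ∈ Lv B S T ε') ∧
      ∀ x ∈ Lv B S T ε', star x ∈ Lv B S T ε := by
  classical
  obtain ⟨C, hC1, -, hCm, hCs, -⟩ := exists_const B hst
  obtain ⟨D, hD1, hDT⟩ : ∃ D : ℝ, 1 ≤ D ∧ ∀ v ∈ T, C v ≤ D := by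
    refine ⟨1 + ∑ v ∈ T, C v, ?_, fun v hv => ?_⟩
    · have := Finset.sum_nonneg fun (v : Place k) (_ : v ∈ T) => zero_le_one.trans (hC1 v)
      linarith
    · have := Finset.single_le_sum (f := C) (fun v _ => zero_le_one.trans (hC1 v)) hv
      linarith
  have hD0 : 0 < D := by linarith
  obtain ⟨ε', hε'd⟩ : ∃ ε' : ℝ, ε' = min ε 1 / (2 * D) := ⟨_, rfl⟩
  have hm : 0 < min ε 1 := lt_min hε one_pos
  have hε' : 0 < ε' := by rw [hε'd]; positivity
  have hDε : D * ε' = min ε 1 / 2 := by rw [hε'd]; field_simp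
  have hε'm : ε' ≤ min ε 1 / 2 := by
    rw [← hDε]
    exact le_mul_of_one_le_left hε'.le hD1
  have hle1 : ε' ≤ 1 := by have := min_le_right ε 1; linarith
  have hle2 : ε' ≤ ε := by have := min_le_left ε 1; linarith
  refine ⟨ε', hε', hle2, hle1, ?_, ?_⟩
  · rintro x ⟨hx1, hx2⟩ y ⟨hy1, hy2⟩
    refine ⟨fun v hv hvS => ?_, fun v hv hvS => ?_⟩
    · have e : x * y - 1 = (x - 1) * (y - 1) + (x - 1) + (y - 1) := by noncomm_ring
      rw [e]
      refine (Sm.add ?_ (hx1 v hv hvS)).add (hy1 v hv hvS)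
      refine (hCm v ε' ε' _ _ hε'.le hε'.le (hx1 v hv hvS).bd (hy1 v hv hvS).bd).sm ?_
      have h1 : C v * ε' ≤ D * ε' := mul_le_mul_of_nonneg_right (hDT v hv) hε'.le
      have h2 : C v * ε' ≤ 1 / 2 := by
        have := min_le_right ε 1
        linarith
      calc C v * ε' * ε' ≤ 1 / 2 * ε' := mul_le_mul_of_nonneg_right h2 hε'.le
        _ < ε' := by linarith
    · have := (hb v hv).mul' zero_le_one zero_le_one (hx2 v hv hvS) (hy2 v hv hvS)
      rwa [mul_one] at this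
  · rintro x ⟨hx1, hx2⟩
    refine ⟨fun v hv hvS => ?_, fun v hv hvS => (hb v hv).star' hst zero_le_one (hx2 v hv hvS)⟩
    have e : star x - 1 = star (x - 1) := by rw [star_sub, star_one]
    rw [e]
    refine (hCs v ε' _ hε'.le (hx1 v hv hvS).bd).sm ?_
    have h1 : C v * ε' ≤ D * ε' := mul_le_mul_of_nonneg_right (hDT v hv) hε'.le
    have := min_le_left ε 1
    linarith

/-- Bounded unitary elements, without condition at the places in `S`. -/
def Bn (B : Basis (Fin N) k A) (S : Set (Place k)) (M : Place k → ℝ) : Set A :=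
  {g | g * star g = 1 ∧ star g * g = 1 ∧ ∀ v ∉ S, Bd B v (M v) g}

theorem exists_bn [GFF k] (S : Set (Place k)) {g : A} (hg : g * star g = 1)
    (hg' : star g * g = 1) :
    ∃ M : Place k → ℝ, (∀ v, 1 ≤ M v) ∧ {v | M v ≠ 1}.Finite ∧ g ∈ Bn B S M := by
  obtain ⟨C, h1, h2, h3⟩ := exists_sup_family B fun _ : Unit => g
  exact ⟨C, h1, h2, hg, hg', fun v _ => h3 v ()⟩

/-- **Uniform conjugation of levels by bounded elements.** -/
theorem conj_level [GFF k] (hst : ∀ (c : k) (x : A), star (c • x) = c • star x)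
    {S : Set (Place k)} {M : Place k → ℝ} (hM : {v | M v ≠ 1}.Finite) {T : Finset (Place k)}
    (hb : Big B T) {ε : ℝ} (hε : 0 < ε) :
    ∃ T' : Finset (Place k), T ⊆ T' ∧ ∃ ε' : ℝ, 0 < ε' ∧ ε' ≤ ε ∧ ε' ≤ 1 ∧
      ∀ g ∈ Bn B S M, ∀ x ∈ Lv B S T' ε', g * x * star g ∈ Lv B S T ε := by
  classical
  obtain ⟨C, hC1, -, hCm, hCs, -⟩ := exists_const B hst
  obtain ⟨T', hT'd⟩ : ∃ T', T' = T ∪ hM.toFinset := ⟨_, rfl⟩
  obtain ⟨D, hD1, hDT⟩ : ∃ D : ℝ, 1 ≤ D ∧ ∀ v ∈ T', C v * (C v * |M v|) * (C v * |M v|) ≤ D := by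
    refine ⟨1 + ∑ v ∈ T', C v * (C v * |M v|) * (C v * |M v|), ?_, fun v hv => ?_⟩
    · have : 0 ≤ ∑ v ∈ T', C v * (C v * |M v|) * (C v * |M v|) := Finset.sum_nonneg fun v _ => by
        have := hC1 v
        positivity
      linarith
    · have := Finset.single_le_sum (f := fun v => C v * (C v * |M v|) * (C v * |M v|))
        (fun v _ => by have := hC1 v; positivity) hv
      have h2 : C v * (C v * |M v|) * (C v * |M v|) ≤
        ∑ v ∈ T', C v * (C v * |M v|) * (C v * |M v|) := this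
      linarith
  have hD0 : 0 < D := by linarith
  obtain ⟨ε', hε'd⟩ : ∃ ε' : ℝ, ε' = min ε 1 / (2 * D) := ⟨_, rfl⟩
  have hm : 0 < min ε 1 := lt_min hε one_pos
  have hε' : 0 < ε' := by rw [hε'd]; positivity
  have hDε : D * ε' = min ε 1 / 2 := by rw [hε'd]; field_simp
  have hε'm : ε' ≤ min ε 1 / 2 := by
    rw [← hDε]
    exact le_mul_of_one_le_left hε'.le hD1
  have hle1 : ε' ≤ 1 := by have := min_le_right ε 1; linarith
  have hle2 : ε' ≤ ε := by have := min_le_left ε 1; linarith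
  refine ⟨T', by rw [hT'd]; exact Finset.subset_union_left, ε', hε', hle2, hle1, ?_⟩
  rintro g ⟨hg1, hg2, hgM⟩ x ⟨hx1, hx2⟩
  have e : g * x * star g - 1 = g * (x - 1) * star g := by
    rw [mul_sub, sub_mul, mul_one, hg1]
  have key : ∀ v ∈ T', v ∉ S → Sm B v (min ε 1) (g * x * star g - 1) := by
    intro v hv hvS
    have hMv : 0 ≤ |M v| := abs_nonneg _
    have hCv : 0 ≤ C v := zero_le_one.trans (hC1 v)
    have h1 : Bd B v |M v| g := (hgM v hvS).mono (le_abs_self _)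
    have h2 := hCs v _ g hMv h1
    have h3 := hCm v _ _ _ _ hMv hε'.le h1 (hx1 v hv hvS).bd
    have h4 := hCm v _ _ _ _ (by positivity) (by positivity) h3 h2
    rw [e]
    refine h4.sm ?_
    calc C v * (C v * |M v| * ε') * (C v * |M v|) = C v * (C v * |M v|) * (C v * |M v|) * ε' := by
          ring
      _ ≤ D * ε' := mul_le_mul_of_nonneg_right (hDT v hv) hε'.le
      _ < min ε 1 := by rw [hDε]; linarith
  refine ⟨fun v hv hvS => ?_, fun v hv hvS => ?_⟩
  · exact (key v (by rw [hT'd]; exact Finset.mem_union_left _ hv) hvS).mono (min_le_left _ _)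
  · by_cases hv' : v ∈ T'
    · exact (hb v hv).of_near ((key v hv' hvS).mono (min_le_right _ _)).bd
    · have hMv : M v = 1 := by
        by_contra hcon
        apply hv'
        rw [hT'd]
        exact Finset.mem_union_right _ (hM.mem_toFinset.mpr hcon)
      have hg3 : Bd B v 1 g := by
        have := hgM v hvS
        rwa [hMv] at this
      have h4 := (hb v hv).mul' zero_le_one zero_le_one hg3 (hx2 v hv' hvS)
      have h5 := (hb v hv).mul' (mul_nonneg zero_le_one zero_le_one) zero_le_one h4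
        ((hb v hv).star' hst zero_le_one hg3)
      rwa [mul_one, mul_one] at h5

end levels

section groups

/-- The group of the unitary elements. -/
def UA (A : Type) [Ring A] [StarRing A] : Subgroup Aˣ where
  carrier := {g | (g : A) * star (g : A) = 1}
  mul_mem' := by
    intro a b h1 h3
    rw [Set.mem_ofPred_eq] at h1 h3 ⊢
    rw [Units.val_mul, star_mul, mul_assoc, ← mul_assoc (b : A), h3, one_mul, h1]
  one_mem' := by
    rw [Set.mem_ofPred_eq, Units.val_one, star_one, one_mul]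
  inv_mem' := by
    intro a h1
    rw [Set.mem_ofPred_eq] at h1 ⊢
    have h3 : star (a : A) = ((a⁻¹ : Aˣ) : A) := by
      rw [← Units.mul_right_inj a, h1, Units.mul_inv]
    rw [← h3, star_star, h3, Units.inv_mul]

theorem ua_mul_star {A : Type} [Ring A] [StarRing A] (u : UA A) :
    ((u : Aˣ) : A) * star ((u : Aˣ) : A) = 1 := u.2

theorem ua_inv {A : Type} [Ring A] [StarRing A] (u : UA A) :
    (((u⁻¹ : UA A) : Aˣ) : A) = star ((u : Aˣ) : A) := by
  have h1 := ua_mul_star u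
  have h2 : star ((u : Aˣ) : A) = (((u : Aˣ)⁻¹ : Aˣ) : A) := by
    rw [← Units.mul_right_inj (u : Aˣ), h1, Units.mul_inv]
  rw [h2]
  rfl

theorem ua_star_mul {A : Type} [Ring A] [StarRing A] (u : UA A) :
    star ((u : Aˣ) : A) * ((u : Aˣ) : A) = 1 := by
  rw [← ua_inv, ← Units.val_mul, ← Subgroup.coe_mul, inv_mul_cancel]
  rfl

variable {k K A Ω : Type} [Field k] [Field K] [Ring A] [StarRing A] [Algebra k A] [Algebra K A]
  [Field Ω] [Algebra K Ω] {n N : ℕ} (f : A →ₐ[K] Matrix (Fin n) (Fin n) Ω)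
  (B : Basis (Fin N) k A)

/-- The special unitary group as a subgroup of the unitary group. -/
def GA : Subgroup (UA A) := (SUA f).subgroupOf (UA A)

variable {f} in
theorem mem_GA {u : UA A} : u ∈ GA f ↔ (f ((u : Aˣ) : A)).det = 1 := by
  rw [GA, Subgroup.mem_subgroupOf]
  exact ⟨fun h => h.2, fun h => ⟨u.2, h⟩⟩

instance : (GA f).Normal := by
  refine ⟨fun g hg u => ?_⟩
  rw [mem_GA] at hg ⊢
  rw [Subgroup.coe_mul, Subgroup.coe_mul, Units.val_mul, Units.val_mul, map_mul, map_mul,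
    Matrix.det_mul, Matrix.det_mul, hg, mul_one, ← Matrix.det_mul, ← map_mul, ua_inv,
    ua_mul_star, map_one, Matrix.det_one]

/-- The filter of the neighbourhoods of one of reduced norm one on the unitary group. -/
def FLv (S : Set (Place k)) : Filter (UA A) where
  sets := {L | ∃ T : Finset (Place k), Big B T ∧ ∃ ε : ℝ, 0 < ε ∧ ε ≤ 1 ∧
    ∀ u : UA A, u ∈ GA f → ((u : Aˣ) : A) ∈ Lv B S T ε → u ∈ L} ∪ {L | L = Set.univ}
  univ_sets := Or.inr rfl
  sets_of_superset := by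
    rintro L L' (⟨T, hT, ε, hε, hε1, h⟩ | h) hLL'
    · exact Or.inl ⟨T, hT, ε, hε, hε1, fun u hu hu' => hLL' (h u hu hu')⟩
    · rw [Set.mem_ofPred_eq] at h
      subst h
      exact Or.inr (Set.univ_subset_iff.mp hLL')
  inter_sets := by
    classical
    rintro L L' (⟨T, hT, ε, hε, hε1, h⟩ | h) (⟨T', hT', ε', hε', hε1', h'⟩ | h')
    · refine Or.inl ⟨T ∪ T', hT.mono Finset.subset_union_left, min ε ε', lt_min hε hε',
        (min_le_left _ _).trans hε1, fun u hu hu' => ⟨h u hu ?_, h' u hu ?_⟩⟩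
      · exact lv_mono Finset.subset_union_left hT (min_le_left _ _)
          ((min_le_left _ _).trans hε1) hu'
      · exact lv_mono Finset.subset_union_right hT' (min_le_right _ _)
          ((min_le_left _ _).trans hε1) hu'
    · rw [Set.mem_ofPred_eq] at h'
      subst h'
      rw [Set.inter_univ]
      exact Or.inl ⟨T, hT, ε, hε, hε1, h⟩
    · rw [Set.mem_ofPred_eq] at h
      subst h
      rw [Set.univ_inter]
      exact Or.inl ⟨T', hT', ε', hε', hε1', h'⟩
    · rw [Set.mem_ofPred_eq] at h h'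
      subst h
      subst h'
      exact Or.inr (Set.inter_univ _)

variable {f B}

theorem mem_FLv [GFF k] {S : Set (Place k)} {L : Set (UA A)} : L ∈ FLv f B S ↔
    ∃ T : Finset (Place k), Big B T ∧ ∃ ε : ℝ, 0 < ε ∧ ε ≤ 1 ∧
    ∀ u : UA A, u ∈ GA f → ((u : Aˣ) : A) ∈ Lv B S T ε → u ∈ L := by
  constructor
  · rintro (h | h)
    · exact h
    · rw [Set.mem_ofPred_eq] at h
      subst h
      obtain ⟨T, -, hT⟩ := exists_big B ∅
      exact ⟨T, hT, 1, one_pos, le_rfl, fun _ _ _ => trivial⟩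
  · exact Or.inl

/-- The sets of the filter, with a large finite set of places and a small bound. -/
theorem mem_FLv' [GFF k] {S : Set (Place k)} {L : Set (UA A)} (T₀ : Finset (Place k)) (ε₀ : ℝ)
    (hε₀ : 0 < ε₀) (hL : L ∈ FLv f B S) :
    ∃ T : Finset (Place k), T₀ ⊆ T ∧ Big B T ∧ ∃ ε : ℝ, 0 < ε ∧ ε ≤ 1 ∧ ε ≤ ε₀ ∧
    ∀ u : UA A, u ∈ GA f → ((u : Aˣ) : A) ∈ Lv B S T ε → u ∈ L := by
  classical
  obtain ⟨T, hT, ε, hε, hε1, h⟩ := mem_FLv.mp hL
  refine ⟨T₀ ∪ T, Finset.subset_union_left, hT.mono Finset.subset_union_right, min ε ε₀,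
    lt_min hε hε₀, (min_le_left _ _).trans hε1, min_le_right _ _, fun u hu hu' => h u hu ?_⟩
  exact lv_mono Finset.subset_union_right hT (min_le_left _ _) ((min_le_left _ _).trans hε1) hu'

theorem GA_mem [GFF k] (S : Set (Place k)) : ((GA f : Subgroup (UA A)) : Set (UA A)) ∈ FLv f B S :=
  by
  obtain ⟨T, -, hT⟩ := exists_big B ∅
  exact mem_FLv.mpr ⟨T, hT, 1, one_pos, le_rfl, fun _ hu _ => hu⟩

theorem level_mem [GFF k] {S : Set (Place k)} {T : Finset (Place k)} (hT : Big B T) {ε : ℝ}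
    (hε : 0 < ε) (hε1 : ε ≤ 1) :
    {u : UA A | u ∈ GA f ∧ ((u : Aˣ) : A) ∈ Lv B S T ε} ∈ FLv f B S :=
  mem_FLv.mpr ⟨T, hT, ε, hε, hε1, fun _ hu hu' => ⟨hu, hu'⟩⟩

theorem FLv_mono [GFF k] {S S' : Set (Place k)} (h : S ⊆ S') : FLv f B S ≤ FLv f B S' := by
  intro L hL
  obtain ⟨T, hT, ε, hε, hε1, h'⟩ := mem_FLv.mp hL
  exact mem_FLv.mpr ⟨T, hT, ε, hε, hε1, fun u hu hu' => h' u hu (lv_mono_S h hu')⟩

/-- **The filter of levels.** -/
theorem lev_FLv [GFF k] (hst : ∀ (c : k) (x : A), star (c • x) = c • star x)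
    (S : Set (Place k)) : Lev (FLv f B S) where
  one := by
    intro L hL
    obtain ⟨T, hT, ε, hε, -, h⟩ := mem_FLv.mp hL
    exact h 1 (GA f).one_mem (lv_one hε hT)
  mul := by
    intro L hL
    obtain ⟨T, hT, ε, hε, -, h⟩ := mem_FLv.mp hL
    obtain ⟨ε', hε', hle, hle1, hmul, -⟩ := mul_level (S := S) hst hT hε
    refine ⟨_, level_mem hT hε' hle1, fun x hx y hy => h _ ((GA f).mul_mem hx.1 hy.1) ?_⟩
    exact lv_mono (Finset.Subset.refl T) hT hle hle1 (hmul _ hx.2 _ hy.2)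
  conj := by
    intro g L hL
    obtain ⟨T, hT, ε, hε, -, h⟩ := mem_FLv.mp hL
    obtain ⟨M, -, hM, hgM⟩ := exists_bn (B := B) S (ua_mul_star g) (ua_star_mul g)
    obtain ⟨T', hTT', ε', hε', -, hε1, hc⟩ := conj_level hst hM hT hε
    refine mem_FLv.mpr ⟨T', hT.mono hTT', ε', hε', hε1, fun u hu hu' => h _ ?_ ?_⟩
    · exact (inferInstance : (GA f).Normal).conj_mem _ hu g
    · have := hc _ hgM _ hu'
      rwa [← ua_inv] at this

end groups

end Vale.Agent.P011.H698
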