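import Vale.Agent.P011.H698.LocE
import Vale.Agent.P011.H271.QuadF
import Vale.Agent.P011.H756.Herm
import Vale.Agent.P011.H710.UnbdU
import Vale.Agent.P011.H565.PlaceNorm
import Vale.Agent.P011.H519.SpanCSA

/-!
# The local property at the places which do not split in the centre
-/

open Module Matrix Topology commutatorElement TensorProduct

set_option linter.unusedSectionVars false

namespace Vale.Agent.P011.H698

open Vale.Agent.P011.H738 Vale.Agent.P011.H271 Vale.Agent.P011.H74 Vale.Agent.P011.H961

section nonsplit

variable {k K A : Type} [Field k] [Field K] [StarRing K] [Ring A] [StarRing A]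
  [Algebra k K] [Algebra k A] [Algebra K A] [IsScalarTower k K A] [StarModule K A] {n N : ℕ}
  {F E : Type} [NormedField F] [Algebra k F] [Ring E] [StarRing E] [TopologicalSpace E]
  [IsTopologicalRing E] [Algebra F E] (H : BCR k F A E (Fin N))
  {L : Type} [NormedField L] [Algebra F L] {φ : K →+* L}
  {g : A →+* Matrix (Fin n) (Fin n) L}

/-- The centre and the completion generate `L`. -/
theorem exists_lin_comb (hA : Anis k K A n) (hF : IsEmpty (K →ₐ[k] F))
    (hφk : ∀ c : k, φ (algebraMap k K c) = algebraMap F L (algebraMap k F c))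
    (hL : finrank F L = 2) {w : K} (hw : star w ≠ w) (l : L) :
    ∃ a b : F, l = algebraMap F L a + algebraMap F L b * φ w := by
  -- `φ w` is not in `F`
  have hquad : ∀ c : K, ∃ a b : k, c = algebraMap k K a + algebraMap k K b * w := by
    intro c
    have hmem : ∀ x : K, star x = x → ∃ a : k, algebraMap k K a = x := fun x hx =>
      (hA.fixed x).mp hx
    have hu' : w - star w ≠ 0 := sub_ne_zero.mpr fun h => hw h.symm
    obtain ⟨b, hb⟩ := hmem ((c - star c) / (w - star w)) (by
      rw [star_div₀, star_sub, star_sub, star_star, star_star, ← neg_sub c, ← neg_sub w,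
        neg_div_neg_eq])
    have hb' : algebraMap k K b * (w - star w) = c - star c := by
      rw [hb, div_mul_cancel₀ _ hu']
    have hbs : star (algebraMap k K b) = algebraMap k K b := (hA.fixed _).mpr ⟨b, rfl⟩
    obtain ⟨a, ha⟩ := hmem (c - algebraMap k K b * w) (by
      rw [star_sub, star_mul, hbs]
      linear_combination hb')
    exact ⟨a, b, by rw [ha]; ring⟩
  have hnot : ∀ c : F, algebraMap F L c ≠ φ w := by
    intro c hc
    apply hF.false
    have hrange : ∀ x : K, φ x ∈ (algebraMap F L).range := by
      intro x
      obtain ⟨a, b, rfl⟩ := hquad x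
      rw [map_add, map_mul, hφk, hφk, ← hc]
      exact ⟨algebraMap k F a + algebraMap k F b * c, by rw [map_add, map_mul]⟩
    choose ψ hψ using hrange
    have hinj := (algebraMap F L).injective
    exact
      { toFun := ψ
        map_one' := hinj (by rw [hψ, map_one, map_one])
        map_mul' := fun x y => hinj (by rw [hψ, map_mul, map_mul, hψ, hψ])
        map_zero' := hinj (by rw [hψ, map_zero, map_zero])
        map_add' := fun x y => hinj (by rw [hψ, map_add, map_add, hψ, hψ])
        commutes' := fun c => hinj (by rw [hψ, hφk]) }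
  have hli : LinearIndependent F ![(1 : L), φ w] := by
    rw [LinearIndependent.pair_iff]
    intro s t hst
    have ht : t = 0 := by
      by_contra ht
      apply hnot (-s / t)
      have h1 : algebraMap F L s + algebraMap F L t * φ w = 0 := by
        rw [Algebra.smul_def, mul_one, Algebra.smul_def] at hst
        exact hst
      have h2 : algebraMap F L t ≠ 0 := fun h => ht ((algebraMap F L).injective (by
        rw [h, map_zero]))
      rw [map_div₀, map_neg, div_eq_iff h2]
      linear_combination -h1
    subst ht
    rw [zero_smul, add_zero, Algebra.smul_def, mul_one] at hst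
    exact ⟨(algebraMap F L).injective (by rw [hst, map_zero]), rfl⟩
  have hfd : FiniteDimensional F L := FiniteDimensional.of_finrank_pos (by rw [hL]; norm_num)
  have hspan := hli.span_eq_top_of_card_eq_finrank' (by
    rw [hL]
    rfl)
  have hl : l ∈ Submodule.span F (Set.range ![(1 : L), φ w]) := by
    rw [hspan]
    exact Submodule.mem_top
  rw [Matrix.range_cons, Matrix.range_cons, Matrix.range_empty, Set.union_empty,
    Set.singleton_union, Submodule.mem_span_pair] at hl
  obtain ⟨a, b, hab⟩ := hl
  exact ⟨a, b, by rw [← hab, Algebra.smul_def, mul_one, Algebra.smul_def]⟩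

/-- The base change is a matrix algebra over `L`. -/
theorem bij_nonsplit (hA : Anis k K A n) (hn : n ≠ 0) (hF : IsEmpty (K →ₐ[k] F))
    (hφk : ∀ c : k, φ (algebraMap k K c) = algebraMap F L (algebraMap k F c))
    (hL : finrank F L = 2)
    (hgφ : ∀ c : K, g (algebraMap K A c) = algebraMap L _ (φ c))
    (hg : ∀ (c : k) (x : A), g (c • x) = algebraMap k F c • g x)
    (hspan : Submodule.span L (Set.range g) = ⊤) :
    Function.Bijective (extA H hg) := by
  obtain ⟨w, hw⟩ := hA.star_ne
  let P : E →ₗ[F] Matrix (Fin n) (Fin n) L := extAl H g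
  have hgc : ∀ (c : K) (x : A), g (algebraMap K A c * x) = φ c • g x := by
    intro c x
    rw [map_mul, hgφ, Algebra.smul_def]
  have hmem : ∀ x : A, g x ∈ LinearMap.range P := fun x => ⟨H.j x, extAl_j H hg x⟩
  -- the range is stable under `L`
  have hst : ∀ (l : L) (y : Matrix (Fin n) (Fin n) L), y ∈ LinearMap.range P →
      l • y ∈ LinearMap.range P := by
    intro l y hy
    have hw2 : ∀ z ∈ Submodule.span F (Set.range g), φ w • z ∈ LinearMap.range P := by
      intro z hz
      induction hz using Submodule.span_induction with
      | mem z hz =>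
        obtain ⟨x, rfl⟩ := hz
        rw [← hgc]
        exact hmem _
      | zero => rw [smul_zero]; exact Submodule.zero_mem _
      | add z z' _ _ h h' => rw [smul_add]; exact Submodule.add_mem _ h h'
      | smul c z _ h =>
        rw [smul_comm]
        exact Submodule.smul_mem _ _ h
    have hw1 : ∀ y ∈ LinearMap.range P, φ w • y ∈ LinearMap.range P := by
      rintro _ ⟨e, rfl⟩
      refine hw2 _ ?_
      rw [← H.b.sum_repr e, map_sum]
      refine Submodule.sum_mem _ fun i _ => ?_
      rw [map_smul]
      refine Submodule.smul_mem _ _ (Submodule.subset_span ⟨H.a i, ?_⟩)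
      rw [H.b_apply]
      exact (extAl_j H hg _).symm
    obtain ⟨a, b, rfl⟩ := exists_lin_comb (A := A) (n := n) hA hF hφk hL hw l
    rw [add_smul, mul_smul, algebraMap_smul, algebraMap_smul]
    exact Submodule.add_mem _ (Submodule.smul_mem _ _ hy) (Submodule.smul_mem _ _ (hw1 y hy))
  have hsurj : Function.Surjective P := by
    intro y
    have hy : y ∈ Submodule.span L (Set.range g) := by
      rw [hspan]
      exact Submodule.mem_top
    induction hy using Submodule.span_induction with
    | mem z hz =>
      obtain ⟨x, rfl⟩ := hz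
      exact hmem x
    | zero => exact ⟨0, map_zero _⟩
    | add z z' _ _ h h' =>
      obtain ⟨e, rfl⟩ := h
      obtain ⟨e', rfl⟩ := h'
      exact ⟨e + e', map_add _ _ _⟩
    | smul c z _ h => exact hst c z h
  have hfdL : FiniteDimensional F L := FiniteDimensional.of_finrank_pos (by rw [hL]; norm_num)
  have hEf : FiniteDimensional F E := Module.Finite.of_basis H.b
  have hfr : finrank F E = finrank F (Matrix (Fin n) (Fin n) L) := by
    rw [finrank_E H hA, Module.finrank_matrix, hL, Fintype.card_fin]
    ring
  exact ⟨(LinearMap.injective_iff_surjective_of_finrank_eq_finrank hfr).mpr hsurj, hsurj⟩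

end nonsplit

section place

variable {k K A : Type} [Field k] [Field K] [StarRing K] [Ring A] [StarRing A]
  [Algebra k K] [Algebra k A] [Algebra K A] [IsScalarTower k K A] [StarModule K A] {n N : ℕ}

/-- **The local property at the places which do not split in the centre**, from a splitting over
the quadratic extension of the completion. -/
theorem locE_nonsplit_place [StarLinR k A] (hA : Anis k K A n) (hn : n ≠ 0)
    (B : Basis (Fin N) k A) {v : Place k} (hv : IsEmpty (K →ₐ[k] v.comp)) {L : Type}
    [NontriviallyNormedField L] [StarRing L] [Algebra v.comp L] {φ : K →+* L}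
    (hst : ∀ x : L, ‖star x‖ = ‖x‖) (hφs : ∀ x, φ (star x) = star (φ x))
    (hφk : ∀ c : k, φ (algebraMap k K c) = algebraMap v.comp L (algebraMap k v.comp c))
    (hLn : ∀ c : v.comp, ‖algebraMap v.comp L c‖ = ‖c‖) (hL : finrank v.comp L = 2)
    (g : A →+* Matrix (Fin n) (Fin n) L)
    (hgφ : ∀ c : K, g (algebraMap K A c) = algebraMap L _ (φ c))
    (hiso : ∀ H : Matrix (Fin n) (Fin n) L, Hᴴ = H →
      ∃ x : Fin n → L, x ≠ 0 ∧ x ⬝ᵥ (H *ᵥ star x) = 0) :
    LocE (BR B v.comp) := by
  classical
  have hcen := hA.central
  have hsim := hA.simple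
  have hne : ∃ x : L, star x ≠ x := by
    obtain ⟨w, hw⟩ := hA.star_ne
    refine ⟨φ w, fun h => hw (φ.injective ?_)⟩
    rw [hφs, h]
  -- the involution fixes the completion
  have hfix : ∀ c : v.comp, star (algebraMap v.comp L c) = algebraMap v.comp L c := by
    have hiso1 : Isometry (algebraMap v.comp L) := by
      refine AddMonoidHomClass.isometry_of_norm _ hLn
    have hiso2 : Isometry (starRingEnd L) := AddMonoidHomClass.isometry_of_norm _ hst
    have h1 : (fun c : v.comp => star (algebraMap v.comp L c)) = fun c => algebraMap v.comp L c := by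
      refine (H565.denseRange_comp v).equalizer ?_ ?_ ?_
      · exact (hiso2.comp hiso1).continuous
      · exact hiso1.continuous
      · funext c
        change star (algebraMap v.comp L (algebraMap k v.comp c)) = _
        rw [← hφk, ← hφs, (hA.fixed _).mpr ⟨c, rfl⟩]
        exact hφk c
    exact fun c => congrFun h1 c
  obtain ⟨H, hH, hdet, hgH⟩ := H756.exists_herm hn hA.finrank_eq hne φ hφs g hgφ
  have hg : ∀ (c : k) (x : A), g (c • x) = algebraMap k v.comp c • g x := by
    intro c x
    rw [← algebraMap_smul K c x, Algebra.smul_def, map_mul, hgφ, hφk, ← algebraMap_smul L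
      (algebraMap k v.comp c) (g x), Algebra.smul_def]
  have hspan := H519.span_range_eq_top hA.finrank_eq hn φ g hgφ
  refine locE_of_herm (extA (bcrT B v.comp) hg)
    (bij_nonsplit (bcrT B v.comp) hA hn hv hφk hL hgφ hg hspan) hdet (fun x => ?_)
    (H710.locN_u hne hst hH hdet (hiso H hH))
  -- the hermitian identity
  have key : ∀ x : BR B v.comp, extAl (bcrT B v.comp) g (star x) * H =
      H * (extAl (bcrT B v.comp) g x)ᴴ := by
    intro x
    let c := bcrT B v.comp
    change extAl c g (star x) * H = H * (extAl c g x)ᴴ
    rw [← c.b.sum_repr x, star_sum, map_sum, map_sum, conjTranspose_sum, Finset.sum_mul,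
      Finset.mul_sum]
    refine Finset.sum_congr rfl fun i _ => ?_
    rw [c.star_smul, map_smul, map_smul, c.b_apply, ← c.j_star, extAl_j c hg, extAl_j c hg,
      smul_mul_assoc, hgH]
    have h1 : (c.b.repr x i • g (c.a i))ᴴ = c.b.repr x i • (g (c.a i))ᴴ := by
      rw [← algebraMap_smul L (c.b.repr x i) (g (c.a i)), conjTranspose_smul, hfix,
        algebraMap_smul]
    rw [h1, mul_smul_comm]
  exact key x

end place

end Vale.Agent.P011.H698
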