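import Vale.Agent.P011.H698.RemFF
import Vale.Agent.P011.H698.LocNS
import Vale.Agent.P011.H961.SA
import Vale.Agent.P011.H308.Isot

/-!
# Function fields: every finite quotient of `G(k)` is solvable, from the core and the local theorem
on algebras with involution of the second kind
-/

open Module Matrix Topology

set_option linter.unusedSectionVars false

namespace Vale.Agent.P011.H698

open Vale.Agent.P011.H738 Vale.Agent.P011.H271 Vale.Agent.P011.H74 Vale.Agent.P011.H976

variable {k K A Ω : Type} [Field k] [Field K] [StarRing K] [Ring A] [StarRing A]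
  [Algebra k K] [Algebra k A] [Algebra K A] [IsScalarTower k K A] [StarModule K A] {n N : ℕ}
  [Field Ω] [Algebra K Ω]

variable (k K A) in
/-- **The local theorem**: at the places which do not split in `K` the algebra is split. -/
def SplitNS (n : ℕ) : Prop :=
  ∀ (v : Place k), IsEmpty (K →ₐ[k] v.comp) → ∀ (L : Type) [NontriviallyNormedField L]
    [ProperSpace L] [IsUltrametricDist L] [StarRing L] [Algebra v.comp L] (φ : K →+* L),
    (∀ x : L, ‖star x‖ = ‖x‖) → (∀ x, φ (star x) = star (φ x)) → DenseRange φ →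
    (∀ c : k, φ (algebraMap k K c) = algebraMap v.comp L (algebraMap k v.comp c)) →
    (∀ c : v.comp, ‖algebraMap v.comp L c‖ = ‖c‖) → finrank v.comp L = 2 →
    ∃ g : A →+* Matrix (Fin n) (Fin n) L, ∀ c : K, g (algebraMap K A c) = algebraMap L _ (φ c)

/-- **The core**: no target for the levels away from a split place `q` outside `T₀` and with
residue field of order at least `N₀`. -/
def NoTarget (f : A →ₐ[K] Matrix (Fin n) (Fin n) Ω) (B : Basis (Fin N) k A)
    (T₀ : Finset (Place k)) (N₀ : ℕ) : Prop :=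
  ∀ (q : Place k), q ∉ T₀ → N₀ ≤ qq q → ∀ (φ : K →ₐ[k] q.comp)
    (g : A →+* Matrix (Fin n) (Fin n) q.comp),
    (∀ c : K, g (algebraMap K A c) = algebraMap q.comp _ (φ c)) →
    Submodule.span q.comp (Set.range fun x : A => (g x, (g (star x)).transpose)) = ⊤ →
    ∀ (E : Type) (_ : Group E) (c : UA A →* E) (R : Subgroup E),
      Target0 (FLv f B {q}) c R → (∀ u : UA A, (∀ g ∈ GA f, u * g = g * u) → c u = 1) → False

/-- The local property at the places which do not split. -/
theorem locE_NS [GFF k] [StarLinR k A] (hk : IsGlobalFunctionField k) (hA : Anis k K A n)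
    (hn : 3 ≤ n) (B : Basis (Fin N) k A) (h2 : SplitNS k K A n) {v : Place k}
    (hv : IsEmpty (K →ₐ[k] v.comp)) : LocE (BR B v.comp) := by
  obtain ⟨L, _, _, _, _, _, φ, hst, hφs, hd, hφk, hLn, hL⟩ :=
    exists_quad_field hA.fixed hA.star_ne v hv
  obtain ⟨g, hg⟩ := h2 v hv L φ hst hφs hd hφk hLn hL
  exact locE_nonsplit_place hA (by omega) B hv hst hφs hφk hLn hL g hg fun H hH =>
    H308.isotropic hk hA.fixed hA.star_ne hst φ hφs hd hn hH

/-- **Every finite quotient of `G(k)` is solvable**, from the core and the local theorem. -/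
theorem solvable_FF (hk : IsGlobalFunctionField k) (hA : Anis k K A n) (hn : 3 ≤ n)
    (f : A →ₐ[K] Matrix (Fin n) (Fin n) Ω) (h2 : SplitNS k K A n) (B : Basis (Fin N) k A)
    {T₀ : Finset (Place k)} {N₀ : ℕ} (hcore : NoTarget f B T₀ N₀)
    (M : Subgroup (SUA f)) [M.Normal] (hi : M.index ≠ 0) : Group.IsSolvable (SUA f ⧸ M) := by
  have hgff := gff_of_isGlobal hk
  obtain ⟨q, hq, hqN, φ, g, hφ, -, hspan⟩ := H519.exists_split_place hk hA (by omega) T₀ N₀
  refine solvable_of_core_FF' hk hA hn f B {q} (fun Q hQn hQG hQF => ?_)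
    (fg_FLv hA (by omega) hφ hspan f B) (fun E iE c R hT hc => ?_)
    (fun _ v hv => locE_NS hk hA hn B h2 hv) M hi
  · obtain ⟨T, -, ε, hε, h⟩ := H961.sa_ff hk hA hn hφ hspan f B Q hQG hQF
    exact mem_FNr.mpr ⟨T, ε, hε, h⟩
  · exact hcore q hq hqN φ g hφ hspan E iE c R hT hc

end Vale.Agent.P011.H698
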