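import Vale.Agent.P011.H698.PlusRH
import Vale.Agent.P011.H698.PlusRem
import Vale.Agent.P011.H698.SolvFF
import Vale.Agent.P011.H698.T1FF
import Vale.Agent.P011.H976.Hyp

/-!
# Function fields: the normal subgroups of finite index which are not open

From the core: a normal subgroup of finite index of `G(k)` which does not contain the elements close
to one at finitely many places of division type is contained in a normal subgroup `Q`, of prime
index in an open normal subgroup `H`, dense in `H`, such that `G(k)` acts trivially on `H / Q`.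
-/

open Module TensorProduct
open scoped commutatorElement

set_option linter.unusedSectionVars false

namespace Vale.Agent.P011.H698

open Vale.Agent.P011.H738 Vale.Agent.P011.H271 Vale.Agent.P011.H976

variable {k K A Ω : Type} [Field k] [Field K] [StarRing K] [Ring A] [StarRing A]
  [Algebra k K] [Algebra k A] [Algebra K A] [IsScalarTower k K A] [StarModule K A] {n N : ℕ}
  [Field Ω] [Algebra K Ω]

/-- Two embeddings of `K` over `k` are equal or conjugate. -/
theorem hom_eq_or (hfix : ∀ x : K, star x = x ↔ x ∈ Set.range (algebraMap k K))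
    (hne : ∃ x : K, star x ≠ x) {L : Type} [Field L] [Algebra k L] (φ ψ : K →ₐ[k] L) :
    (∀ c, ψ c = φ c) ∨ ∀ c, ψ c = φ (star c) := by
  obtain ⟨w, hw⟩ := hne
  have hw0 : w - star w ≠ 0 := fun h => hw (sub_eq_zero.mp h).symm
  obtain ⟨t, ht⟩ := (hfix (w + star w)).mp (by rw [star_add, star_star, add_comm])
  obtain ⟨m, hm⟩ := (hfix (w * star w)).mp (by rw [star_mul', star_star, mul_comm])
  have hroot : (ψ w - φ w) * (ψ w - φ (star w)) = 0 := by
    have h1 : ψ (w * w - algebraMap k K t * w + algebraMap k K m) = 0 := by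
      rw [ht, hm]
      have : w * w - (w + star w) * w + w * star w = 0 := by ring
      rw [this, map_zero]
    have h2 : φ w + φ (star w) = algebraMap k L t := by
      rw [← map_add, ← ht, AlgHom.commutes]
    have h3 : φ w * φ (star w) = algebraMap k L m := by
      rw [← map_mul, ← hm, AlgHom.commutes]
    rw [map_add, map_sub, map_mul, map_mul, AlgHom.commutes, AlgHom.commutes, ← h2, ← h3] at h1
    linear_combination h1
  have hdec : ∀ c : K, ∃ a b : k, c = algebraMap k K a + algebraMap k K b * w := by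
    intro c
    obtain ⟨b, hb⟩ := (hfix ((c - star c) / (w - star w))).mp (by
      rw [star_div₀, star_sub, star_sub, star_star, star_star, ← neg_sub c, ← neg_sub w,
        neg_div_neg_eq])
    have h1 : algebraMap k K b * (w - star w) = c - star c := by
      rw [hb, div_mul_cancel₀ _ hw0]
    have hbs : star (algebraMap k K b) = algebraMap k K b := (hfix _).mpr ⟨b, rfl⟩
    obtain ⟨a, ha⟩ := (hfix (c - algebraMap k K b * w)).mp (by
      rw [star_sub, star_mul', hbs]
      linear_combination h1)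
    exact ⟨a, b, by rw [ha]; ring⟩
  rcases mul_eq_zero.mp hroot with h | h
  · left
    intro c
    obtain ⟨a, b, rfl⟩ := hdec c
    rw [map_add, map_mul, map_add, map_mul, AlgHom.commutes, AlgHom.commutes, AlgHom.commutes,
      AlgHom.commutes, sub_eq_zero.mp h]
  · right
    intro c
    obtain ⟨a, b, rfl⟩ := hdec c
    have ha : star (algebraMap k K a) = algebraMap k K a := (hfix _).mpr ⟨a, rfl⟩
    have hb : star (algebraMap k K b) = algebraMap k K b := (hfix _).mpr ⟨b, rfl⟩
    rw [star_add, star_mul', ha, hb, map_add, map_mul, map_add, map_mul, AlgHom.commutes,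
      AlgHom.commutes, AlgHom.commutes, AlgHom.commutes, sub_eq_zero.mp h]

/-- A place at which the algebra is a matrix algebra is not of division type. -/
theorem notMem_Adiv (hA : Anis k K A n) (hn : 1 < n) {q : Place k} {φ : K →ₐ[k] q.comp}
    {g : A →+* Matrix (Fin n) (Fin n) q.comp}
    (hφ : ∀ c : K, g (algebraMap K A c) = algebraMap q.comp _ (φ c)) : q ∉ Adiv k K A := by
  rintro ⟨ψ, hψ⟩
  let _ : Algebra K q.comp := (ψ : K →+* q.comp).toAlgebra
  obtain ⟨g', hg'⟩ : ∃ g' : A →+* Matrix (Fin n) (Fin n) q.comp,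
      ∀ c : K, g' (algebraMap K A c) = algebraMap q.comp _ (ψ c) := by
    rcases hom_eq_or hA.fixed hA.star_ne φ ψ with h | h
    · exact ⟨g, fun c => by rw [hφ, h]⟩
    · refine ⟨
        { toFun := fun x => (g (star x)).transpose
          map_one' := by rw [star_one, map_one, Matrix.transpose_one]
          map_mul' := fun x y => by rw [star_mul, map_mul, Matrix.transpose_mul]
          map_zero' := by rw [star_zero, map_zero, Matrix.transpose_zero]
          map_add' := fun x y => by rw [star_add, map_add, Matrix.transpose_add] }, fun c => ?_⟩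
      change (g (star (algebraMap K A c))).transpose = _
      rw [← algebraMap_star_comm, hφ, h, Matrix.algebraMap_eq_diagonal,
        Matrix.diagonal_transpose]
  have hn0 : n ≠ 0 := by omega
  have : FiniteDimensional K A := FiniteDimensional.of_finrank_pos (by
    rw [hA.finrank_eq]; positivity)
  let gK : A →ₐ[K] Matrix (Fin n) (Fin n) q.comp := { g' with commutes' := hg' }
  let F : q.comp ⊗[K] A →ₐ[q.comp] Matrix (Fin n) (Fin n) q.comp :=
    Algebra.TensorProduct.lift (Algebra.ofId q.comp _) gK fun c x => Algebra.commutes _ _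
  have : Nonempty (Fin n) := ⟨⟨0, by omega⟩⟩
  have hinj : Function.Injective F := by
    rw [injective_iff_map_eq_zero]
    intro x hx
    by_contra hx0
    have h1 := (hψ x hx0).map F
    rw [hx] at h1
    exact not_isUnit_zero h1
  have hfr : finrank q.comp (q.comp ⊗[K] A) = finrank q.comp (Matrix (Fin n) (Fin n) q.comp) := by
    rw [Module.finrank_baseChange, hA.finrank_eq, Module.finrank_matrix, Fintype.card_fin,
      finrank_self, mul_one, sq]
  have hsurj : Function.Surjective F.toLinearMap :=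
    (LinearMap.injective_iff_surjective_of_finrank_eq_finrank hfr).mp hinj
  let i0 : Fin n := ⟨0, by omega⟩
  let i1 : Fin n := ⟨1, hn⟩
  have hi : i1 ≠ i0 := by
    intro h
    have := congrArg Fin.val h
    simp [i0, i1] at this
  obtain ⟨x, hx⟩ := hsurj (Matrix.single i0 i0 1)
  have hx' : F x = Matrix.single i0 i0 1 := hx
  have hx0 : x ≠ 0 := by
    rintro rfl
    rw [map_zero] at hx'
    have h1 := congrFun (congrFun hx' i0) i0
    rw [Matrix.single_apply_same, Matrix.zero_apply] at h1
    exact zero_ne_one h1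
  have hu := (hψ x hx0).map F
  rw [hx'] at hu
  have h1 : (Matrix.single i0 i0 (1 : q.comp) : Matrix (Fin n) (Fin n) q.comp) *
      Matrix.single i1 i1 1 = 0 := Matrix.single_mul_single_of_ne _ _ _ _ hi.symm _
  have h2 := hu.mul_right_eq_zero.mp h1
  have h3 := congrFun (congrFun h2 i1) i1
  rw [Matrix.single_apply_same, Matrix.zero_apply] at h3
  exact one_ne_zero h3

/-- If there is a place of division type, then the algebra is a division algebra. -/
theorem isUnit_of_mem_Adiv (hA : Anis k K A n) (hn : n ≠ 0) {v : Place k} (hv : v ∈ Adiv k K A)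
    (x : A) : IsUnit x ∨ x = 0 := by
  obtain ⟨ψ, hψ⟩ := hv
  let _ : Algebra K v.comp := (ψ : K →+* v.comp).toAlgebra
  have : FiniteDimensional K A := FiniteDimensional.of_finrank_pos (by
    rw [hA.finrank_eq]; positivity)
  by_cases hx : x = 0
  · exact Or.inr hx
  · left
    let ι : A →ₐ[K] v.comp ⊗[K] A := Algebra.TensorProduct.includeRight
    have hinj : Function.Injective ι :=
      Algebra.TensorProduct.includeRight_injective (ψ : K →+* v.comp).injective
    refine H565.isUnit_of_injective (K := K) (ι : A →+* v.comp ⊗[K] A) hinj ?_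
    refine hψ _ fun h => hx (hinj ?_)
    rw [map_zero]
    exact h

/-- **The action on the abelian quotients near one is trivial**, every characteristic. -/
theorem rh_FF (hk : IsGlobalFunctionField k) (hA : Anis k K A n) (hn : n ≠ 0)
    (f : A →ₐ[K] Matrix (Fin n) (Fin n) Ω) (B : Basis (Fin N) k A) (H Q : Subgroup (GA f))
    (T : Finset (Place k)) (hT : ∀ v ∈ T, v ∈ Adiv k K A) {ε : ℝ} (hε : 0 < ε)
    (hH : ∀ g : GA f, (∀ v ∈ T, Sm B v ε ((((g : UA A) : Aˣ) : A) - 1)) → g ∈ H)
    (hab : ⁅H, H⁆ ≤ Q) :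
    ∃ ε' : ℝ, 0 < ε' ∧ ∀ v : GA f, (∀ p ∈ T, Sm B p ε' ((((v : UA A) : Aˣ) : A) - 1)) →
      ∀ g : GA f, ⁅g, v⁆ ∈ Q := by
  rcases T.eq_empty_or_nonempty with rfl | hne
  · refine ⟨1, one_pos, fun v _ g => hab (Subgroup.commutator_mem_commutator ?_ ?_)⟩
    · exact hH g fun v hv => absurd hv (Finset.notMem_empty v)
    · exact hH v fun v hv => absurd hv (Finset.notMem_empty v)
  · obtain ⟨v0, hv0⟩ := hne
    have hu := isUnit_of_mem_Adiv hA hn (hT v0 hv0)
    have hnt : Nontrivial A := by
      have := hA.simple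
      infer_instance
    exact @rh_div k K A Ω _ _ _ (DivisionRing.ofIsUnitOrEqZero hu) _ _ _ _ _ _ n N _ _ hk hA hn f
      B H Q T ⟨v0, hv0⟩ hT ε hε hH hab

variable (k K) in
/-- The subgroup contains the elements close to one at finitely many places of division type. -/
def NearA (f : A →ₐ[K] Matrix (Fin n) (Fin n) Ω) (B : Basis (Fin N) k A)
    (C : Subgroup (SUA f)) : Prop :=
  ∃ T : Finset (Place k), (∀ v ∈ T, v ∈ Adiv k K A) ∧ ∃ ε : ℝ, 0 < ε ∧
    ∀ g : SUA f, (∀ v ∈ T, ∀ i, v.abv (B.repr (((g : Aˣ) : A) - 1) i) < ε) → g ∈ C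

/-- The elements close to one at finitely many places of division type are a neighbourhood of one
for the filter of the levels. -/
theorem near_mem_Fc [GFF k] (f : A →ₐ[K] Matrix (Fin n) (Fin n) Ω) (B : Basis (Fin N) k A)
    {q : Place k} {T : Finset (Place k)} (hqT : q ∉ T) {ε : ℝ} (hε : 0 < ε) :
    {g : GA f | ∀ v ∈ T, Sm B v ε ((((g : UA A) : Aˣ) : A) - 1)} ∈
      Fc (GA f) (FLv f B {q}) := by
  have h1 : {g : UA A | ∀ v ∈ T, Sm B v ε (((g : Aˣ) : A) - 1)} ∈ FLv f B {q} := by
    obtain ⟨T', hTT', hT'⟩ := exists_big B T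
    refine mem_FLv.mpr ⟨T', hT', min ε 1, lt_min hε one_pos, min_le_right _ _,
      fun u _ hu' v hv => (hu'.1 v (hTT' hv) ?_).mono (min_le_left _ _)⟩
    rw [Set.mem_singleton_iff]
    rintro rfl
    exact hqT hv
  exact preimage_mem_Fc h1

/-- A normal subgroup of finite index which is a neighbourhood of one for the filter of the levels
contains the elements close to one at finitely many places of division type. -/
theorem near_of_mem (hk : IsGlobalFunctionField k) (hA : Anis k K A n) (hn : 3 ≤ n)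
    (f : A →ₐ[K] Matrix (Fin n) (Fin n) Ω) (B : Basis (Fin N) k A) (h2 : SplitNS k K A n)
    {q : Place k} {φ : K →ₐ[k] q.comp} {g : A →+* Matrix (Fin n) (Fin n) q.comp}
    (hφ : ∀ c : K, g (algebraMap K A c) = algebraMap q.comp _ (φ c))
    (hspan : Submodule.span q.comp (Set.range fun x : A => (g x, (g (star x)).transpose)) = ⊤)
    (C : Subgroup (GA f)) [C.Normal] [C.FiniteIndex]
    (hC : (C : Set (GA f)) ∈ Fc (GA f) (FLv f B {q})) :
    ∃ T : Finset (Place k), (∀ v ∈ T, v ∈ Adiv k K A) ∧ ∃ ε : ℝ, 0 < ε ∧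
      ∀ g : GA f, (∀ v ∈ T, Sm B v ε ((((g : UA A) : Aˣ) : A) - 1)) → g ∈ C := by
  have hgff := gff_of_isGlobal hk
  have hst : ∀ (c : k) (x : A), star (c • x) = c • star x := H519.star_smul_of_anis hA
  obtain ⟨Q, hQn, hQG, hQF, hQ1, hQC⟩ := mem_of_SA (F₁ := FNr f B) (GA f)
    (lev_FLv hst {q}) (GA_mem {q}) (fun Q hQn hQG hQF => by
      obtain ⟨T, -, ε, hε, h⟩ := H961.sa_ff hk hA hn hφ hspan f B Q hQG hQF
      exact mem_FNr.mpr ⟨T, ε, hε, h⟩) (fg_FLv hA (by omega) hφ hspan f B) C hC
  obtain ⟨T, hT, ε, hε, h⟩ := rem_FF_all hk hA hn f B h2 Q hQn hQG hQ1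
  exact ⟨T, hT, ε, hε, fun g hg => hQC g (h _ g.2 hg)⟩

/-- **The normal subgroups of finite index which are not open**, from the core. -/
theorem plus_of_FF (hk : IsGlobalFunctionField k) (hA : Anis k K A n) (hn : 3 ≤ n)
    (f : A →ₐ[K] Matrix (Fin n) (Fin n) Ω) (B : Basis (Fin N) k A) (h2 : SplitNS k K A n)
    {T₀ : Finset (Place k)} {N₀ : ℕ} (hcore : NoTarget f B T₀ N₀)
    (M : Subgroup (SUA f)) [M.Normal] (hi : M.index ≠ 0) :
    NearA k K f B M ∨
      ∃ Q H : Subgroup (SUA f), Q.Normal ∧ H.Normal ∧ M ≤ Q ∧ Q ≤ H ∧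
        NearA k K f B H ∧ (Q.relIndex H).Prime ∧ (∀ g : SUA f, ∀ x ∈ H, ⁅g, x⁆ ∈ Q) ∧
        ∀ V : Subgroup (SUA f), NearA k K f B V → H ≤ Q ⊔ V := by
  have hgff := gff_of_isGlobal hk
  have hst : ∀ (c : k) (x : A), star (c • x) = c • star x := H519.star_smul_of_anis hA
  obtain ⟨q, hq, hqN, φ, g, hφ, -, hspan⟩ := H519.exists_split_place hk hA (by omega) T₀ N₀
  have hqA : q ∉ Adiv k K A := notMem_Adiv hA (by omega) hφ
  have hqT : ∀ T : Finset (Place k), (∀ v ∈ T, v ∈ Adiv k K A) → q ∉ T := fun T hT h => hqA (hT q h)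
  have hFG := fg_FLv hA (by omega) hφ hspan f B
  set e : GA f →* SUA f := (eGA f : GA f →* SUA f) with he
  have hsur : Function.Surjective e := (eGA f).surjective
  have hinj : Function.Injective e := (eGA f).injective
  have hmapc : ∀ C : Subgroup (GA f), (C.map e).comap e = C := fun C =>
    Subgroup.comap_map_eq_self_of_injective hinj C
  have hcomapm : ∀ C : Subgroup (SUA f), (C.comap e).map e = C := fun C =>
    Subgroup.map_comap_eq_self_of_surjective hsur C
  have hmapnear : ∀ C : Subgroup (GA f), (∃ T : Finset (Place k), (∀ v ∈ T, v ∈ Adiv k K A) ∧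
      ∃ ε : ℝ, 0 < ε ∧ ∀ g : GA f, (∀ v ∈ T, Sm B v ε ((((g : UA A) : Aˣ) : A) - 1)) → g ∈ C) →
      NearA k K f B (C.map e) := by
    rintro C ⟨T, hT, ε, hε, h⟩
    refine ⟨T, hT, ε, hε, fun g hg => ?_⟩
    obtain ⟨u, rfl⟩ := hsur g
    exact ⟨u, h u hg, rfl⟩
  set M' : Subgroup (GA f) := M.comap e with hM'
  have hM'n : M'.Normal := inferInstance
  have hM'i : M'.FiniteIndex := ⟨by
    rw [hM', Subgroup.index_comap_of_surjective _ hsur]
    exact hi⟩
  by_cases hNF : (M' : Set (GA f)) ∈ Fc (GA f) (FLv f B {q})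
  · left
    have h1 := hmapnear M' (near_of_mem hk hA hn f B h2 hφ hspan M' hNF)
    rwa [hM', hcomapm] at h1
  · right
    obtain ⟨Q', H', hQ'n, hH'n, hNQ', hhull, -, hprime, hcomm⟩ := exists_central (GA f)
      (GA_mem {q}) (lev_FLv hst {q}) hFG
      (fun E iE c R hT hc => hcore q hq hqN φ g hφ hspan E iE c R hT hc) M' hNF (by
        intro Q' H' hQ'n hH'n hQ'f hH'F hQH' hab
        have hH'f : H'.FiniteIndex := Subgroup.finiteIndex_of_le hQH'
        obtain ⟨T, hT, ε, hε, h⟩ := near_of_mem hk hA hn f B h2 hφ hspan H' hH'F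
        obtain ⟨ε', hε', h'⟩ := rh_FF hk hA (by omega) f B H' Q' T hT hε h hab
        exact ⟨_, near_mem_Fc f B (hqT T hT) hε', fun g v hv => h' v hv g⟩)
    have hH'f : H'.FiniteIndex := Subgroup.finiteIndex_of_le (hNQ'.trans hhull.le)
    refine ⟨Q'.map e, H'.map e, Subgroup.Normal.map hQ'n _ hsur, Subgroup.Normal.map hH'n _ hsur,
      ?_, Subgroup.map_mono hhull.le,
      hmapnear _ (near_of_mem hk hA hn f B h2 hφ hspan H' hhull.mem), ?_, ?_, ?_⟩
    · rw [← hcomapm M]
      exact Subgroup.map_mono hNQ'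
    · have h1 : (Q'.map e).relIndex (H'.map e) = Q'.relIndex H' := by
        rw [Subgroup.relIndex_map_map_of_injective _ _ hinj]
      rwa [h1]
    · rintro g _ ⟨x, hx, rfl⟩
      obtain ⟨g, rfl⟩ := hsur g
      rw [← map_commutatorElement]
      exact ⟨_, hcomm g x hx, rfl⟩
    · rintro V ⟨T, hT, ε, hε, hV⟩
      have h1 : ((V.comap e : Subgroup (GA f)) : Set (GA f)) ∈ Fc (GA f) (FLv f B {q}) := by
        refine Filter.mem_of_superset (near_mem_Fc f B (hqT T hT) hε) fun g hg => ?_
        rw [SetLike.mem_coe, Subgroup.mem_comap]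
        exact hV _ hg
      have h2 : H' ≤ Q' ⊔ V.comap e := hhull.least _ le_sup_left
        (Filter.mem_of_superset h1 (SetLike.coe_subset_coe.mpr le_sup_right))
      refine (Subgroup.map_mono h2).trans ?_
      rw [Subgroup.map_sup, hcomapm]

end Vale.Agent.P011.H698
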