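import Vale.Agent.P011.H698.TorS7
import Vale.Agent.P011.H271.StarF
import Vale.Agent.P011.H511.CSpl

/-!
# Function fields: moving an element of the unitary torus close to one
-/

open Module TensorProduct Topology

set_option linter.unusedSectionVars false

namespace Vale.Agent.P011.H698

open Vale.Agent.P011.H738 Vale.Agent.P011.H271 Vale.Agent.P011.H775 Vale.Agent.P011.H948
  Vale.Agent.P011.H271.StarF

variable {k K D : Type} [Field k] [Field K] [StarRing K]
  [DivisionRing D] [StarRing D] [Algebra k K] [Algebra k D] [Algebra K D] [IsScalarTower k K D]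
  [StarModule K D] {Ω : Type} [Field Ω] [Algebra K Ω] {N : ℕ}

/-- The form over `K` for the norm. -/
theorem s7_ff' (hA : Anis k K D 3) (h2 : (2 : k) ≠ 0) (h3 : (3 : k) ≠ 0) (C : Cub K D)
    (B : Basis (Fin N) k D) {T : Set (Place k)} (hTf : T.Finite) (hT : ∀ v ∈ T, v ∈ Adiv k K D)
    {ε : ℝ} (hε : 0 < ε) :
    ∃ δ : ℝ, 0 < δ ∧ ∀ u w e : D, (∀ v ∈ T, Sm B v δ (u - 1)) →
      w * star w = 1 → w ∉ Set.range (algebraMap K D) → e * star e = 1 → e * w = w * e →
      C.N e = C.N u → ∃ t : D, t * star t = 1 ∧ C.N t = 1 ∧ (∀ y, y * w = w * y → y * t = t * y) ∧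
        ∀ v ∈ T, Sm B v ε (e * t - 1) := by
  classical
  have := hA.finiteDimensional (by norm_num)
  have := hA.central
  have hsm : ∀ (x : K) (y : D), star (x • y) = star x • star y := fun x y => star_smul x y
  let T' : Finset (Place k) := hTf.toFinset
  have hT' : ∀ v : T', (v : Place k) ∈ Adiv k K D := fun v => hT v (hTf.mem_toFinset.mp v.2)
  choose φ hφ using hT'
  let i1 : ∀ v : T', NontriviallyNormedField (v : Place k).comp := fun v => nnfPlace (v : Place k)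
  let i2 : ∀ v : T', Algebra K (v : Place k).comp := fun v =>
    (φ v : K →+* (v : Place k).comp).toAlgebra
  have i3 : ∀ v : T', IsScalarTower k K (v : Place k).comp := fun v =>
    IsScalarTower.of_algebraMap_eq fun c => ((φ v).commutes c).symm
  have hC : SCub C := sCub_of C hA.finrank_eq hsm
  obtain ⟨w, hw⟩ := hA.star_ne
  have hs0 : w - star w ≠ 0 := fun h => hw (sub_eq_zero.mp h).symm
  have hs : star (w - star w) = -(w - star w) := by rw [star_sub, star_star, neg_sub]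
  obtain ⟨δ, hδ, h1⟩ := @s7_abs k K D _ _ _ _ _ _ _ _ _ _ _ C T' _
    (fun v => (v : Place k).comp) i1 (fun v => inferInstance) (fun v => inferInstance) i2 i3 N
    hC hA.finrank_eq (fun x hx => (hA.fixed x).mp hx) (fun x => (hA.fixed _).mpr ⟨x, rfl⟩)
    (w - star w) hs hs0 h2 h3 hφ (fun y η hη => place_weak T' y hη) B _ hε
  have hn : ∀ (v : T') (c : k), ‖algebraMap k (v : Place k).comp c‖ = (v : Place k).abv c :=
    fun v c => norm_alg _ c
  refine ⟨δ, hδ, fun u w e hu hw hwK he hew hN => ?_⟩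
  obtain ⟨t, ht1, ht2, ht3, ht4⟩ := h1 u w e (fun v i => by
    rw [hn]
    exact hu v (hTf.mem_toFinset.mp v.2) i) hw hwK he hew hN
  refine ⟨t, ht1, ht2, ht3, fun v hv i => ?_⟩
  have h4 := ht4 ⟨v, hTf.mem_toFinset.mpr hv⟩ i
  rwa [hn] at h4

/-- **S7**, over function fields. -/
theorem s7_ff (hA : Anis k K D 3) (h2 : (2 : k) ≠ 0) (h3 : (3 : k) ≠ 0) (C : Cub K D)
    (f : D →ₐ[K] Matrix (Fin 3) (Fin 3) Ω) (B : Basis (Fin N) k D) {T : Set (Place k)}
    (hTf : T.Finite) (hT : ∀ v ∈ T, v ∈ Adiv k K D) :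
    ∀ ε : ℝ, 0 < ε → ∃ δ : ℝ, 0 < δ ∧ ∀ u w e : UA D, Nr B T δ ((u : Dˣ) : D) →
      ((w : Dˣ) : D) ∉ Set.range (algebraMap K D) → e * w = w * e →
        (f ((e : Dˣ) : D)).det = (f ((u : Dˣ) : D)).det → ∃ e' : UA D, e' * w = w * e' ∧
          (f ((e' : Dˣ) : D)).det = (f ((u : Dˣ) : D)).det ∧ Nr B T ε ((e' : Dˣ) : D) := by
  have := hA.finiteDimensional (by norm_num)
  have := hA.central
  intro ε hε
  obtain ⟨δ, hδ, h1⟩ := s7_ff' hA h2 h3 C B hTf hT hε
  refine ⟨δ, hδ, fun u w e hun hwK hew hd => ?_⟩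
  have hdN : ∀ x : D, (f x).det = algebraMap K Ω (C.N x) := fun x =>
    (H511.spl_compat C hA.finrank_eq f x).2.2.1
  have hN : C.N ((e : Dˣ) : D) = C.N ((u : Dˣ) : D) := by
    rw [hdN, hdN] at hd
    exact (algebraMap K Ω).injective hd
  have hew' : ((e : Dˣ) : D) * ((w : Dˣ) : D) = ((w : Dˣ) : D) * ((e : Dˣ) : D) := by
    have := congrArg (fun x : UA D => ((x : Dˣ) : D)) hew
    exact this
  obtain ⟨t, ht1, ht2, ht3, ht4⟩ := h1 ((u : Dˣ) : D) ((w : Dˣ) : D) ((e : Dˣ) : D) hun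
    (ua_mul_star w) hwK (ua_mul_star e) hew' hN
  have ht0 : t ≠ 0 := left_ne_zero_of_mul_eq_one ht1
  let t' : UA D := ⟨Units.mk0 t ht0, ht1⟩
  refine ⟨e * t', ?_, ?_, ht4⟩
  · have h5 : t' * w = w * t' := Subtype.ext (Units.ext (ht3 _ rfl).symm)
    rw [mul_assoc, h5, ← mul_assoc, hew, mul_assoc]
  · have h5 : (f (((e * t' : UA D) : Dˣ) : D)).det = (f ((e : Dˣ) : D)).det := by
      rw [hdN, hdN]
      congr 1
      change C.N (((e : Dˣ) : D) * t) = _
      rw [C.N_mul, ht2, mul_one]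
    rw [h5, hd]

end Vale.Agent.P011.H698
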