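import Vale.Agent.P011.H167.LfC

/-!
# Rank two over function fields: elements of norm one in the centre
-/

open Module Polynomial

set_option linter.unusedSectionVars false

namespace Vale.Agent.P011.H698.R7

open Vale.Agent.P011.H738 Vale.Agent.P011.H271 Vale.Agent.P011.H182 Vale.Agent.P011.H305
  Vale.Agent.P011.H158.N4 Vale.Agent.P011.H167.Lf Vale.Agent.P011.H929.FF

variable {k K D : Type} [Field k] [GFF k] [Field K] [StarRing K]
    [DivisionRing D] [StarRing D] [Algebra k K] [Algebra k D] [Algebra K D] [IsScalarTower k K D]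
    {d : kˣ} {s : K} {N : ℕ}

/-- Elements of norm one are integral at the places which are not split. -/
theorem ki_of_norm_one (hS : SetF k K D d s) {v : Place k} (hns : ¬ SqAt (d : k) v)
    (hd : v.abv (d : k) = 1) {μ : K} (hμ : μ * star μ = 1) : KI v s μ := by
  obtain ⟨a, b, rfl⟩ := exists_ks hS μ
  have h1 : a ^ 2 - d * b ^ 2 = 1 := by
    apply (algebraMap k K).injective
    rw [star_add, star_mul', hS.star_s, hS.star_algebraMap, hS.star_algebraMap] at hμ
    rw [map_sub, map_mul, map_pow, map_pow, ← hS.sq, map_one, ← hμ]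
    ring
  by_contra hcon
  -- the larger coordinate
  obtain ⟨c, hc1, hca, hcb, hc⟩ : ∃ c : k, 1 < v.abv c ∧ v.abv a ≤ v.abv c ∧ v.abv b ≤ v.abv c ∧
      (v.abv (a / c) = 1 ∨ v.abv (b / c) = 1) := by
    have hne : ¬ (v.abv a ≤ 1 ∧ v.abv b ≤ 1) := fun h => hcon ⟨a, b, rfl, h.1, h.2⟩
    rcases le_total (v.abv a) (v.abv b) with h | h
    · have hb : 1 < v.abv b := by
        by_contra h2
        rw [not_lt] at h2
        exact hne ⟨h.trans h2, h2⟩
      exact ⟨b, hb, h, le_rfl, Or.inr (by rw [map_div₀, div_self (by linarith)])⟩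
    · have ha : 1 < v.abv a := by
        by_contra h2
        rw [not_lt] at h2
        exact hne ⟨h2, h.trans h2⟩
      exact ⟨a, ha, le_rfl, h, Or.inl (by rw [map_div₀, div_self (by linarith)])⟩
  have hc0 : c ≠ 0 := by
    rintro rfl
    rw [map_zero] at hc1
    linarith
  have hcp : 0 < v.abv c := by linarith
  obtain ⟨h3, h4⟩ := small_of_norm hS.two_ne hd hns (a := a / c) (b := b / c)
    (by rw [map_div₀]; exact (div_le_one₀ hcp).mpr hca)
    (by rw [map_div₀]; exact (div_le_one₀ hcp).mpr hcb)
    (by
      have e : (a / c) ^ 2 - d * (b / c) ^ 2 = (c⁻¹) ^ 2 := by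
        have : (a / c) ^ 2 - d * (b / c) ^ 2 = (a ^ 2 - d * b ^ 2) * c⁻¹ ^ 2 := by
          field_simp
        rw [this, h1, one_mul]
      rw [e, map_pow, map_inv₀]
      exact pow_lt_one₀ (inv_nonneg.mpr hcp.le) (inv_lt_one_of_one_lt₀ hc1) two_ne_zero)
  rcases hc with hc | hc
  · rw [hc] at h3
    exact lt_irrefl _ h3
  · rw [hc] at h4
    exact lt_irrefl _ h4

/-- There are infinitely many elements of norm one close to one. -/
theorem infinite_lam (hS : SetF k K D d s) (B : Basis (Fin N) k D) (T : Finset (Place k))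
    (δ : Place k → ℝ) (hδ : ∀ v, 0 < δ v) :
    {μ : K | μ * star μ = 1 ∧
      ∀ v ∈ T, na B v.abv (algebraMap K D (star μ) - 1) < δ v}.Infinite := by
  have hs0 : s ≠ 0 := hS.s_ne
  have h2K : (2 : K) ≠ 0 := two_K hS
  -- the radius
  obtain ⟨M, hM⟩ : ∃ M : Place k → ℝ, ∀ v, M v = v.abv 2 *
      (v.abv (d : k) * na B v.abv (1 : D) + na B v.abv (algebraMap K D s)) + 1 := ⟨_, fun _ => rfl⟩
  have hM0 : ∀ v, 1 ≤ M v := fun v => by
    rw [hM]
    have h1 := v.abv.nonneg (2 : k)
    have h2 := v.abv.nonneg (d : k)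
    have h3 := na_nonneg B v.abv (1 : D)
    have h4 := na_nonneg B v.abv (algebraMap K D s)
    have : 0 ≤ v.abv 2 * (v.abv (d : k) * na B v.abv (1 : D) + na B v.abv (algebraMap K D s)) := by
      positivity
    linarith
  obtain ⟨ρ, hρ⟩ : ∃ ρ : Place k → ℝ, ∀ v, ρ v = min (min 1 (1 / (v.abv (d : k) + 1)))
    (δ v / M v) := ⟨_, fun _ => rfl⟩
  have hρ0 : ∀ v, 0 < ρ v := fun v => by
    rw [hρ]
    have h1 := v.abv.nonneg (d : k)
    have h2 := hδ v
    have h3 := hM0 v
    refine lt_min (lt_min one_pos (by positivity)) (by positivity)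
  have hinf := infinite_small (k := k) (P := (T : Set (Place k))) (Finset.finite_toSet T) hρ0
  -- the map
  have hden : ∀ c : k, 1 - (c ^ 2 * d : k) ≠ 0 → (1 + algebraMap k K c * s) ≠ 0 ∧
      (1 - algebraMap k K c * s) ≠ 0 := by
    intro c hc
    rw [← mul_ne_zero_iff]
    have e : (1 + algebraMap k K c * s) * (1 - algebraMap k K c * s) =
        algebraMap k K (1 - c ^ 2 * d) := by
      rw [map_sub, map_mul, map_pow, map_one, ← hS.sq]
      ring
    rw [e]
    exact (_root_.map_ne_zero _).mpr hc
  have hnz : ∀ c : k, 1 - (c ^ 2 * d : k) ≠ 0 := by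
    intro c hc
    apply hS.ns
    have hc0 : c ≠ 0 := by
      rintro rfl
      simp at hc
    refine ⟨c⁻¹, ?_⟩
    have h1 : c ^ 2 * (d : k) = 1 := (sub_eq_zero.mp hc).symm
    field_simp
    rw [mul_comm]
    exact h1
  refine ((hinf.image (f := fun c : k => (1 - algebraMap k K c * s) / (1 + algebraMap k K c * s))
    ?_).mono ?_)
  · intro c _ c' _ h
    simp only at h
    obtain ⟨h1, h2⟩ := hden c (hnz c)
    obtain ⟨h3, h4⟩ := hden c' (hnz c')
    rw [div_eq_div_iff h1 h3] at h
    have h5 : (2 * s) * (algebraMap k K c - algebraMap k K c') = 0 := by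
      linear_combination (-1 : K) * h
    have h6 := (mul_eq_zero.mp h5).resolve_left (mul_ne_zero h2K hs0)
    exact (algebraMap k K).injective (sub_eq_zero.mp h6)
  · rintro _ ⟨c, ⟨hc0, hc⟩, rfl⟩
    obtain ⟨h1, h2⟩ := hden c (hnz c)
    have hst : star ((1 - algebraMap k K c * s) / (1 + algebraMap k K c * s)) =
        (1 + algebraMap k K c * s) / (1 - algebraMap k K c * s) := by
      rw [star_div₀, star_sub, star_add, star_one, star_mul', hS.star_s, hS.star_algebraMap]
      congr 1 <;> ring
    refine ⟨?_, fun v hv => ?_⟩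
    · rw [hst]
      field_simp
    · have hcv := hc v hv
      rw [hρ] at hcv
      have hc1 : v.abv c < 1 := hcv.trans_le ((min_le_left _ _).trans (min_le_left _ _))
      have hc2 : v.abv c < 1 / (v.abv (d : k) + 1) :=
        hcv.trans_le ((min_le_left _ _).trans (min_le_right _ _))
      have hc3 : v.abv c < δ v / M v := hcv.trans_le (min_le_right _ _)
      have hd0 := v.abv.nonneg (d : k)
      have hcp := v.abv.nonneg c
      have hcd : v.abv (c * d) < 1 := by
        rw [map_mul]
        have h3 : v.abv c * (v.abv (d : k) + 1) < 1 := (lt_div_iff₀ (by positivity)).mp hc2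
        nlinarith
      have hccd : v.abv (c ^ 2 * d) < 1 := by
        have e : c ^ 2 * (d : k) = c * (c * d) := by ring
        rw [e]
        exact abv_mul_lt hc1.le hcd
      have hone : v.abv (1 - c ^ 2 * d) = 1 := by
        have h3 : v.abv (1 - c ^ 2 * d) ≤ 1 := by
          rw [sub_eq_add_neg]
          refine abv_add_le (by rw [map_one]) ?_
          rw [AbsoluteValue.map_neg]
          exact hccd.le
        refine le_antisymm h3 (not_lt.mp fun h4 => ?_)
        have h5 : v.abv ((1 - c ^ 2 * d) + c ^ 2 * d) < 1 := abv_add_lt h4 hccd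
        rw [sub_add_cancel, map_one] at h5
        exact lt_irrefl _ h5
      have e : algebraMap K D (star ((1 - algebraMap k K c * s) / (1 + algebraMap k K c * s))) - 1 =
          (2 * c * (1 - c ^ 2 * d)⁻¹) • ((c * d) • (1 : D) + algebraMap K D s) := by
        rw [hst]
        have e1 : (1 + algebraMap k K c * s) / (1 - algebraMap k K c * s) - 1 =
            algebraMap k K (2 * c * (1 - c ^ 2 * d)⁻¹) * (algebraMap k K (c * d) + s) := by
          have h3 : algebraMap k K (1 - c ^ 2 * d) =
              (1 - algebraMap k K c * s) * (1 + algebraMap k K c * s) := by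
            rw [map_sub, map_mul, map_pow, map_one, ← hS.sq]
            ring
          rw [map_mul, map_inv₀, h3, map_mul, map_mul, map_ofNat, ← hS.sq]
          field_simp
          ring
        rw [← map_one (algebraMap K D), ← map_sub, e1, map_mul, map_add, Algebra.smul_def,
          Algebra.smul_def, ← IsScalarTower.algebraMap_apply, ← IsScalarTower.algebraMap_apply,
          map_one, mul_one]
      rw [e, na_smul, map_mul, map_mul, map_inv₀, hone, inv_one, mul_one]
      have h6 : na B v.abv ((c * d) • (1 : D) + algebraMap K D s) ≤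
          v.abv (d : k) * na B v.abv (1 : D) + na B v.abv (algebraMap K D s) := by
        refine (na_add_le B v.abv _ _).trans (add_le_add ?_ le_rfl)
        rw [na_smul, map_mul]
        have := na_nonneg B v.abv (1 : D)
        refine mul_le_mul_of_nonneg_right ?_ this
        nlinarith
      have h7 : v.abv c * M v < δ v := (lt_div_iff₀ (by linarith [hM0 v])).mp hc3
      have h8 := v.abv.nonneg (2 : k)
      calc v.abv 2 * v.abv c * na B v.abv ((c * d) • (1 : D) + algebraMap K D s)
          ≤ v.abv 2 * v.abv c *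
            (v.abv (d : k) * na B v.abv (1 : D) + na B v.abv (algebraMap K D s)) :=
            mul_le_mul_of_nonneg_left h6 (by positivity)
        _ = v.abv c * (M v - 1) := by rw [hM]; ring
        _ ≤ v.abv c * M v := mul_le_mul_of_nonneg_left (by linarith) hcp
        _ < δ v := h7

end Vale.Agent.P011.H698.R7
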