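import Vale.Agent.P011.H167.LfC
import Mathlib.LinearAlgebra.Lagrange

/-!
# Rank two over function fields: residues

Among sufficiently many values of the parameter there is one for which the three elements are
units.
-/

open Module Polynomial Matrix

set_option linter.unusedSectionVars false

namespace Vale.Agent.P011.H698.R7

open Vale.Agent.P011.H738 Vale.Agent.P011.H271 Vale.Agent.P011.H182 Vale.Agent.P011.H305
  Vale.Agent.P011.H158.N4 Vale.Agent.P011.H167.Lf

variable {k K D : Type} [Field k] [GFF k] [Field K] [StarRing K]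
    [DivisionRing D] [StarRing D] [Algebra k K] [Algebra k D] [Algebra K D] [IsScalarTower k K D]
    {d : kˣ} {s : K} {N : ℕ}

/-- The inverse of an integral element which is not small is integral. -/
theorem ki_inv (hS : SetF k K D d s) {v : Place k} (hns : ¬ SqAt (d : k) v)
    (hd : v.abv (d : k) = 1) {c : K} (hc : KI v s c) (hcn : ¬ KS v s c) : c ≠ 0 ∧ KI v s c⁻¹ := by
  obtain ⟨u, hu, hu1⟩ := unit_of_not_small hS hd hns hc hcn
  have hu0 : u ≠ 0 := by
    rintro rfl
    rw [map_zero] at hu1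
    exact zero_ne_one hu1
  have huK : algebraMap k K u ≠ 0 := (_root_.map_ne_zero _).mpr hu0
  have hc0 : c ≠ 0 := by
    rintro rfl
    rw [mul_zero] at hu
    exact huK hu.symm
  refine ⟨hc0, ?_⟩
  have e : c⁻¹ = algebraMap k K u⁻¹ * star c := by
    rw [map_inv₀, ← hu]
    have : star c ≠ 0 := star_ne_zero.mpr hc0
    field_simp
  rw [e]
  refine KI.mul hS hd.le (ki_of (by rw [map_inv₀, hu1, inv_one])) ?_
  obtain ⟨x, y, hxy, hx, hy⟩ := hc
  refine ⟨x, -y, ?_, hx, by rwa [AbsoluteValue.map_neg]⟩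
  rw [hxy, star_add, star_mul', hS.star_s, hS.star_algebraMap, hS.star_algebraMap, map_neg]
  ring

/-- The matrix `1 + c M`. -/
noncomputable def mat (B : Basis (Fin N) k D) (a : D) (c : K) : Matrix (Fin N) (Fin N) K :=
  1 + c • (Algebra.leftMulMatrix B a).map (algebraMap k K)

theorem entry_le {v : Place k} {B : Basis (Fin N) k D} (hB : H182.Gd B v.abv) {a : D}
    (ha : Ig B v.abv a) (i j : Fin N) : v.abv (Algebra.leftMulMatrix B a i j) ≤ 1 := by
  rw [Algebra.leftMulMatrix_eq_repr_mul]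
  refine hB.mul' ha ?_ i
  intro l
  rw [B.repr_self, Finsupp.single_apply]
  split_ifs
  · rw [map_one]
  · rw [map_zero]; exact zero_le_one

/-- The vector with coordinates `w` is mapped by `1 + c a` as by the matrix. -/
theorem mul_sum_eq (B : Basis (Fin N) k D) (a : D) (c : K) (w : Fin N → K) :
    (1 + algebraMap K D c * a) * ∑ j, w j • B j = ∑ i, ((mat B a c) *ᵥ w) i • B i := by
  have h1 : ∀ j, (1 + algebraMap K D c * a) * (w j • B j) =
      ∑ i, (mat B a c i j * w j) • B i := by
    intro j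
    have h2 : a * B j = ∑ i, (Algebra.leftMulMatrix B a i j) • B i := by
      conv_lhs => rw [← B.sum_repr (a * B j)]
      exact Finset.sum_congr rfl fun i _ => by rw [Algebra.leftMulMatrix_eq_repr_mul]
    have h3 : ∀ i, (mat B a c i j * w j) • B i = (if i = j then w j • B i else 0) +
        (w j * c) • (Algebra.leftMulMatrix B a i j) • B i := by
      intro i
      rw [mat, Matrix.add_apply, Matrix.one_apply, Matrix.smul_apply, Matrix.map_apply,
        ← algebraMap_smul K (Algebra.leftMulMatrix B a i j) (B i), smul_smul, add_mul, add_smul,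
        smul_eq_mul]
      congr 1
      · split_ifs
        · rw [one_mul]
        · rw [zero_mul, zero_smul]
      · congr 1
        ring
    rw [Finset.sum_congr rfl fun i _ => h3 i, Finset.sum_add_distrib, Finset.sum_ite_eq' Finset.univ,
      if_pos (Finset.mem_univ j), ← Finset.smul_sum, ← h2, add_mul, one_mul]
    congr 1
    rw [mul_smul_comm, mul_assoc, ← Algebra.smul_def, smul_smul]
  rw [Finset.mul_sum, Finset.sum_congr rfl fun j _ => h1 j, Finset.sum_comm]
  refine Finset.sum_congr rfl fun i _ => ?_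
  rw [← Finset.sum_smul]
  rfl

/-- If the determinant is not small the element is a unit. -/
theorem unit_of_det (hS : SetF k K D d s) (B : Basis (Fin N) k D) {v : Place k}
    (hns : ¬ SqAt (d : k) v) (hd : v.abv (d : k) = 1) (hB : H182.Gd B v.abv)
    (hsI : Ig B v.abv (algebraMap K D s)) {a : D} (ha : Ig B v.abv a) {c : K} (hc : KI v s c)
    (hdet : ¬ KS v s (mat B a c).det) :
    1 + algebraMap K D c * a ≠ 0 ∧ Ig B v.abv (1 + algebraMap K D c * a)⁻¹ := by
  classical
  let R := KR hS v hd.le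
  let M : Matrix (Fin N) (Fin N) R := fun i j => ⟨mat B a c i j, by
    rw [mat, Matrix.add_apply, Matrix.one_apply, Matrix.smul_apply, Matrix.map_apply]
    refine Subring.add_mem _ ?_ (Subring.mul_mem _ hc (ki_of (entry_le hB ha i j)))
    split_ifs
    · exact Subring.one_mem _
    · exact Subring.zero_mem _⟩
  have hM : M.map R.subtype = mat B a c := rfl
  have hdetM : ((M.det : R) : K) = (mat B a c).det := by
    have := RingHom.map_det R.subtype M
    rw [RingHom.mapMatrix_apply, hM] at this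
    exact this
  let w₀ : Fin N → R := fun i => ⟨algebraMap k K (B.repr 1 i), ki_of (hB.one i)⟩
  let w : Fin N → R := M.adjugate *ᵥ w₀
  have hw : M *ᵥ w = M.det • w₀ := by
    rw [Matrix.mulVec_mulVec, Matrix.mul_adjugate, Matrix.smul_mulVec, Matrix.one_mulVec]
  have hdI : KI v s (mat B a c).det := by
    rw [← hdetM]
    exact (M.det).2
  obtain ⟨h0, hinv⟩ := ki_inv hS hns hd hdI hdet
  have hw' : ∀ i, ((mat B a c) *ᵥ fun j => (w j : K)) i =
      (mat B a c).det * algebraMap k K (B.repr 1 i) := by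
    intro i
    have h1 := congrArg (fun f => R.subtype (f i)) hw
    simp only [Pi.smul_apply, smul_eq_mul, map_mul] at h1
    rw [← hdetM]
    refine Eq.trans ?_ h1
    rw [Matrix.mulVec, Matrix.mulVec, dotProduct, dotProduct, map_sum]
    exact Finset.sum_congr rfl fun j _ => by rw [map_mul]; rfl
  have hkey : (1 + algebraMap K D c * a) * ∑ j, (w j : K) • B j =
      algebraMap K D (mat B a c).det := by
    rw [mul_sum_eq, Finset.sum_congr rfl fun i _ => by rw [hw' i]]
    rw [Finset.sum_congr rfl fun i _ => by rw [mul_smul, algebraMap_smul], ← Finset.smul_sum,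
      B.sum_repr, Algebra.algebraMap_eq_smul_one]
  have hdD : algebraMap K D (mat B a c).det ≠ 0 := (_root_.map_ne_zero _).mpr h0
  have hne : 1 + algebraMap K D c * a ≠ 0 := by
    intro h
    rw [h, zero_mul] at hkey
    exact hdD hkey.symm
  refine ⟨hne, ?_⟩
  have h2 : (1 + algebraMap K D c * a)⁻¹ =
      (∑ j, (w j : K) • B j) * algebraMap K D ((mat B a c).det)⁻¹ := by
    rw [inv_eq_iff_eq_inv, eq_comm]
    apply inv_eq_of_mul_eq_one_left
    rw [← mul_assoc, hkey, map_inv₀, mul_inv_cancel₀ hdD]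
  rw [h2]
  refine hB.mul' ?_ (ig_of_ki hB hsI hinv)
  refine Gd.sum hB.na _ fun j _ => ?_
  rw [Algebra.smul_def]
  refine hB.mul' (ig_of_ki hB hsI (w j).2) ?_
  intro l
  rw [B.repr_self, Finsupp.single_apply]
  split_ifs
  · rw [map_one]
  · rw [map_zero]; exact zero_le_one

/-- At most `N` of the values are bad. -/
theorem card_bad (hS : SetF k K D d s) (B : Basis (Fin N) k D) {v : Place k}
    (hd : v.abv (d : k) = 1) {a : D} {c : k} (hc : v.abv c ≤ 1) (Θ : Finset k)
    (hΘ1 : ∀ θ ∈ Θ, v.abv θ ≤ 1) (hΘ2 : ∀ θ ∈ Θ, ∀ θ' ∈ Θ, θ ≠ θ' → v.abv (θ - θ') = 1)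
    (hbad : ∀ θ ∈ Θ, KS v s (mat B a (algebraMap k K θ * s + algebraMap k K c)).det) :
    Θ.card ≤ N := by
  classical
  by_contra hcon
  rw [not_le] at hcon
  have hs0 : s ≠ 0 := hS.s_ne
  obtain ⟨A, hA⟩ : ∃ A : Matrix (Fin N) (Fin N) K,
    A = (Algebra.leftMulMatrix B a).map (algebraMap k K) := ⟨_, rfl⟩
  obtain ⟨G, hG⟩ : ∃ G : K[X], G = det ((X : K[X]) • (s • A).map C +
    (1 + algebraMap k K c • A).map C : Matrix (Fin N) (Fin N) K[X]) := ⟨_, rfl⟩
  have hGdeg : G.natDegree ≤ N := by
    rw [hG]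
    have := Polynomial.natDegree_det_X_add_C_le (s • A) (1 + algebraMap k K c • A)
    rwa [Fintype.card_fin] at this
  have hGev : ∀ t : K, G.eval t = (1 + (t * s + algebraMap k K c) • A).det := by
    intro t
    rw [hG]
    have h1 := RingHom.map_det (Polynomial.evalRingHom t) ((X : K[X]) • (s • A).map C +
      (1 + algebraMap k K c • A).map C : Matrix (Fin N) (Fin N) K[X])
    rw [Polynomial.coe_evalRingHom] at h1
    rw [h1]
    congr 1
    ext i j
    simp only [RingHom.mapMatrix_apply, Matrix.map_apply, Matrix.add_apply, Matrix.smul_apply,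
      Polynomial.coe_evalRingHom, Polynomial.eval_add, smul_eq_mul, Polynomial.eval_mul,
      Polynomial.eval_X, Polynomial.eval_C]
    ring
  have hGθ : ∀ θ ∈ Θ, KS v s (G.eval (algebraMap k K θ)) := by
    intro θ hθ
    rw [hGev, hA]
    exact hbad θ hθ
  have hG0 : G.eval (-algebraMap k K c * s⁻¹) = 1 := by
    rw [hGev, mul_assoc, inv_mul_cancel₀ hs0, mul_one, neg_add_cancel, zero_smul, add_zero,
      Matrix.det_one]
  have hinj : Set.InjOn (algebraMap k K) (Θ : Set k) := (algebraMap k K).injective.injOn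
  have hGdeg' : G.degree < Θ.card := by
    refine (Polynomial.degree_le_natDegree).trans_lt ?_
    exact_mod_cast (hGdeg.trans_lt hcon)
  have h1 := Lagrange.eq_interpolate hinj hGdeg'
  apply not_ks_one hS (v := v)
  rw [← hG0, h1, Lagrange.interpolate_apply, Polynomial.eval_finsetSum]
  have hsinv : KI v s (-algebraMap k K c * s⁻¹) := by
    refine ⟨0, -(c * (d : k)⁻¹), ?_, by rw [map_zero]; exact zero_le_one, ?_⟩
    · rw [map_neg, map_mul, map_inv₀, ← hS.sq, map_zero, zero_add]
      field_simp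
    · rw [AbsoluteValue.map_neg, map_mul, map_inv₀, hd, inv_one, mul_one]
      exact hc
  have hsum : ∀ S : Finset k, S ⊆ Θ → KS v s (∑ i ∈ S, Polynomial.eval (-algebraMap k K c * s⁻¹)
      (C (G.eval (algebraMap k K i)) * Lagrange.basis Θ (algebraMap k K) i)) := by
    intro S
    induction S using Finset.induction_on with
    | empty => intro _; rw [Finset.sum_empty]; exact ks_zero
    | insert i S hi ih =>
      intro hSΘ
      rw [Finset.sum_insert hi]
      refine KS.add ?_ (ih fun x hx => hSΘ (Finset.mem_insert_of_mem hx))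
      have hiΘ : i ∈ Θ := hSΘ (Finset.mem_insert_self _ _)
      rw [Polynomial.eval_mul, Polynomial.eval_C, mul_comm]
      refine KS.mul hS hd.le ?_ (hGθ i hiΘ)
      rw [Lagrange.basis, Polynomial.eval_prod]
      have hprod : ∏ j ∈ Θ.erase i, Polynomial.eval (-algebraMap k K c * s⁻¹)
          (Lagrange.basisDivisor (algebraMap k K i) (algebraMap k K j)) ∈ KR hS v hd.le := by
        refine Subring.prod_mem _ fun j hj => ?_
        rw [Lagrange.basisDivisor, Polynomial.eval_mul, Polynomial.eval_C, Polynomial.eval_sub,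
          Polynomial.eval_X, Polynomial.eval_C]
        rw [Finset.mem_erase] at hj
        refine Subring.mul_mem _ ?_ (Subring.sub_mem _ hsinv (ki_of (hΘ1 j hj.2)))
        rw [← map_sub, ← map_inv₀]
        refine ki_of ?_
        rw [map_inv₀, hΘ2 i hiΘ j hj.2 hj.1.symm, inv_one]
      exact hprod
  exact hsum Θ subset_rfl

/-- The units near a good value. -/
theorem unit_near (hS : SetF k K D d s) (B : Basis (Fin N) k D) {v : Place k}
    (hns : ¬ SqAt (d : k) v) (hd : v.abv (d : k) = 1) (hB : H182.Gd B v.abv)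
    (hsI : Ig B v.abv (algebraMap K D s)) {a : D} (ha : Ig B v.abv a) {c θ : k}
    (hc : v.abv c ≤ 1) (hθ : v.abv θ ≤ 1)
    (hdet : ¬ KS v s (mat B a (algebraMap k K θ * s + algebraMap k K c)).det) {τ : k}
    (hτ : v.abv (τ - θ) < 1) {p : D}
    (hp : p = 1 + algebraMap K D (algebraMap k K τ * s + algebraMap k K c) * a) :
    Ig B v.abv p ∧ Ig B v.abv p⁻¹ := by
  have hKI : ∀ t : k, v.abv t ≤ 1 → KI v s (algebraMap k K t * s + algebraMap k K c) :=
    fun t ht => ⟨c, t, by ring, hc, ht⟩
  have hτ1 : v.abv τ ≤ 1 := by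
    have e : τ = (τ - θ) + θ := by ring
    rw [e]
    exact abv_add_le hτ.le hθ
  obtain ⟨hne, hI⟩ := unit_of_det hS B hns hd hB hsI ha (hKI θ hθ) hdet
  obtain ⟨u, hu⟩ : ∃ u : D, u = 1 + algebraMap K D (algebraMap k K θ * s + algebraMap k K c) * a :=
    ⟨_, rfl⟩
  rw [← hu] at hne hI
  refine ⟨?_, ?_⟩
  · rw [hp]
    exact Gd.add hB.na hB.one (hB.mul' (ig_of_ki hB hsI (hKI τ hτ1)) ha)
  · have h1 : p = u * (1 + (τ - θ) • (u⁻¹ * (algebraMap K D s * a))) := by
      rw [mul_add, mul_one, mul_smul_comm, mul_inv_cancel_left₀ hne, hp, hu, map_add, map_add,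
        map_mul, map_mul, ← IsScalarTower.algebraMap_apply, ← IsScalarTower.algebraMap_apply,
        ← IsScalarTower.algebraMap_apply, Algebra.smul_def, map_sub]
      noncomm_ring
    rw [h1, _root_.mul_inv_rev]
    refine hB.mul' (ig_inv_one_add hB fun l => ?_) hI
    rw [map_smul, Finsupp.smul_apply, smul_eq_mul]
    exact abv_mul_lt' hτ (hB.mul' hI (hB.mul' hsI ha) l)

/-- **Residues.** -/
theorem exists_residue (hS : SetF k K D d s) (B : Basis (Fin N) k D) {v : Place k}
    (hns : ¬ SqAt (d : k) v) (hd : v.abv (d : k) = 1) (hB : H182.Gd B v.abv)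
    (hsI : Ig B v.abv (algebraMap K D s)) (Θ : Finset k) (hΘ : 3 * N + 1 ≤ Θ.card)
    (hΘ1 : ∀ θ ∈ Θ, v.abv θ ≤ 1) (hΘ2 : ∀ θ ∈ Θ, ∀ θ' ∈ Θ, θ ≠ θ' → v.abv (θ - θ') = 1)
    {y : D} (hy : Ig B v.abv y) :
    ∃ θ ∈ Θ, ∀ (τ : k) (σ : D), v.abv (τ - θ) < 1 → σ = algebraMap K D (algebraMap k K τ * s) →
      ∀ p : D, p = 1 + σ * (1 - y) ∨ p = y + σ * (1 - y) ∨ p = 1 + σ * ((1 - y) * star y) →
      Ig B v.abv p ∧ Ig B v.abv p⁻¹ := by
  classical
  have hβ : Ig B v.abv (1 - y) := Gd.sub hB.na hB.one hy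
  have hys : Ig B v.abv (star y) := hB.star hS.star_smulk hy
  have hβy : Ig B v.abv ((1 - y) * star y) := hB.mul' hβ hys
  have hone : v.abv (-1 : k) ≤ 1 := by rw [AbsoluteValue.map_neg, map_one]
  have hzero : v.abv (0 : k) ≤ 1 := by rw [map_zero]; exact zero_le_one
  have hcard : ∀ (a : D) (c : k) (_ : v.abv c ≤ 1),
      (Θ.filter fun θ => KS v s (mat B a (algebraMap k K θ * s + algebraMap k K c)).det).card ≤ N :=
    fun a c hc => card_bad hS B hd hc _
      (fun θ hθ => hΘ1 θ (Finset.mem_filter.mp hθ).1)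
      (fun θ hθ θ' hθ' h => hΘ2 θ (Finset.mem_filter.mp hθ).1 θ' (Finset.mem_filter.mp hθ').1 h)
      (fun θ hθ => (Finset.mem_filter.mp hθ).2)
  obtain ⟨θ, hθ, hθn⟩ : ∃ θ ∈ Θ, θ ∉
      (Θ.filter fun θ => KS v s (mat B (1 - y) (algebraMap k K θ * s + algebraMap k K 0)).det) ∪
      (Θ.filter fun θ => KS v s (mat B (1 - y) (algebraMap k K θ * s + algebraMap k K (-1))).det) ∪
      (Θ.filter fun θ => KS v s
        (mat B ((1 - y) * star y) (algebraMap k K θ * s + algebraMap k K 0)).det) := by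
    by_contra hcon
    push Not at hcon
    have h1 := Finset.card_le_card (s := Θ) hcon
    have h2 := (Finset.card_union_le (Θ.filter fun θ => KS v s (mat B (1 - y)
      (algebraMap k K θ * s + algebraMap k K 0)).det) (Θ.filter fun θ => KS v s (mat B (1 - y)
      (algebraMap k K θ * s + algebraMap k K (-1))).det))
    have h3 := (Finset.card_union_le ((Θ.filter fun θ => KS v s (mat B (1 - y)
      (algebraMap k K θ * s + algebraMap k K 0)).det) ∪ (Θ.filter fun θ => KS v s (mat B (1 - y)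
      (algebraMap k K θ * s + algebraMap k K (-1))).det)) (Θ.filter fun θ => KS v s
        (mat B ((1 - y) * star y) (algebraMap k K θ * s + algebraMap k K 0)).det))
    have h4 := hcard (1 - y) 0 hzero
    have h5 := hcard (1 - y) (-1) hone
    have h6 := hcard ((1 - y) * star y) 0 hzero
    omega
  simp only [Finset.mem_union, Finset.mem_filter, not_or, not_and] at hθn
  obtain ⟨⟨hg1, hg2⟩, hg3⟩ := hθn
  refine ⟨θ, hθ, fun τ σ hτ hσ p hp => ?_⟩
  rcases hp with rfl | rfl | rfl
  · exact unit_near hS B hns hd hB hsI hβ hzero (hΘ1 θ hθ) (hg1 hθ) hτ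
      (by rw [hσ, map_zero, add_zero])
  · refine unit_near hS B hns hd hB hsI hβ hone (hΘ1 θ hθ) (hg2 hθ) hτ ?_
    rw [hσ, map_neg, map_one, map_add, map_neg, map_one]
    noncomm_ring
  · exact unit_near hS B hns hd hB hsI hβy hzero (hΘ1 θ hθ) (hg3 hθ) hτ
      (by rw [hσ, map_zero, add_zero])

end Vale.Agent.P011.H698.R7
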