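import Vale.Agent.P011.H698.R7Trans
import Vale.Agent.P011.H698.R7Lam
import Vale.Agent.P011.H699.R7Near
import Vale.Agent.P011.H698.R7Res

/-!
# Rank two over function fields: transitivity on the lines of unit vectors
-/

open Module

set_option linter.unusedSectionVars false

namespace Vale.Agent.P011.H698.R7

open Vale.Agent.P011.H738 Vale.Agent.P011.H271 Vale.Agent.P011.H305
open Vale.Agent.P011.Two (hh An Uh e₁)
open Vale.Agent.P011.H519.R2 (HQF)
open Vale.Agent.P011.H699 (G0)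

/-- **Transitivity on the lines of unit vectors.** -/
theorem transQ {k K D Ω : Type} [Field k] [GFF k] [Field K] [StarRing K]
    [DivisionRing D] [StarRing D] [Algebra k K] [Algebra k D] [Algebra K D] [IsScalarTower k K D]
    [Field Ω] [Algebra K Ω] [StarModule K D] {d : kˣ} {s : K}
    (hk : IsGlobalFunctionField k) (hS : SetF k K D d s) {n : ℕ} (hn : 2 ≤ n)
    (hdeg : finrank K D = n ^ 2) {g : D} (hg : star g = g) (han : An g)
    (f : D →ₐ[K] Matrix (Fin n) (Fin n) Ω)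
    {Q : Subgroup ((D × D) ≃ₗ[D] (D × D))} (hQ : Q ≤ G0 f g)
    (hQn : ∀ a ∈ G0 f g, ∀ x ∈ Q, a * x * a⁻¹ ∈ Q) (hfin : Q.relIndex (G0 f g) ≠ 0)
    (hHQ : HQF d s g Q) {x : (D × D) ≃ₗ[D] (D × D)} (hx : x ∈ G0 f g) :
    ∃ u ∈ Q, ∃ δ : D, δ ≠ 0 ∧ u e₁ = δ • x e₁ :=
  transQ_of hk hS hn hdeg hg han f
    (fun B v _ hε => H699.near_fam hS B v hε)
    (fun B _ h1 h2 h3 h4 Θ h5 h6 h7 _ h8 => exists_residue hS B h1 h2 h3 h4 Θ h5 h6 h7 h8)
    (fun B => infinite_lam hS B)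
    (fun _ h1 h2 _ h3 => ki_of_norm_one hS h1 h2 h3) hQ hQn hfin hHQ hx

end Vale.Agent.P011.H698.R7
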