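import Vale.Agent.P011.H698.Eig
import Vale.Agent.P011.H698.LevFF

/-!
# Density of the unitary group in the product of finitely many local unitary groups
-/

open Module

set_option linter.unusedSectionVars false

namespace Vale.Agent.P011.H698

open Vale.Agent.P011.H74

section ringl

variable {E : Type*} [Ring E] [StarRing E]

/-- The Cayley parameter of a unitary element `x` with `x - 1` invertible. -/
theorem exists_cayley {x d W W' e : E} (hx' : star x * x = 1) (hd : d * (x - 1) = 1)
    (hd' : (x - 1) * d = 1) (hW : ∀ y, W * y = y * W) (hW' : ∀ y, W' * y = y * W')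
    (hs : star W = W') (he : (W - W') * e = 1) (hec : ∀ y, e * y = y * e) :
    ∃ s c : E, star s = s ∧ (s + W') * c = 1 ∧ x * (s + W') = s + W := by
  have hsW' : star W' = W := by rw [← hs, star_star]
  obtain ⟨s, hsd⟩ : ∃ s, s = d * (W - x * W') := ⟨_, rfl⟩
  have h1 : (x - 1) * s = W - x * W' := by rw [hsd, ← mul_assoc, hd', one_mul]
  have hcomm : (W - x * W') * (x - 1) = (x - 1) * (W - x * W') := by
    calc (W - x * W') * (x - 1) = W * x - x * (W' * x) - (W - x * W') := by noncomm_ring
      _ = x * W - x * (x * W') - (W - x * W') := by rw [hW x, hW' x]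
      _ = _ := by noncomm_ring
  have h2 : s * (x - 1) = W - x * W' := by
    rw [hsd, mul_assoc, hcomm, ← mul_assoc, hd, one_mul]
  have h3 : star s * (x - 1) = W - x * W' := by
    have h4 := congrArg star h1
    rw [star_mul, star_sub, star_sub, star_one, star_mul, hs, hsW'] at h4
    have h5 : star s * (star x - 1) * x = (W' - W * star x) * x := by rw [h4]
    rw [mul_assoc, sub_mul, sub_mul, hx', one_mul, mul_assoc, hx', mul_one, hW' x] at h5
    have h6 : star s * (x - 1) = -(star s * (1 - x)) := by noncomm_ring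
    rw [h6, h5]
    noncomm_ring
  have hss : star s = s := by
    have h4 : (star s - s) * (x - 1) = 0 := by rw [sub_mul, h3, h2, sub_self]
    have h5 : (star s - s) * ((x - 1) * d) = 0 := by rw [← mul_assoc, h4, zero_mul]
    rw [hd', mul_one] at h5
    exact sub_eq_zero.mp h5
  refine ⟨s, (x - 1) * e, hss, ?_, ?_⟩
  · have h4 : (s + W') * (x - 1) = W - W' := by
      rw [add_mul, h2, mul_sub, mul_one, hW' x]
      abel
    rw [← mul_assoc, h4, he]
  · have h4 : x * s = s + (W - x * W') := by
      rw [← h1, sub_mul, one_mul]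
      abel
    rw [mul_add, h4]
    abel

/-- The Cayley transform of a symmetric element is unitary. -/
theorem cayley_unitary {s r W W' : E} (hs : star s = s) (hr : r * (s + W') = 1)
    (hr' : (s + W') * r = 1) (hW : ∀ y, W * y = y * W) (hWW : star W = W') :
    (s + W) * r * star ((s + W) * r) = 1 := by
  have hsW' : star W' = W := by rw [← hWW, star_star]
  have h1 : star r * (s + W) = 1 := by
    have := congrArg star hr'
    rwa [star_mul, star_add, hs, hsW', star_one] at this
  have h2 : (s + W) * star r = 1 := by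
    have := congrArg star hr
    rwa [star_mul, star_add, hs, hsW', star_one] at this
  have hcomm : (s + W) * (s + W') = (s + W') * (s + W) := by
    rw [add_mul, add_mul, mul_add, mul_add, mul_add, mul_add, hW s, hW W']
    have h3 : W' * s = s * W' := by
      have := congrArg star (hW s)
      rwa [star_mul, star_mul, hs, hWW, eq_comm] at this
    rw [h3]
    abel
  have h3 : (s + W) * r = r * (s + W) := by
    calc (s + W) * r = r * (s + W') * (s + W) * r := by rw [hr, one_mul]
      _ = r * ((s + W) * (s + W')) * r := by rw [mul_assoc r, ← hcomm]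
      _ = r * (s + W) * ((s + W') * r) := by noncomm_ring
      _ = _ := by rw [hr', mul_one]
  rw [star_mul, star_add, hs, hWW, h3]
  calc r * (s + W) * (star r * (s + W')) = r * ((s + W) * star r) * (s + W') := by noncomm_ring
    _ = 1 := by rw [h2, mul_one, hr]

/-- The inverse on both sides. -/
theorem two_sided {F : Type*} [Field F] [Algebra F E] [FiniteDimensional F E] {y : E}
    (hy : ∀ a : E, y * a = 0 → a = 0) : ∃ d : E, d * y = 1 ∧ y * d = 1 := by
  have hinj : Function.Injective (LinearMap.mulLeft F y) := by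
    rw [injective_iff_map_eq_zero]
    intro a ha
    exact hy a ha
  obtain ⟨d, hd⟩ := (LinearMap.injective_iff_surjective.mp hinj) 1
  rw [LinearMap.mulLeft_apply] at hd
  refine ⟨d, ?_, hd⟩
  have h1 : y * (d * y - 1) = 0 := by rw [mul_sub, ← mul_assoc, hd, one_mul, mul_one, sub_self]
  exact sub_eq_zero.mp (hy _ h1)

end ringl

section local_

variable {k F A E ι : Type*} [Field k] [NormedField F] [Algebra k F]
  [Ring A] [StarRing A] [Algebra k A] [Ring E] [StarRing E] [TopologicalSpace E]
  [IsTopologicalRing E] [Algebra F E] [Fintype ι] [DecidableEq ι] (H : BCR k F A E ι)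

/-- The extension of a linear map. -/
noncomputable def extL (L : A →ₗ[k] A) : E →ₗ[F] E := H.b.constr F fun i => H.j (L (H.a i))

theorem extL_j (L : A →ₗ[k] A) (x : A) : extL H L (H.j x) = H.j (L x) := by
  rw [H.j_eq, map_sum]
  conv_rhs => rw [← H.a.sum_repr x, map_sum, map_sum]
  refine Finset.sum_congr rfl fun i _ => ?_
  rw [map_smul, extL, Basis.constr_basis, map_smul, H.j_smul]

theorem ext_of_j {L M : E →ₗ[F] E} (h : ∀ x : A, L (H.j x) = M (H.j x)) : L = M :=
  H.b.ext fun i => by rw [H.b_apply]; exact h _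

/-- Symmetric elements are approximated by symmetric elements. -/
theorem sym_near {P G : A →ₗ[k] A} (hst : ∀ (c : k) (x : A), star (c • x) = c • star x)
    (hPG : ∀ x, P x = x - G (star x - x)) {s₀ : E} (hs : star s₀ = s₀) {δ : ℝ} (hδ : 0 < δ) :
    ∃ η : ℝ, 0 < η ∧ ∀ a : A, (∀ i, ‖algebraMap k F (H.a.repr a i) - H.φ s₀ i‖ < η) →
      nE H (H.j (P a) - s₀) < δ := by
  obtain ⟨C, hC1, hC⟩ := nE_lin H (extL H P)
  have hC0 : 0 < C := by linarith
  have h1 : extL H P = LinearMap.id - (extL H G).comp (H.starL - LinearMap.id) := by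
    refine ext_of_j H fun x => ?_
    have h2 : H.starL (H.j x) = H.j (star x) := (H.j_star x).symm
    rw [extL_j, hPG, LinearMap.sub_apply, LinearMap.comp_apply, LinearMap.sub_apply,
      LinearMap.id_apply, h2, ← map_sub, extL_j, ← map_sub]
  have h2 : extL H P s₀ = s₀ := by
    have h3 : H.starL s₀ = s₀ := hs
    rw [h1, LinearMap.sub_apply, LinearMap.comp_apply, LinearMap.sub_apply, LinearMap.id_apply, h3,
      sub_self, map_zero, sub_zero]
  refine ⟨δ / (2 * C * (Fintype.card ι + 1)), by positivity, fun a ha => ?_⟩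
  have e : H.j (P a) - s₀ = extL H P (H.j a - s₀) := by rw [map_sub, extL_j, h2]
  rw [e]
  refine (hC _).trans_lt ?_
  have h3 : nE H (H.j a - s₀) ≤ Fintype.card ι * (δ / (2 * C * (Fintype.card ι + 1))) := by
    refine nE_le H fun i => ?_
    rw [map_sub, Pi.sub_apply, H.φ_eq]
    exact (ha i).le
  calc C * nE H (H.j a - s₀) ≤ C * (Fintype.card ι * (δ / (2 * C * (Fintype.card ι + 1)))) :=
        mul_le_mul_of_nonneg_left h3 hC0.le
    _ = δ / 2 * (Fintype.card ι / (Fintype.card ι + 1)) := by field_simp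
    _ ≤ δ / 2 * 1 := by
        refine mul_le_mul_of_nonneg_left ?_ (by linarith)
        rw [div_le_one (by positivity)]
        linarith
    _ < δ := by linarith

variable {K : Type*} [Field K] [Algebra K A]

/-- The centre is central. -/
theorem centre_central (z : K) (y : E) :
    H.j (algebraMap K A z) * y = y * H.j (algebraMap K A z) :=
  central_of_j H (fun a => by rw [← map_mul, ← map_mul, Algebra.commutes]) y

/-- Only finitely many elements `ζ` of `K` are eigenvalues of `x`. -/
theorem finite_bad_shift (x : E) :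
    {ζ : K | ∃ y : E, y ≠ 0 ∧ x * y = H.j (algebraMap K A ζ) * y}.Finite := by
  let _ : Module K E := Module.compHom E (H.j.comp (algebraMap K A))
  have hsm : ∀ (c : K) (y : E), c • y = H.j (algebraMap K A c) * y := fun _ _ => rfl
  have : FiniteDimensional F E := Module.Finite.of_basis H.b
  let g : Module.End K E :=
    { toFun := fun y => x * y
      map_add' := fun y z => mul_add x y z
      map_smul' := fun c y => by
        rw [RingHom.id_apply, hsm, hsm, ← mul_assoc, ← centre_central H c x, mul_assoc] }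
  exact finite_eigen (F := F) g (fun c y => mul_smul_comm c x y)
    (fun c a y => by rw [hsm, hsm, mul_smul_comm])

end local_

section target

variable {k F A E K ι : Type*} [Field k] [NormedField F] [Algebra k F]
  [Ring A] [StarRing A] [Algebra k A] [Ring E] [StarRing E] [TopologicalSpace E]
  [IsTopologicalRing E] [Algebra F E] [Fintype ι] [DecidableEq ι] (H : BCR k F A E ι)
  [Field K] [StarRing K] [Algebra K A]

/-- The local target of the approximation. -/
theorem local_target {P G : A →ₗ[k] A} (hst : ∀ (c : k) (x : A), star (c • x) = c • star x)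
    (hPG : ∀ x, P x = x - G (star x - x)) {x : E} (hx : x * star x = 1) (hx' : star x * x = 1)
    {ζ w : K} (hζ1 : ζ * star ζ = 1) (hsK : ∀ z : K, star (algebraMap K A z) =
      algebraMap K A (star z)) (he0 : w - star w ≠ 0)
    (hζ : ∀ y : E, x * y = H.j (algebraMap K A ζ) * y → y = 0) {ε : ℝ} (hε : 0 < ε) :
    ∃ s₀ : E, ∃ η : ℝ, 0 < η ∧ ∀ a u : A,
      (∀ i, ‖algebraMap k F (H.a.repr a i) - H.φ s₀ i‖ < η) →
      u * (P a + algebraMap K A (star w)) = P a + algebraMap K A w →
      nE H (H.j (algebraMap K A ζ * u) - x) < ε := by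
  have : FiniteDimensional F E := Module.Finite.of_basis H.b
  obtain ⟨Z, hZd⟩ : ∃ Z, Z = H.j (algebraMap K A ζ) := ⟨_, rfl⟩
  obtain ⟨Z', hZ'd⟩ : ∃ Z', Z' = H.j (algebraMap K A (star ζ)) := ⟨_, rfl⟩
  have hZc : ∀ y, Z * y = y * Z := fun y => by rw [hZd]; exact centre_central H ζ y
  have hZZ : Z * Z' = 1 := by rw [hZd, hZ'd, ← map_mul, ← map_mul, hζ1, map_one, map_one]
  have hZZ' : Z' * Z = 1 := by
    rw [hZd, hZ'd, ← map_mul, ← map_mul, mul_comm, hζ1, map_one, map_one]
  have hZs : star Z = Z' := by rw [hZd, hZ'd, ← H.j_star, hsK]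
  have hZ's : star Z' = Z := by rw [← hZs, star_star]
  obtain ⟨x₁, hx₁⟩ : ∃ x₁, x₁ = Z' * x := ⟨_, rfl⟩
  have hx1 : star x₁ * x₁ = 1 := by
    rw [hx₁, star_mul, hZ's, mul_assoc, ← mul_assoc Z, hZZ, one_mul, hx']
  obtain ⟨d, hd, hd'⟩ : ∃ d : E, d * (x₁ - 1) = 1 ∧ (x₁ - 1) * d = 1 := by
    refine two_sided (F := F) fun y hy => hζ y ?_
    have h1 : x₁ * y = y := by
      rw [sub_mul, one_mul] at hy
      exact sub_eq_zero.mp hy
    rw [← hZd]
    calc x * y = Z * Z' * x * y := by rw [hZZ, one_mul]
      _ = Z * (x₁ * y) := by rw [hx₁]; noncomm_ring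
      _ = Z * y := by rw [h1]
  obtain ⟨s₀, c, hs₀, hc, hxs⟩ := exists_cayley (x := x₁) (d := d) (W := H.j (algebraMap K A w))
    (W' := H.j (algebraMap K A (star w))) (e := H.j (algebraMap K A (w - star w)⁻¹)) hx1 hd hd'
    (centre_central H w) (centre_central H _) (by rw [← H.j_star, hsK])
    (by rw [← map_sub, ← map_sub, ← map_mul, ← map_mul, mul_inv_cancel₀ he0, map_one, map_one])
    (centre_central H _)
  obtain ⟨C, hC1, hC⟩ := nE_mul H
  have hC0 : 0 < C := by linarith
  have hZ0 := nE_nonneg H Z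
  obtain ⟨δ, hδ, hcay⟩ := cayley_near H hc hxs (ε := ε / (C * (nE H Z + 1))) (by positivity)
  obtain ⟨η, hη, hsym⟩ := sym_near H hst hPG hs₀ hδ
  refine ⟨s₀, η, hη, fun a u ha hu => ?_⟩
  have h1 := hcay (H.j (P a)) (H.j u) (hsym a ha) (by
    rw [← map_add, ← map_mul, hu, map_add])
  have e : H.j (algebraMap K A ζ * u) - x = Z * (H.j u - x₁) := by
    rw [map_mul, ← hZd, mul_sub, hx₁, ← mul_assoc, hZZ, one_mul]
  rw [e]
  refine (hC _ _).trans_lt ?_
  have h2 := nE_nonneg H (H.j u - x₁)
  calc C * nE H Z * nE H (H.j u - x₁) ≤ C * (nE H Z + 1) * nE H (H.j u - x₁) := by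
        refine mul_le_mul_of_nonneg_right ?_ h2
        exact mul_le_mul_of_nonneg_left (by linarith) hC0.le
    _ < C * (nE H Z + 1) * (ε / (C * (nE H Z + 1))) := by
        refine mul_lt_mul_of_pos_left h1 (by positivity)
    _ = ε := by field_simp

end target

section proj

variable {k A : Type*} [Field k] [Ring A] [StarRing A] [Algebra k A]

/-- A projection to the symmetric elements. -/
theorem exists_sym_proj (hst : ∀ (c : k) (x : A), star (c • x) = c • star x) :
    ∃ P G : A →ₗ[k] A, (∀ x, P x = x - G (star x - x)) ∧ ∀ x, star (P x) = P x := by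
  let L : A →ₗ[k] A :=
    { toFun := fun x => star x - x
      map_add' := fun x y => by rw [star_add]; abel
      map_smul' := fun c x => by rw [RingHom.id_apply, hst, smul_sub] }
  obtain ⟨g, hg⟩ := LinearMap.exists_rightInverse_of_surjective L.rangeRestrict
    L.range_rangeRestrict
  obtain ⟨G, hG⟩ := LinearMap.exists_extend g
  have h1 : ∀ x, L (G (L x)) = L x := by
    intro x
    have h2 : G (L x) = g (L.rangeRestrict x) := by rw [← hG]; rfl
    have h3 : L.rangeRestrict (g (L.rangeRestrict x)) = L.rangeRestrict x :=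
      LinearMap.congr_fun hg _
    rw [h2]
    exact congrArg Subtype.val h3
  refine ⟨LinearMap.id - G.comp L, G, fun x => rfl, fun x => ?_⟩
  have h2 : L (x - G (L x)) = 0 := by rw [map_sub, h1, sub_self]
  exact sub_eq_zero.mp h2

end proj

section global

variable {k K A : Type} [Field k] [Infinite k] [Field K] [StarRing K] [Ring A] [StarRing A]
  [Algebra k K] [Algebra k A] [Algebra K A] [IsScalarTower k K A] [StarModule K A] {N : ℕ}

/-- **Density of the unitary group.** `S` is a finite family of completions of `k` with weak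
approximation. -/
theorem exists_unitary_near (hfix : ∀ x : K, star x = x ↔ x ∈ Set.range (algebraMap k K))
    (hne : ∃ x : K, star x ≠ x) (haniso : ∀ x : A, star x * x = 0 → x = 0)
    (B : Basis (Fin N) k A) {S : Type*} [Finite S] {F E : S → Type*} [∀ v, NormedField (F v)]
    [∀ v, Algebra k (F v)] [∀ v, Ring (E v)] [∀ v, StarRing (E v)] [∀ v, TopologicalSpace (E v)]
    [∀ v, IsTopologicalRing (E v)] [∀ v, Algebra (F v) (E v)]
    (H : ∀ v, BCR k (F v) A (E v) (Fin N)) (hH : ∀ v, (H v).a = B)
    (hWA : ∀ (y : ∀ v, F v) (η : ℝ), 0 < η → ∃ a : k, ∀ v, ‖algebraMap k (F v) a - y v‖ < η)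
    (x : ∀ v, E v) (hx : ∀ v, x v * star (x v) = 1) (hx' : ∀ v, star (x v) * x v = 1)
    {ε : ℝ} (hε : 0 < ε) : ∃ u : UA A, ∀ v, nE (H v) ((H v).j ((u : Aˣ) : A) - x v) < ε := by
  classical
  have := Fintype.ofFinite S
  have hk : ∀ a : k, star (algebraMap k K a) = algebraMap k K a := fun a => (hfix _).mpr ⟨a, rfl⟩
  have hsK : ∀ z : K, star (algebraMap K A z) = algebraMap K A (star z) := fun z => by
    rw [Algebra.algebraMap_eq_smul_one, star_smul, star_one, ← Algebra.algebraMap_eq_smul_one]
  have hst : ∀ (c : k) (x : A), star (c • x) = c • star x := fun c x => by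
    rw [← algebraMap_smul K c x, star_smul, hk, algebraMap_smul]
  obtain ⟨w, hw⟩ := hne
  have he0 : w - star w ≠ 0 := sub_ne_zero.mpr fun h => hw h.symm
  -- the shift
  have hd0 : ∀ t : k, algebraMap k K t + w ≠ 0 := by
    intro t h
    apply hw
    have h1 : w = algebraMap k K (-t) := by rw [map_neg]; exact eq_neg_of_add_eq_zero_right h
    rw [h1, hk]
  have hd0' : ∀ t : k, algebraMap k K t + star w ≠ 0 := by
    intro t h
    apply hd0 t
    have := congrArg star h
    rwa [star_add, hk, star_star, star_zero] at this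
  obtain ⟨ζ, hζ1, hζ⟩ : ∃ ζ : K, ζ * star ζ = 1 ∧ ∀ v, ∀ y : E v,
      x v * y = (H v).j (algebraMap K A ζ) * y → y = 0 := by
    have hfin : (⋃ v, {ζ : K | ∃ y : E v, y ≠ 0 ∧
        x v * y = (H v).j (algebraMap K A ζ) * y}).Finite :=
      Set.finite_iUnion fun v => finite_bad_shift (H v) (x v)
    let z : k → K := fun t => (algebraMap k K t + star w) / (algebraMap k K t + w)
    have hz : Function.Injective z := by
      intro t t' h
      have h1 : (algebraMap k K t + star w) * (algebraMap k K t' + w) =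
          (algebraMap k K t' + star w) * (algebraMap k K t + w) :=
        (div_eq_div_iff (hd0 t) (hd0 t')).mp h
      have h2 : (algebraMap k K t - algebraMap k K t') * (w - star w) = 0 := by
        linear_combination h1
      rcases mul_eq_zero.mp h2 with h3 | h3
      · exact (algebraMap k K).injective (sub_eq_zero.mp h3)
      · exact absurd h3 he0
    obtain ⟨ζ, ⟨t, rfl⟩, hζ⟩ := (Set.infinite_range_of_injective hz).exists_notMem_finite hfin
    refine ⟨z t, ?_, fun v y hy => ?_⟩
    · have h1 : star (z t) = (algebraMap k K t + w) / (algebraMap k K t + star w) := by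
        change star (_ / _) = _
        rw [star_div₀, star_add, star_add, hk, star_star]
      rw [h1]
      exact div_mul_div_cancel₀ (hd0 t) |>.trans (div_self (hd0' t))
    · by_contra hy0
      exact hζ (Set.mem_iUnion.mpr ⟨v, y, hy0, hy⟩)
  have hζ0 : ζ ≠ 0 := left_ne_zero_of_mul_eq_one hζ1
  have hζi : star ζ = ζ⁻¹ := eq_inv_of_mul_eq_one_right hζ1
  -- local data
  obtain ⟨P, G, hPG, hPs⟩ := exists_sym_proj hst
  set W : A := algebraMap K A w with hWd
  set W' : A := algebraMap K A (star w) with hW'd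
  have hWs : star W = W' := hsK w
  set Z : A := algebraMap K A ζ with hZd
  set Z' : A := algebraMap K A (star ζ) with hZ'd
  have hZZ : Z * Z' = 1 := by rw [hZd, hZ'd, ← map_mul, hζ1, map_one]
  have hZ's : star Z = Z' := hsK ζ
  have hloc : ∀ v, ∃ s₀ : E v, ∃ η : ℝ, 0 < η ∧ ∀ a u : A,
      (∀ i, ‖algebraMap k (F v) (B.repr a i) - (H v).φ s₀ i‖ < η) →
      u * (P a + W') = P a + W → nE (H v) ((H v).j (Z * u) - x v) < ε := by
    intro v
    obtain ⟨s₀, η, hη, h⟩ := local_target (H v) hst hPG (hx v) (hx' v) hζ1 hsK (w := w) he0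
      (hζ v) hε
    exact ⟨s₀, η, hη, fun a u ha hu => h a u (fun i => by rw [hH]; exact ha i) hu⟩
  choose s₀ η hη hη' using hloc
  obtain ⟨η₀, hη₀, hη₀'⟩ : ∃ η₀ : ℝ, 0 < η₀ ∧ ∀ v, η₀ ≤ η v := by
    by_cases hS : Nonempty S
    · obtain ⟨v0, hv0⟩ := Finite.exists_min η
      exact ⟨η v0, hη v0, hv0⟩
    · exact ⟨1, one_pos, fun v => absurd ⟨v⟩ hS⟩
  choose a ha using fun i : Fin N => hWA (fun v => (H v).φ (s₀ v) i) η₀ hη₀
  have hrep : ∀ i, B.repr (∑ l, a l • B l) i = a i := fun i => by rw [Basis.repr_sum_self]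
  obtain ⟨s, hsd⟩ : ∃ s, s = P (∑ l, a l • B l) := ⟨_, rfl⟩
  have hss : star s = s := by rw [hsd]; exact hPs _
  have hcW : ∀ y : A, W * y = y * W := fun y => Algebra.commutes w y
  have hcZ : ∀ y : A, Z * y = y * Z := fun y => Algebra.commutes ζ y
  have : FiniteDimensional k A := Module.Finite.of_basis B
  obtain ⟨r, hr, hr'⟩ : ∃ d : A, d * (s + W') = 1 ∧ (s + W') * d = 1 := by
    refine two_sided (F := k) fun b hb => ?_
    apply haniso
    have h1 : star b * (s + W) = 0 := by
      have := congrArg star hb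
      rwa [star_mul, star_add, hss, ← hWs, star_star, star_zero] at this
    have h2 : star b * (s + W) * b = 0 := by rw [h1, zero_mul]
    have h3 : star b * (s + W) * b = star b * ((s + W') * b) + (W - W') * (star b * b) := by
      have h4 : (W - W') * (star b * b) = star b * ((W - W') * b) := by
        have : ∀ y : A, (W - W') * y = y * (W - W') := fun y => by
          rw [sub_mul, mul_sub, hcW, hW'd, Algebra.commutes]
        rw [← mul_assoc, this, mul_assoc]
      rw [h4]
      noncomm_ring
    rw [h3, hb, mul_zero, zero_add] at h2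
    have h4 : algebraMap K A (w - star w)⁻¹ * ((W - W') * (star b * b)) = star b * b := by
      rw [← mul_assoc, hWd, hW'd, ← map_sub, ← map_mul, inv_mul_cancel₀ he0, map_one, one_mul]
    rw [h2, mul_zero] at h4
    exact h4.symm
  obtain ⟨u₀, hu₀d⟩ : ∃ u₀, u₀ = (s + W) * r := ⟨_, rfl⟩
  have hu₀ : u₀ * (s + W') = s + W := by rw [hu₀d, mul_assoc, hr, mul_one]
  have hu₁ : u₀ * star u₀ = 1 := by
    rw [hu₀d]
    exact cayley_unitary hss hr hr' hcW hWs
  have hu₂ : star u₀ * u₀ = 1 := by
    have hinj : ∀ b : A, u₀ * b = 0 → b = 0 := by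
      intro b hb
      apply haniso
      have h5 : (s + W) * (r * b) = 0 := by rw [← mul_assoc, ← hu₀d, hb]
      have h6 : star r * (s + W) = 1 := by
        have := congrArg star hr'
        rwa [star_mul, star_add, hss, ← hWs, star_star, star_one] at this
      have h7 : r * b = 0 := by
        rw [← one_mul (r * b), ← h6, mul_assoc, h5, mul_zero]
      have h8 : b = 0 := by rw [← one_mul b, ← hr', mul_assoc, h7, mul_zero]
      rw [h8, mul_zero]
    have h1 : u₀ * (star u₀ * u₀ - 1) = 0 := by
      rw [mul_sub, ← mul_assoc, hu₁, one_mul, mul_one, sub_self]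
    exact sub_eq_zero.mp (hinj _ h1)
  have hZZ' : Z' * Z = 1 := by rw [hZ'd, hZd, ← map_mul, mul_comm, hζ1, map_one]
  have h1 : Z * u₀ * star (Z * u₀) = 1 := by
    rw [star_mul, hZ's, mul_assoc, ← mul_assoc u₀, hu₁, one_mul, hZZ]
  have h2 : star (Z * u₀) * (Z * u₀) = 1 := by
    rw [star_mul, hZ's, mul_assoc, ← mul_assoc Z', hZZ', one_mul, hu₂]
  refine ⟨⟨⟨Z * u₀, star (Z * u₀), h1, h2⟩, h1⟩, fun v => ?_⟩
  refine hη' v (∑ l, a l • B l) u₀ (fun i => ?_) (by rw [← hsd]; exact hu₀)
  rw [hrep]
  exact (ha i v).trans_le (hη₀' v)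

end global

end Vale.Agent.P011.H698
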