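import Vale.Agent.P011.H74.TopR
import Mathlib.LinearAlgebra.Eigenspace.Basic
import Mathlib.LinearAlgebra.FiniteDimensional.Basic

/-!
# Local Cayley transform with estimates

`F` a normed field over `k`, `E` the base change to `F` of the algebra with involution `A`.
-/

open Module

set_option linter.unusedSectionVars false

namespace Vale.Agent.P011.H698

open Vale.Agent.P011.H74

/-- Eigenvalues in a field `K` of an operator on a space which is finite dimensional over another
field. -/
theorem finite_eigen {K F V : Type*} [Field K] [Field F] [AddCommGroup V] [Module K V] [Module F V]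
    [FiniteDimensional F V] (g : Module.End K V) (hg : ∀ (c : F) (x : V), g (c • x) = c • g x)
    (hc : ∀ (c : F) (a : K) (x : V), c • a • x = a • c • x) :
    {ζ : K | ∃ x : V, x ≠ 0 ∧ g x = ζ • x}.Finite := by
  classical
  set Z : Set K := {ζ : K | ∃ x : V, x ≠ 0 ∧ g x = ζ • x} with hZ
  choose x hx0 hx using fun ζ : Z => ζ.2
  have hli : LinearIndependent F x := by
    rw [linearIndependent_iff']
    intro s c hsum i hi
    by_contra hci
    let s' := s.filter fun j => c j • x j ≠ 0
    have hi' : i ∈ s' := Finset.mem_filter.mpr ⟨hi, smul_ne_zero hci (hx0 i)⟩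
    have h1 : LinearIndependent K (fun j : s' => c (j : Z) • x (j : Z)) := by
      refine g.eigenvectors_linearIndependent' (fun j : s' => ((j : Z) : K)) ?_ _ fun j => ?_
      · intro j j' h
        exact Subtype.ext (Subtype.ext h)
      · refine ⟨Module.End.mem_eigenspace_iff.mpr ?_, (Finset.mem_filter.mp j.2).2⟩
        rw [hg, hx, hc]
    rw [Fintype.linearIndependent_iff] at h1
    have h2 := h1 (fun _ => 1) (by
      simp only [one_smul]
      rw [Finset.sum_coe_sort s' (fun j => c j • x j), Finset.sum_filter_ne_zero]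
      exact hsum) ⟨i, hi'⟩
    exact one_ne_zero h2
  exact Set.finite_coe_iff.mp hli.finite

section local_

variable {k F A E ι : Type*} [Field k] [NormedField F] [Algebra k F]
  [Ring A] [StarRing A] [Algebra k A] [Ring E] [StarRing E] [TopologicalSpace E]
  [IsTopologicalRing E] [Algebra F E] [Fintype ι] [DecidableEq ι] (H : BCR k F A E ι)

/-- The size of an element of the base change. -/
noncomputable def nE (x : E) : ℝ := ∑ i, ‖H.φ x i‖

theorem nE_nonneg (x : E) : 0 ≤ nE H x := Finset.sum_nonneg fun _ _ => norm_nonneg _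

theorem nE_coord (x : E) (i : ι) : ‖H.φ x i‖ ≤ nE H x :=
  Finset.single_le_sum (f := fun i => ‖H.φ x i‖) (fun _ _ => norm_nonneg _) (Finset.mem_univ i)

theorem nE_le {x : E} {c : ℝ} (h : ∀ i, ‖H.φ x i‖ ≤ c) : nE H x ≤ Fintype.card ι * c := by
  refine (Finset.sum_le_sum fun i _ => h i).trans ?_
  rw [Finset.sum_const, Finset.card_univ, nsmul_eq_mul]

theorem nE_add (x y : E) : nE H (x + y) ≤ nE H x + nE H y := by
  rw [nE, nE, nE, ← Finset.sum_add_distrib]
  refine Finset.sum_le_sum fun i _ => ?_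
  rw [map_add, Pi.add_apply]
  exact norm_add_le _ _

theorem nE_neg (x : E) : nE H (-x) = nE H x := by
  rw [nE, nE]
  exact Finset.sum_congr rfl fun i _ => by rw [map_neg, Pi.neg_apply, norm_neg]

theorem nE_smul (c : F) (x : E) : nE H (c • x) = ‖c‖ * nE H x := by
  rw [nE, nE, Finset.mul_sum]
  exact Finset.sum_congr rfl fun i _ => by rw [map_smul, Pi.smul_apply, smul_eq_mul, norm_mul]

theorem nE_sum {κ : Type*} (s : Finset κ) (f : κ → E) : nE H (∑ i ∈ s, f i) ≤ ∑ i ∈ s, nE H (f i) := by
  classical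
  induction s using Finset.induction_on with
  | empty => simp [nE]
  | insert b s hb ih =>
    rw [Finset.sum_insert hb, Finset.sum_insert hb]
    exact (nE_add H _ _).trans (add_le_add le_rfl ih)

theorem expand_E (x : E) : x = ∑ i, H.φ x i • H.b i := (H.b.sum_repr x).symm

/-- Linear maps are bounded. -/
theorem nE_lin (L : E →ₗ[F] E) : ∃ C : ℝ, 1 ≤ C ∧ ∀ x, nE H (L x) ≤ C * nE H x := by
  refine ⟨1 + ∑ i, nE H (L (H.b i)), ?_, fun x => ?_⟩
  · have := Finset.sum_nonneg fun (i : ι) (_ : i ∈ Finset.univ) => nE_nonneg H (L (H.b i))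
    linarith
  · conv_lhs => rw [expand_E H x]
    rw [map_sum]
    refine (nE_sum H _ _).trans ?_
    have h2 : ∀ i ∈ (Finset.univ : Finset ι), nE H (L (H.φ x i • H.b i)) ≤
        (1 + ∑ i, nE H (L (H.b i))) * ‖H.φ x i‖ := by
      intro i _
      rw [map_smul, nE_smul, mul_comm]
      refine mul_le_mul_of_nonneg_right ?_ (norm_nonneg _)
      have := Finset.single_le_sum (f := fun i => nE H (L (H.b i)))
        (fun _ _ => nE_nonneg H _) (Finset.mem_univ i)
      have h3 : nE H (L (H.b i)) ≤ ∑ i, nE H (L (H.b i)) := this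
      linarith
    refine (Finset.sum_le_sum h2).trans ?_
    rw [← Finset.mul_sum]
    rfl

/-- The multiplication is bounded. -/
theorem nE_mul : ∃ C : ℝ, 1 ≤ C ∧ ∀ x y, nE H (x * y) ≤ C * nE H x * nE H y := by
  choose C hC hCm using fun i => nE_lin H (LinearMap.mulLeft F (H.b i))
  have hC0 := Finset.sum_nonneg fun (i : ι) (_ : i ∈ Finset.univ) => zero_le_one.trans (hC i)
  refine ⟨1 + ∑ i, C i, by linarith, fun x y => ?_⟩
  conv_lhs => rw [expand_E H x]
  rw [Finset.sum_mul]
  refine (nE_sum H _ _).trans ?_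
  have h2 : ∀ i ∈ (Finset.univ : Finset ι), nE H (H.φ x i • H.b i * y) ≤
      (1 + ∑ i, C i) * nE H y * ‖H.φ x i‖ := by
    intro i _
    rw [smul_mul_assoc, nE_smul, mul_comm]
    refine mul_le_mul_of_nonneg_right ?_ (norm_nonneg _)
    have h3 := hCm i y
    rw [LinearMap.mulLeft_apply] at h3
    refine h3.trans ?_
    refine mul_le_mul_of_nonneg_right ?_ (nE_nonneg H _)
    have := Finset.single_le_sum (f := C) (fun i _ => zero_le_one.trans (hC i)) (Finset.mem_univ i)
    linarith
  refine (Finset.sum_le_sum h2).trans ?_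
  rw [← Finset.mul_sum]
  change _ * nE H x ≤ _
  exact le_of_eq (by ring)

/-- Elements which commute with the image of `A` are central. -/
theorem central_of_j {z : E} (hz : ∀ a : A, z * H.j a = H.j a * z) (y : E) : z * y = y * z := by
  rw [expand_E H y, Finset.mul_sum, Finset.sum_mul]
  refine Finset.sum_congr rfl fun i _ => ?_
  rw [mul_smul_comm, smul_mul_assoc, H.b_apply, hz]

/-- **Local Cayley transform.** `w` is central, `x * (s₀ + w') = s₀ + w`. Then the Cayley
transforms of the elements close to `s₀` are close to `x`. -/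
theorem cayley_near {x s₀ c W W' : E} (hc : (s₀ + W') * c = 1) (hx : x * (s₀ + W') = s₀ + W)
    {ε : ℝ} (hε : 0 < ε) : ∃ δ : ℝ, 0 < δ ∧ ∀ s u : E, nE H (s - s₀) < δ →
      u * (s + W') = s + W → nE H (u - x) < ε := by
  obtain ⟨C, hC1, hC⟩ := nE_mul H
  have hC0 : 0 < C := by linarith
  obtain ⟨M, hMd⟩ : ∃ M : ℝ, M = C * C * (nE H (x - 1) + 1) * (nE H c + 1) + 1 := ⟨_, rfl⟩
  have h0 := nE_nonneg H c
  have h0' := nE_nonneg H (x - 1)
  have hM0 : 0 < M := by rw [hMd]; positivity
  refine ⟨min (1 / 2) (ε / 4) / M, by positivity, fun s u hs hu => ?_⟩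
  have e1 : (u - x) * (s₀ + W') = (u - 1) * (s₀ - s) := by
    rw [sub_mul, hx]
    have : u * (s₀ + W') = u * (s₀ - s) + u * (s + W') := by rw [← mul_add]; congr 1; abel
    rw [this, hu, sub_mul, one_mul]
    abel
  have e2 : u - x = (u - x) * ((s₀ - s) * c) + (x - 1) * ((s₀ - s) * c) := by
    calc u - x = (u - x) * ((s₀ + W') * c) := by rw [hc, mul_one]
      _ = (u - 1) * (s₀ - s) * c := by rw [← mul_assoc, e1]
      _ = _ := by noncomm_ring
  have hds : nE H (s₀ - s) < min (1 / 2) (ε / 4) / M := by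
    rw [← neg_sub, nE_neg]
    exact hs
  have h1 : nE H ((s₀ - s) * c) ≤ C * nE H (s₀ - s) * nE H c := hC _ _
  have h2 : C * (nE H ((s₀ - s) * c)) * (nE H (x - 1) + 1) ≤ min (1 / 2) (ε / 4) := by
    have h3 : C * (nE H ((s₀ - s) * c)) * (nE H (x - 1) + 1) ≤
        C * (C * (min (1 / 2) (ε / 4) / M) * (nE H c + 1)) * (nE H (x - 1) + 1) := by
      refine mul_le_mul_of_nonneg_right (mul_le_mul_of_nonneg_left (h1.trans ?_) hC0.le)
        (by linarith)
      refine mul_le_mul (mul_le_mul_of_nonneg_left hds.le hC0.le) (by linarith) h0 ?_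
      have : (0 : ℝ) ≤ min (1 / 2) (ε / 4) := by positivity
      positivity
    have h4 : C * (C * (min (1 / 2) (ε / 4) / M) * (nE H c + 1)) * (nE H (x - 1) + 1) =
        min (1 / 2) (ε / 4) * ((M - 1) / M) := by
      rw [hMd]
      ring
    rw [h4] at h3
    refine h3.trans ?_
    have h5 : (M - 1) / M ≤ 1 := by
      rw [div_le_one hM0]
      linarith
    have : (0 : ℝ) ≤ min (1 / 2) (ε / 4) := by positivity
    calc _ ≤ min (1 / 2) (ε / 4) * 1 := mul_le_mul_of_nonneg_left h5 this
      _ = _ := mul_one _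
  have hn := nE_nonneg H ((s₀ - s) * c)
  have h6 : C * nE H ((s₀ - s) * c) ≤ min (1 / 2) (ε / 4) := by
    refine le_trans ?_ h2
    exact le_mul_of_one_le_right (mul_nonneg hC0.le hn) (by linarith)
  have h7 : C * nE H (x - 1) * nE H ((s₀ - s) * c) ≤ min (1 / 2) (ε / 4) := by
    refine le_trans ?_ h2
    have : C * nE H (x - 1) * nE H ((s₀ - s) * c) = C * nE H ((s₀ - s) * c) * nE H (x - 1) := by
      ring
    rw [this]
    exact mul_le_mul_of_nonneg_left (by linarith) (mul_nonneg hC0.le hn)
  have h8 : nE H (u - x) ≤ 1 / 2 * nE H (u - x) + ε / 4 := by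
    have h9 : nE H (u - x) ≤ nE H ((u - x) * ((s₀ - s) * c)) + nE H ((x - 1) * ((s₀ - s) * c)) := by
      conv_lhs => rw [e2]
      exact nE_add H _ _
    have h10 := hC (u - x) ((s₀ - s) * c)
    have h11 := hC (x - 1) ((s₀ - s) * c)
    have h12 : C * nE H (u - x) * nE H ((s₀ - s) * c) ≤ 1 / 2 * nE H (u - x) := by
      have : C * nE H (u - x) * nE H ((s₀ - s) * c) = C * nE H ((s₀ - s) * c) * nE H (u - x) := by
        ring
      rw [this]
      exact mul_le_mul_of_nonneg_right (h6.trans (min_le_left _ _)) (nE_nonneg H _)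
    have h13 := h7.trans (min_le_right (1 / 2 : ℝ) (ε / 4))
    linarith
  linarith

end local_

end Vale.Agent.P011.H698
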