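import Vale.Agent.P011.H487.LinMat
import Mathlib.RingTheory.SimpleModule.WedderburnArtin

/-!
# Normal subgroups of the general linear group over a division ring

A normal subgroup which contains an element which is not central contains all commutators.
-/

open Matrix commutatorElement

set_option linter.unusedSectionVars false

namespace Vale.Agent.P011.H698

open Vale.Agent.P011.H487.Lin

section mat

variable {D ι : Type*} [DivisionRing D] [Fintype ι] [DecidableEq ι]

/-- The row `i` of a product with a transvection. -/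
theorem row_mul_tvm (T : (Matrix ι ι D)ˣ) (r x : ι → D) (h : x ⬝ᵥ r = 0) (i : ι) :
    ((T * tvm r x h : (Matrix ι ι D)ˣ) : Matrix ι ι D) i =
      (T : Matrix ι ι D) i + ((T : Matrix ι ι D) i ⬝ᵥ r) • x := by
  rw [Units.val_mul, tvm_val]
  have h1 : ((T : Matrix ι ι D) * (1 + vecMulVec r x)) i =
      (T : Matrix ι ι D) i ᵥ* (1 + vecMulVec r x) := by
    rfl
  rw [h1, vecMul_add, vecMul_one, vecMul_vecMulVec']

/-- Rows of an invertible matrix. -/
theorem exists_entry_ne (T : (Matrix ι ι D)ˣ) {S : Finset ι}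
    (hS : ∀ i ∈ S, (T : Matrix ι ι D) i = Pi.single i 1) {p : ι} (hp : p ∉ S) :
    ∃ j, j ∉ S ∧ (T : Matrix ι ι D) p j ≠ 0 := by
  by_contra hcon
  push Not at hcon
  set y : ι → D := (T : Matrix ι ι D) p with hy
  set z : ι → D := fun i => if i ∈ S then y i else 0 with hz
  have h1 : (Pi.single p 1 - z) ᵥ* (T : Matrix ι ι D) = 0 := by
    rw [sub_vecMul, single_one_vecMul]
    have h2 : z ᵥ* (T : Matrix ι ι D) = y := by
      funext l
      rw [vecMul, dotProduct]
      by_cases hl : l ∈ S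
      · rw [Finset.sum_eq_single l]
        · rw [hS l hl, Pi.single_eq_same, mul_one]
          exact if_pos hl
        · intro i _ hil
          by_cases hi : i ∈ S
          · rw [hS i hi, Pi.single_eq_of_ne hil.symm, mul_zero]
          · have : z i = 0 := if_neg hi
            rw [this, zero_mul]
        · intro h
          exact absurd (Finset.mem_univ l) h
      · rw [hcon l hl]
        refine Finset.sum_eq_zero fun i _ => ?_
        by_cases hi : i ∈ S
        · rw [hS i hi, Pi.single_eq_of_ne, mul_zero]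
          rintro rfl
          exact hl hi
        · have : z i = 0 := if_neg hi
          rw [this, zero_mul]
    rw [h2]
    exact sub_self _
  have h3 : Pi.single p 1 - z = 0 := by
    have h4 := congrArg (fun w => w ᵥ* ((T⁻¹ : (Matrix ι ι D)ˣ) : Matrix ι ι D)) h1
    simpa [vecMul_vecMul] using h4
  have h5 := congrFun h3 p
  have h6 : z p = 0 := if_neg hp
  rw [Pi.sub_apply, Pi.single_eq_same, h6, sub_zero, Pi.zero_apply] at h5
  exact one_ne_zero h5

variable (D ι) in
/-- The group generated by the transvections. -/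
def Em : Subgroup (Matrix ι ι D)ˣ :=
  Subgroup.closure {T | ∃ (r x : ι → D) (h : x ⬝ᵥ r = 0), T = tvm r x h}

theorem tvm_mem_Em (r x : ι → D) (h : x ⬝ᵥ r = 0) : tvm r x h ∈ Em D ι :=
  Subgroup.subset_closure ⟨r, x, h, rfl⟩

theorem single_dot (i : ι) (r : ι → D) : Pi.single i (1 : D) ⬝ᵥ r = r i := by
  rw [single_dotProduct, one_mul]

theorem dot_single (y : ι → D) (i : ι) (c : D) : y ⬝ᵥ Pi.single i c = y i * c := by
  rw [dotProduct_single]

/-- Fixing one row. -/
theorem fix_row (T : (Matrix ι ι D)ˣ) {S : Finset ι}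
    (hS : ∀ i ∈ S, (T : Matrix ι ι D) i = Pi.single i 1) {p q : ι} (hp : p ∉ S) (hq : q ∉ S)
    (hpq : p ≠ q) : ∃ t ∈ Em D ι, ∀ i ∈ insert p S,
      ((T * t : (Matrix ι ι D)ˣ) : Matrix ι ι D) i = Pi.single i 1 := by
  -- first step
  obtain ⟨t0, ht0, hS0, j, hjp, hjS, hj⟩ : ∃ t ∈ Em D ι,
      (∀ i ∈ S, ((T * t : (Matrix ι ι D)ˣ) : Matrix ι ι D) i = Pi.single i 1) ∧
      ∃ j, j ≠ p ∧ j ∉ S ∧ ((T * t : (Matrix ι ι D)ˣ) : Matrix ι ι D) p j ≠ 0 := by
    by_cases hj : ∃ j, j ≠ p ∧ j ∉ S ∧ (T : Matrix ι ι D) p j ≠ 0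
    · exact ⟨1, (Em D ι).one_mem, by rwa [mul_one], by rwa [mul_one]⟩
    · push Not at hj
      obtain ⟨l, hlS, hl⟩ := exists_entry_ne T hS hp
      have hlp : l = p := by
        by_contra hcon
        exact hl (hj l hcon hlS)
      subst hlp
      have h : (Pi.single q 1 : ι → D) ⬝ᵥ Pi.single l 1 = 0 := by
        rw [single_dot, Pi.single_eq_of_ne hpq.symm]
      refine ⟨tvm _ _ h, tvm_mem_Em _ _ h, fun i hi => ?_, q, hpq.symm, hq, ?_⟩
      · rw [row_mul_tvm, hS i hi, single_dot, Pi.single_eq_of_ne, zero_smul, add_zero]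
        rintro rfl
        exact hp hi
      · rw [row_mul_tvm, dot_single, Pi.add_apply, hj q hpq.symm hq, zero_add, Pi.smul_apply,
          Pi.single_eq_same, mul_one, smul_eq_mul, mul_one]
        exact hl
  set T0 := T * t0 with hT0
  set y : ι → D := (T0 : Matrix ι ι D) p with hy
  have h1 : (Pi.single p 1 : ι → D) ⬝ᵥ Pi.single j ((y j)⁻¹ * (1 - y p)) = 0 := by
    rw [single_dot, Pi.single_eq_of_ne hjp.symm]
  set T1 := T0 * tvm _ _ h1 with hT1
  have hT1p : (T1 : Matrix ι ι D) p = y + (1 - y p) • Pi.single p 1 := by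
    rw [hT1, row_mul_tvm, dot_single, ← hy, mul_inv_cancel_left₀ hj]
  have hT1S : ∀ i ∈ S, (T1 : Matrix ι ι D) i = Pi.single i 1 := by
    intro i hi
    rw [hT1, row_mul_tvm, hS0 i hi, single_dot, Pi.single_eq_of_ne, zero_smul, add_zero]
    rintro rfl
    exact hjS hi
  have hT1pp : (T1 : Matrix ι ι D) p p = 1 := by
    rw [hT1p, Pi.add_apply, Pi.smul_apply, Pi.single_eq_same, smul_eq_mul, mul_one]
    abel
  have h2 : (Pi.single p 1 - (T1 : Matrix ι ι D) p : ι → D) ⬝ᵥ Pi.single p 1 = 0 := by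
    rw [dot_single, Pi.sub_apply, Pi.single_eq_same, hT1pp, sub_self, zero_mul]
  refine ⟨t0 * tvm _ _ h1 * tvm _ _ h2,
    (Em D ι).mul_mem ((Em D ι).mul_mem ht0 (tvm_mem_Em _ _ h1)) (tvm_mem_Em _ _ h2), ?_⟩
  have e : T * (t0 * tvm _ _ h1 * tvm _ _ h2) = T1 * tvm _ _ h2 := by
    rw [mul_assoc t0, ← mul_assoc T, ← mul_assoc (T * t0)]
  intro i hi
  rw [e, row_mul_tvm]
  rcases Finset.mem_insert.mp hi with rfl | hiS
  · rw [dot_single, hT1pp, mul_one, one_smul]
    abel
  · rw [hT1S i hiS, single_dot, Pi.single_eq_of_ne, zero_smul, add_zero]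
    rintro rfl
    exact hp hiS

/-- Fixing some rows. -/
theorem fix_rows (S : Finset ι) : ∀ (q : ι), q ∉ S → ∀ T : (Matrix ι ι D)ˣ, ∃ t ∈ Em D ι,
    ∀ i ∈ S, ((T * t : (Matrix ι ι D)ˣ) : Matrix ι ι D) i = Pi.single i 1 := by
  induction S using Finset.induction_on with
  | empty => exact fun q _ T => ⟨1, (Em D ι).one_mem, fun i hi => absurd hi (Finset.notMem_empty i)⟩
  | insert p S hp ih =>
    intro q hq T
    rw [Finset.mem_insert, not_or] at hq
    obtain ⟨t, ht, h1⟩ := ih q hq.2 T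
    obtain ⟨t', ht', h2⟩ := fix_row (T * t) h1 hp hq.2 (Ne.symm hq.1)
    exact ⟨t * t', (Em D ι).mul_mem ht ht', by rwa [← mul_assoc]⟩

/-- Every invertible matrix is the product of a dilation of one coordinate and of an element
of the group generated by the transvections. -/
theorem exists_dilation (q : ι) (T : (Matrix ι ι D)ˣ) : ∃ t ∈ Em D ι, ∃ c : D,
    ((T * t : (Matrix ι ι D)ˣ) : Matrix ι ι D) = diagonal (Function.update (fun _ => 1) q c) := by
  obtain ⟨t, ht, h1⟩ := fix_rows (Finset.univ.erase q) q (Finset.notMem_erase q _) T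
  obtain ⟨j, hj, hj'⟩ := exists_entry_ne (T * t) h1 (Finset.notMem_erase q _)
  have hjq : j = q := by
    by_contra hcon
    exact hj (Finset.mem_erase.mpr ⟨hcon, Finset.mem_univ j⟩)
  subst hjq
  set y : ι → D := ((T * t : (Matrix ι ι D)ˣ) : Matrix ι ι D) j with hy
  have h2 : (Pi.single j (y j) - y : ι → D) ⬝ᵥ Pi.single j (y j)⁻¹ = 0 := by
    rw [dot_single, Pi.sub_apply, Pi.single_eq_same, sub_self, zero_mul]
  refine ⟨t * tvm _ _ h2, (Em D ι).mul_mem ht (tvm_mem_Em _ _ h2), y j, ?_⟩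
  rw [← mul_assoc]
  ext i l
  rw [row_mul_tvm]
  by_cases hi : i = j
  · subst hi
    rw [← hy, dot_single, mul_inv_cancel₀ hj', one_smul]
    rw [Pi.add_apply, Pi.sub_apply, diagonal_apply]
    by_cases hl : i = l
    · subst hl
      rw [if_pos rfl, Function.update_self, Pi.single_eq_same]
      abel
    · rw [if_neg hl, Pi.single_eq_of_ne (Ne.symm hl)]
      abel
  · rw [h1 i (Finset.mem_erase.mpr ⟨hi, Finset.mem_univ i⟩), single_dot,
      Pi.single_eq_of_ne hi, zero_smul, add_zero, diagonal_apply]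
    by_cases hl : i = l
    · subst hl
      rw [if_pos rfl, Function.update_of_ne hi, Pi.single_eq_same]
    · rw [if_neg hl, Pi.single_eq_of_ne (Ne.symm hl)]

/-- A normal subgroup which contains the transvections contains the commutators. -/
theorem comm_mem_of_Em {Γ : Subgroup (Matrix ι ι D)ˣ} [Γ.Normal] (hΓ : Em D ι ≤ Γ) {p q : ι}
    (hpq : p ≠ q) (S T : (Matrix ι ι D)ˣ) : ⁅S, T⁆ ∈ Γ := by
  obtain ⟨s, hs, c, h1⟩ := exists_dilation p S
  obtain ⟨t, ht, d, h2⟩ := exists_dilation q T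
  have h3 : (S * s) * (T * t) = (T * t) * (S * s) := by
    apply Units.ext
    rw [Units.val_mul, Units.val_mul (T * t), h1, h2, diagonal_mul_diagonal, diagonal_mul_diagonal]
    congr 1
    funext i
    by_cases hi : i = p
    · subst hi
      rw [Function.update_self, Function.update_of_ne hpq, mul_one, one_mul]
    · rw [Function.update_of_ne hi, mul_one, one_mul]
  rw [← QuotientGroup.eq_one_iff]
  have h4 : ((S * s : (Matrix ι ι D)ˣ) : (Matrix ι ι D)ˣ ⧸ Γ) = S := by
    rw [QuotientGroup.eq]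
    have := Γ.inv_mem (hΓ hs)
    have e : (S * s)⁻¹ * S = s⁻¹ := by group
    rwa [e]
  have h5 : ((T * t : (Matrix ι ι D)ˣ) : (Matrix ι ι D)ˣ ⧸ Γ) = T := by
    rw [QuotientGroup.eq]
    have := Γ.inv_mem (hΓ ht)
    have e : (T * t)⁻¹ * T = t⁻¹ := by group
    rwa [e]
  rw [commutatorElement_def, QuotientGroup.mk_mul, QuotientGroup.mk_mul, QuotientGroup.mk_mul,
    QuotientGroup.mk_inv, QuotientGroup.mk_inv, ← h4, ← h5, ← QuotientGroup.mk_mul, h3,
    QuotientGroup.mk_mul]
  group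

/-- **A normal subgroup of the general linear group which contains an element which is not
central contains all commutators.** -/
theorem comm_mem_mat {a : D} (ha0 : a ≠ 0) (hac : ∀ x : D, a * x = x * a) (ha4 : a ^ 4 ≠ 1)
    (hι : 2 ≤ Fintype.card ι) {Γ : Subgroup (Matrix ι ι D)ˣ} [Γ.Normal]
    (hns : ∃ T ∈ Γ, ∃ Y : Matrix ι ι D, (T : Matrix ι ι D) * Y ≠ Y * T)
    (S T : (Matrix ι ι D)ˣ) : ⁅S, T⁆ ∈ Γ := by
  obtain ⟨p, q, hpq⟩ := Fintype.exists_pair_of_one_lt_card (by omega : 1 < Fintype.card ι)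
  refine comm_mem_of_Em ?_ hpq S T
  rw [Em, Subgroup.closure_le]
  rintro _ ⟨r, x, h, rfl⟩
  refine mat_S2 ha0 hac ha4 hι (fun r x h T hT => (inferInstance : Γ.Normal).conj_mem T hT _) ?_ r
    x h
  obtain ⟨T, hT, Y, hY⟩ := hns
  refine ⟨T, hT, fun c hc hTc => hY ?_⟩
  rw [hTc]
  ext i l
  rw [diagonal_mul, mul_diagonal]
  exact hc _

end mat

section simple

/-- **Simple algebras which are not division algebras.** -/
theorem comm_mem_simple {F R : Type*} [Field F] [Ring R] [Algebra F R] [FiniteDimensional F R]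
    [IsSimpleRing R] {a : F} (ha0 : a ≠ 0) (ha4 : a ^ 4 ≠ 1) {x : R} (hx0 : x ≠ 0)
    (hx : ¬ IsUnit x) {Γ : Subgroup Rˣ} [Γ.Normal]
    (hns : ∃ T ∈ Γ, ∃ Y : R, (T : R) * Y ≠ Y * T) (S T : Rˣ) : ⁅S, T⁆ ∈ Γ := by
  have hart : IsArtinianRing R := IsArtinianRing.of_finite F R
  obtain ⟨m, hm, D, _, _, ⟨e⟩⟩ := IsSimpleRing.exists_algEquiv_matrix_divisionRing F R
  -- the size is at least two
  have hm2 : 2 ≤ Fintype.card (Fin m) := by
    rw [Fintype.card_fin]
    by_contra hcon
    have h0 := hm.ne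
    have hm1 : m = 1 := by omega
    subst hm1
    have h1 : e x 0 0 ≠ 0 := by
      intro h
      apply hx0
      apply e.injective
      rw [map_zero]
      ext i j
      rw [Subsingleton.elim i 0, Subsingleton.elim j 0, h]
      rfl
    apply hx
    have h2 : IsUnit (e x) := by
      refine ⟨⟨e x, of fun _ _ => (e x 0 0)⁻¹, ?_, ?_⟩, rfl⟩
      · ext i j
        rw [Subsingleton.elim i 0, Subsingleton.elim j 0, Matrix.mul_apply, Fin.sum_univ_one,
          of_apply, mul_inv_cancel₀ h1, one_apply_eq]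
      · ext i j
        rw [Subsingleton.elim i 0, Subsingleton.elim j 0, Matrix.mul_apply, Fin.sum_univ_one,
          of_apply, inv_mul_cancel₀ h1, one_apply_eq]
    have h3 := h2.map e.symm
    rwa [e.symm_apply_apply] at h3
  let e' : Rˣ ≃* (Matrix (Fin m) (Fin m) D)ˣ := Units.mapEquiv e.toMulEquiv
  have he' : ∀ u : Rˣ, ((e' u : (Matrix (Fin m) (Fin m) D)ˣ) : Matrix (Fin m) (Fin m) D) = e u :=
    fun _ => rfl
  have hnormal : (Γ.map (e' : Rˣ →* (Matrix (Fin m) (Fin m) D)ˣ)).Normal :=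
    Subgroup.Normal.map inferInstance _ e'.surjective
  have hD : (algebraMap F D a) ≠ 0 := by
    intro h
    exact ha0 ((algebraMap F D).injective (by rw [h, map_zero]))
  have h1 := comm_mem_mat (D := D) (ι := Fin m) (a := algebraMap F D a) hD
    (fun y => Algebra.commutes a y)
    (fun h => ha4 ((algebraMap F D).injective (by rw [map_pow, h, map_one]))) hm2
    (Γ := Γ.map (e' : Rˣ →* (Matrix (Fin m) (Fin m) D)ˣ)) (by
      obtain ⟨T, hT, Y, hY⟩ := hns
      refine ⟨e' T, ⟨T, hT, rfl⟩, e Y, fun h => hY ?_⟩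
      apply e.injective
      rw [map_mul, map_mul]
      exact h) (e' S) (e' T)
  obtain ⟨g, hg, h2⟩ := h1
  have h3 : g = ⁅S, T⁆ := by
    apply e'.injective
    rw [map_commutatorElement]
    exact h2
  rwa [← h3]

end simple

end Vale.Agent.P011.H698
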