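import Vale.Agent.P011.H698.DensU
import Vale.Agent.P011.H698.MatComm
import Vale.Agent.P011.H961.Loc
import Vale.Agent.P011.H268.Csa
import Vale.Agent.P011.H519.SplitPlaceK

/-!
# The local property: normal subgroups of the local unitary groups

A normal subgroup of the unitary group of `E = F ⊗ A` which contains an element which is not
central contains all commutators: `F` splits the centre and the components of `E` are not division
algebras, or `E = M_n(L)` with a hermitian involution and property `LocN`.
-/

open Module Matrix Topology commutatorElement TensorProduct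

set_option linter.unusedSectionVars false

namespace Vale.Agent.P011.H698

open Vale.Agent.P011.H738 Vale.Agent.P011.H271 Vale.Agent.P011.H74 Vale.Agent.P011.H961

/-- A normal subgroup of the unitary group which contains an element which is not central contains
all commutators. -/
def LocE (E : Type) [Ring E] [StarRing E] : Prop :=
  ∀ M : Subgroup (UA E), M.Normal →
    (∃ x ∈ M, ∃ y : E, ((x : Eˣ) : E) * y ≠ y * ((x : Eˣ) : E)) →
    ∀ a b : UA E, ⁅a, b⁆ ∈ M

section abs

variable {E : Type} [Ring E] [StarRing E] {R : Type*} [Ring R]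

/-- The local property, from a model `R × Rᵒᵖ`. -/
theorem locE_of_bij (p : E →+* R) (hbij : Function.Bijective fun x : E => (p x, p (star x)))
    (hR : ∀ Γ : Subgroup Rˣ, Γ.Normal → (∃ T ∈ Γ, ∃ Y : R, (T : R) * Y ≠ Y * T) →
      ∀ S T : Rˣ, ⁅S, T⁆ ∈ Γ) : LocE E := by
  intro M hM hns a b
  have hinj : ∀ x y : E, p x = p y → p (star x) = p (star y) → x = y := fun x y h1 h2 =>
    hbij.1 (Prod.ext h1 h2)
  set π : UA E →* Rˣ := (Units.map (p : E →* R)).comp (UA E).subtype with hπ
  have hπc : ∀ x : UA E, ((π x : Rˣ) : R) = p ((x : Eˣ) : E) := fun _ => rfl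
  have hπi : ∀ x : UA E, (((π x)⁻¹ : Rˣ) : R) = p (star ((x : Eˣ) : E)) := by
    intro x
    rw [← map_inv, hπc, ua_inv]
  have hsurj : Function.Surjective π := by
    intro r
    obtain ⟨x, hx⟩ := hbij.2 ((r : R), ((r⁻¹ : Rˣ) : R))
    have hx1 : p x = r := congrArg Prod.fst hx
    have hx2 : p (star x) = ((r⁻¹ : Rˣ) : R) := congrArg Prod.snd hx
    have h1 : x * star x = 1 := by
      apply hinj
      · rw [map_mul, hx1, hx2, map_one, Units.mul_inv]
      · rw [star_mul, star_star, map_mul, hx1, hx2, star_one, map_one, Units.mul_inv]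
    have h2 : star x * x = 1 := by
      apply hinj
      · rw [map_mul, hx1, hx2, map_one, Units.inv_mul]
      · rw [star_mul, star_star, map_mul, hx1, hx2, star_one, map_one, Units.inv_mul]
    exact ⟨⟨⟨x, star x, h1, h2⟩, h1⟩, Units.ext hx1⟩
  have hπinj : Function.Injective π := by
    intro x y h
    apply Subtype.ext
    apply Units.ext
    apply hinj
    · rw [← hπc, ← hπc, h]
    · rw [← hπi, ← hπi, h]
  have hΓ : (M.map π).Normal := Subgroup.Normal.map hM _ hsurj
  obtain ⟨m, hm, h1⟩ := hR (M.map π) hΓ (by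
    obtain ⟨x, hx, y, hy⟩ := hns
    by_contra hcon
    push Not at hcon
    apply hy
    have h1 := hcon (π x) ⟨x, hx, rfl⟩
    have h2 := hcon ((π x)⁻¹) ((M.map π).inv_mem ⟨x, hx, rfl⟩)
    apply hinj
    · rw [map_mul, map_mul, ← hπc]
      exact h1 _
    · rw [star_mul, star_mul, map_mul, map_mul, ← hπi]
      exact (h2 _).symm) (π a) (π b)
  have h2 : m = ⁅a, b⁆ := by
    apply hπinj
    rw [h1, map_commutatorElement]
  rwa [← h2]

variable {n : ℕ} {L : Type*} [NormedField L] [StarRing L]

/-- The local property, from a hermitian model. -/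
theorem locE_of_herm (p : E →+* Matrix (Fin n) (Fin n) L) (hbij : Function.Bijective p)
    {H : Matrix (Fin n) (Fin n) L} (hdet : H.det ≠ 0)
    (hpH : ∀ x, p (star x) * H = H * (p x)ᴴ) (hloc : LocN (UH H)) : LocE E := by
  intro M hM hns a b
  set π : UA E →* (Matrix (Fin n) (Fin n) L)ˣ :=
    (Units.map (p : E →* Matrix (Fin n) (Fin n) L)).comp (UA E).subtype with hπ
  have hπc : ∀ x : UA E, ((π x : (Matrix (Fin n) (Fin n) L)ˣ) : Matrix (Fin n) (Fin n) L) =
    p ((x : Eˣ) : E) := fun _ => rfl
  have hHu : IsUnit H := (Matrix.isUnit_iff_isUnit_det H).mpr (isUnit_iff_ne_zero.mpr hdet)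
  have hmem : ∀ x : UA E, π x ∈ UH H := by
    intro x
    rw [mem_UH, hπc, mul_assoc, ← hpH, ← mul_assoc, ← map_mul, ua_mul_star, map_one, one_mul]
  have hπinj : Function.Injective π := by
    intro x y h
    apply Subtype.ext
    apply Units.ext
    apply hbij.1
    rw [← hπc, ← hπc, h]
  have hsurj : ∀ T ∈ UH H, ∃ x : UA E, π x = T := by
    intro T hT
    obtain ⟨x, hx⟩ := hbij.2 (T : Matrix (Fin n) (Fin n) L)
    have h1 : x * star x = 1 := by
      apply hbij.1
      obtain ⟨Hu, rfl⟩ := hHu
      rw [← Units.mul_left_inj Hu, map_mul, mul_assoc, hpH, hx, ← mul_assoc, map_one, one_mul]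
      exact hT
    have h2 : star x * x = 1 := by
      apply hbij.1
      have h3 : (p x) * (p (star x)) = 1 := by rw [← map_mul, h1, map_one]
      rw [map_mul, map_one]
      exact mul_eq_one_comm.mp h3
    exact ⟨⟨⟨x, star x, h1, h2⟩, h1⟩, Units.ext hx⟩
  have key := hloc (M.map π) (by
    rintro _ ⟨x, -, rfl⟩
    exact hmem x) (by
    rintro e he _ ⟨x, hx, rfl⟩
    obtain ⟨y, rfl⟩ := hsurj e he
    rw [← map_inv, ← map_mul, ← map_mul]
    exact ⟨_, hM.conj_mem x hx y, rfl⟩) (by
    obtain ⟨x, hx, y, hy⟩ := hns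
    refine ⟨π x, ⟨x, hx, rfl⟩, fun c hc => hy ?_⟩
    apply hbij.1
    rw [map_mul, map_mul, ← hπc, hc, smul_mul_assoc, mul_smul_comm, one_mul, mul_one])
    (π ⁅a, b⁆) (hmem _) (by
    rw [map_commutatorElement, commutatorElement_def, Units.val_mul, Units.val_mul, Units.val_mul,
      Matrix.det_mul, Matrix.det_mul, Matrix.det_mul]
    have h1 : ∀ T : (Matrix (Fin n) (Fin n) L)ˣ, (T : Matrix (Fin n) (Fin n) L).det *
        ((T⁻¹ : (Matrix (Fin n) (Fin n) L)ˣ) : Matrix (Fin n) (Fin n) L).det = 1 := fun T => by
      rw [← Matrix.det_mul, Units.mul_inv, Matrix.det_one]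
    calc _ = ((π a : Matrix (Fin n) (Fin n) L).det *
        (((π a)⁻¹ : (Matrix (Fin n) (Fin n) L)ˣ) : Matrix (Fin n) (Fin n) L).det) *
        ((π b : Matrix (Fin n) (Fin n) L).det *
        (((π b)⁻¹ : (Matrix (Fin n) (Fin n) L)ˣ) : Matrix (Fin n) (Fin n) L).det) := by ring
      _ = 1 := by rw [h1, h1, one_mul])
  obtain ⟨m, hm, h1⟩ := key
  rwa [← hπinj h1]

end abs

section ext

variable {k F A E ι : Type*} [Field k] [NormedField F] [Algebra k F]
  [Ring A] [StarRing A] [Algebra k A] [Ring E] [StarRing E] [TopologicalSpace E]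
  [IsTopologicalRing E] [Algebra F E] [Fintype ι] [DecidableEq ι] (H : BCR k F A E ι)
  {R : Type*} [Ring R] [Algebra F R] (g : A →+* R)

/-- The extension of a homomorphism to the base change. -/
noncomputable def extAl : E →ₗ[F] R := H.b.constr F fun i => g (H.a i)

variable {g}

theorem extAl_j (hg : ∀ (c : k) (x : A), g (c • x) = algebraMap k F c • g x) (x : A) :
    extAl H g (H.j x) = g x := by
  rw [H.j_eq, map_sum]
  conv_rhs => rw [← H.a.sum_repr x, map_sum]
  refine Finset.sum_congr rfl fun i _ => ?_
  rw [map_smul, extAl, Basis.constr_basis, hg]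

theorem extR_of_j {V : Type*} [AddCommGroup V] [Module F V] {L M : E →ₗ[F] V}
    (h : ∀ x : A, L (H.j x) = M (H.j x)) : L = M :=
  H.b.ext fun i => by rw [H.b_apply]; exact h _

theorem extAl_mul (hg : ∀ (c : k) (x : A), g (c • x) = algebraMap k F c • g x) (x y : E) :
    extAl H g (x * y) = extAl H g x * extAl H g y := by
  have h1 : ∀ b : A, ∀ x : E, extAl H g (x * H.j b) = extAl H g x * g b := by
    intro b
    have h2 : (extAl H g).comp (LinearMap.mulRight F (H.j b)) =
        (LinearMap.mulRight F (g b)).comp (extAl H g) := by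
      refine extR_of_j H fun a => ?_
      rw [LinearMap.comp_apply, LinearMap.comp_apply, LinearMap.mulRight_apply,
        LinearMap.mulRight_apply, ← map_mul, extAl_j H hg, extAl_j H hg, map_mul]
    exact fun x => LinearMap.congr_fun h2 x
  have h3 : (extAl H g).comp (LinearMap.mulLeft F x) =
      (LinearMap.mulLeft F (extAl H g x)).comp (extAl H g) := by
    refine extR_of_j H fun b => ?_
    rw [LinearMap.comp_apply, LinearMap.comp_apply, LinearMap.mulLeft_apply,
      LinearMap.mulLeft_apply, h1, extAl_j H hg]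
  exact LinearMap.congr_fun h3 y

/-- The extension of a homomorphism to the base change. -/
noncomputable def extA (hg : ∀ (c : k) (x : A), g (c • x) = algebraMap k F c • g x) : E →+* R where
  toFun := extAl H g
  map_one' := by
    have h1 : (1 : E) = H.j 1 := (map_one _).symm
    rw [h1, extAl_j H hg, map_one]
  map_mul' := extAl_mul H hg
  map_zero' := map_zero _
  map_add' := map_add _

theorem extA_apply (hg : ∀ (c : k) (x : A), g (c • x) = algebraMap k F c • g x) (x : E) :
    extA H hg x = extAl H g x := rfl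

end ext

section split

variable {k K A : Type} [Field k] [Field K] [StarRing K] [Ring A] [StarRing A]
  [Algebra k K] [Algebra k A] [Algebra K A] [IsScalarTower k K A] [StarModule K A] {n N : ℕ}
  {F E : Type} [NormedField F] [Algebra k F] [Ring E] [StarRing E] [TopologicalSpace E]
  [IsTopologicalRing E] [Algebra F E] (H : BCR k F A E (Fin N))
  {R : Type*} [Ring R] [Algebra F R] {g : A →+* R}

include H in
theorem finrank_E (hA : Anis k K A n) : finrank F E = 2 * n ^ 2 := by
  rw [finrank_eq_card_basis H.b, ← finrank_eq_card_basis H.a]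
  exact H519.finrank_of_anis hA

/-- The map to `R × Rᵒᵖ` is bijective at the split places. -/
theorem bij_split (hA : Anis k K A n) (φ : K →ₐ[k] F)
    (hφ : ∀ c : K, g (algebraMap K A c) = algebraMap F R (φ c))
    (hg : ∀ (c : k) (x : A), g (c • x) = algebraMap k F c • g x)
    (hspan : Submodule.span F (Set.range g) = ⊤) (hR : finrank F R = n ^ 2) (hn : n ≠ 0) :
    Function.Bijective fun x : E => (extA H hg x, extA H hg (star x)) := by
  let P : E →ₗ[F] R × R := (extAl H g).prod ((extAl H g).comp H.starL)
  have hP : ∀ x, P x = (extA H hg x, extA H hg (star x)) := fun _ => rfl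
  have hPj : ∀ x : A, P (H.j x) = (g x, g (star x)) := by
    intro x
    rw [hP, extA_apply, extA_apply, ← H.j_star, extAl_j H hg, extAl_j H hg]
  obtain ⟨w, hw⟩ := hA.star_ne
  have hφw : φ w - φ (star w) ≠ 0 := by
    intro h
    exact hw (φ.injective (sub_eq_zero.mp h)).symm
  have hstar : ∀ (c : K) (x : A), star (algebraMap K A c * x) = algebraMap K A (star c) * star x :=
    by
      intro c x
      rw [← Algebra.smul_def, star_smul, Algebra.smul_def]
  have hgc : ∀ (c : K) (x : A), g (algebraMap K A c * x) = φ c • g x := by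
    intro c x
    rw [map_mul, hφ, Algebra.smul_def]
  -- the first factor is contained in the range
  have h1 : ∀ x : A, ((g x, 0) : R × R) ∈ LinearMap.range P := by
    intro x
    have h2 : P (H.j (algebraMap K A w * x)) - φ (star w) • P (H.j x) =
        (φ w - φ (star w)) • ((g x, 0) : R × R) := by
      rw [hPj, hPj, hgc, hstar, hgc]
      ext
      · simp [sub_smul]
      · simp
    have h3 : (φ w - φ (star w)) • ((g x, 0) : R × R) ∈ LinearMap.range P := by
      rw [← h2]
      exact Submodule.sub_mem _ ⟨_, rfl⟩ (Submodule.smul_mem _ _ ⟨_, rfl⟩)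
    have h4 := Submodule.smul_mem _ (φ w - φ (star w))⁻¹ h3
    rwa [smul_smul, inv_mul_cancel₀ hφw, one_smul] at h4
  have h2 : ∀ x : A, ((0, g x) : R × R) ∈ LinearMap.range P := by
    intro x
    have h3 : ((0, g x) : R × R) = P (H.j (star x)) - (g (star x), 0) := by
      rw [hPj, star_star]
      ext
      · simp
      · simp
    rw [h3]
    exact Submodule.sub_mem _ ⟨_, rfl⟩ (h1 _)
  have h3 : LinearMap.range P = ⊤ := by
    rw [eq_top_iff]
    rintro ⟨r, s⟩ -
    have h4 : ∀ r : R, ((r, 0) : R × R) ∈ LinearMap.range P := by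
      intro r
      have h5 : Submodule.span F (Set.range g) ≤
          (LinearMap.range P).comap (LinearMap.inl F R R) := by
        rw [Submodule.span_le]
        rintro _ ⟨x, rfl⟩
        exact h1 x
      rw [hspan] at h5
      exact h5 (Submodule.mem_top (x := r))
    have h6 : ∀ r : R, ((0, r) : R × R) ∈ LinearMap.range P := by
      intro r
      have h5 : Submodule.span F (Set.range g) ≤
          (LinearMap.range P).comap (LinearMap.inr F R R) := by
        rw [Submodule.span_le]
        rintro _ ⟨x, rfl⟩
        exact h2 x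
      rw [hspan] at h5
      exact h5 (Submodule.mem_top (x := r))
    have h7 : ((r, s) : R × R) = (r, 0) + (0, s) := by simp
    rw [h7]
    exact Submodule.add_mem _ (h4 r) (h6 s)
  have hRf : FiniteDimensional F R := FiniteDimensional.of_finrank_pos (by rw [hR]; positivity)
  have hEf : FiniteDimensional F E := Module.Finite.of_basis H.b
  have h8 : finrank F E = finrank F (R × R) := by
    rw [finrank_E H hA, Module.finrank_prod, hR]
    ring
  have h9 : Function.Surjective P := LinearMap.range_eq_top.mp h3
  exact ⟨(LinearMap.injective_iff_surjective_of_finrank_eq_finrank h8).mpr h9, h9⟩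

end split

end Vale.Agent.P011.H698
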