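import Vale.Agent.P011.H698.PlusLin
import Mathlib.Analysis.Calculus.FDeriv.Mul
import Mathlib.Analysis.Calculus.InverseFunctionTheorem.FDeriv
import Mathlib.Analysis.Normed.Module.FiniteDimension
import Mathlib.Topology.Algebra.Module.FiniteDimension
import Mathlib.LinearAlgebra.Matrix.Charpoly.Coeff
import Mathlib.Analysis.Normed.Field.Lemmas

/-!
# Elements of reduced norm one close to one are products of double commutators
-/

open Module Topology Matrix Polynomial
open scoped commutatorElement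

set_option linter.unusedSectionVars false

namespace Vale.Agent.P011.H698

section tan

variable {F D E : Type*} [NontriviallyNormedField F] [NormedDivisionRing D] [NormedAlgebra F D]
  [CompleteSpace D] [NormedAddCommGroup E] [NormedSpace F E]

/-- A map through one, with its tangent map. -/
def Tan (γ : E → D) (γ' : E →L[F] D) (x : E) : Prop := γ x = 1 ∧ HasStrictFDerivAt γ γ' x

theorem Tan.mul {γ δ : E → D} {γ' δ' : E →L[F] D} {x : E} (h : Tan γ γ' x) (h' : Tan δ δ' x) :
    Tan (fun y => γ y * δ y) (γ' + δ') x := by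
  refine ⟨by change γ x * δ x = 1; rw [h.1, h'.1, mul_one], ?_⟩
  have h1 := h.2.fun_mul' h'.2
  convert h1 using 1
  ext v
  simp [h.1, h'.1, add_comm]

theorem Tan.inv {γ : E → D} {γ' : E →L[F] D} {x : E} (h : Tan γ γ' x) :
    Tan (fun y => (γ y)⁻¹) (-γ') x := by
  refine ⟨by change (γ x)⁻¹ = 1; rw [h.1, inv_one], ?_⟩
  have h1 : γ x ≠ 0 := by rw [h.1]; exact one_ne_zero
  have h2 := (hasStrictFDerivAt_inv' (𝕜 := F) h1).comp x h.2
  have h3 : -γ' = (-ContinuousLinearMap.mulLeftRight F D (γ x)⁻¹ (γ x)⁻¹).comp γ' := by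
    ext v
    simp [h.1]
  rw [h3]
  exact h2

theorem Tan.conj {γ : E → D} {γ' : E →L[F] D} {x : E} (h : Tan γ γ' x) (t : Dˣ) :
    Tan (fun y => (t : D) * γ y * ((t⁻¹ : Dˣ) : D))
      ((ContinuousLinearMap.mulLeftRight F D (t : D) ((t⁻¹ : Dˣ) : D)).comp γ') x := by
  refine ⟨by change (t : D) * γ x * ((t⁻¹ : Dˣ) : D) = 1; rw [h.1, mul_one, Units.mul_inv], ?_⟩
  have h2 := (ContinuousLinearMap.mulLeftRight F D (t : D)
    ((t⁻¹ : Dˣ) : D)).hasStrictFDerivAt.comp x h.2
  exact h2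

/-- The double commutator. -/
noncomputable def gg (a b : Dˣ) (X : D) : D :=
  ((a : D) * (1 + X) * ((a⁻¹ : Dˣ) : D) * (1 + X)⁻¹) *
    ((b : D) * ((a : D) * (1 + X) * ((a⁻¹ : Dˣ) : D) * (1 + X)⁻¹)⁻¹ * ((b⁻¹ : Dˣ) : D))

theorem gg_eq (a b : Dˣ) {X : D} (h : 1 + X ≠ 0) :
    gg a b X = ((⁅⁅a, Units.mk0 (1 + X) h⁆, b⁆ : Dˣ) : D) := by
  rw [commutatorElement_def, commutatorElement_def, gg]
  simp only [Units.val_mul, Units.val_inv_eq_inv_val, Units.val_mk0, mul_assoc]

variable [FiniteDimensional F D] [CompleteSpace F]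

theorem tan_gg (a b : Dˣ) : Tan (gg a b) (LinearMap.toContinuousLinearMap (cc F a b)) (0 : D) := by
  have h1 : Tan (fun X : D => 1 + X) (ContinuousLinearMap.id F D) 0 :=
    ⟨add_zero 1, (hasStrictFDerivAt_id (0 : D)).const_add 1⟩
  have h2 := (h1.conj a).mul h1.inv
  have h3 := h2.mul (h2.inv.conj b)
  have e : LinearMap.toContinuousLinearMap (cc F a b) =
      (ContinuousLinearMap.mulLeftRight F D (a : D) ((a⁻¹ : Dˣ) : D)).comp
        (ContinuousLinearMap.id F D) + -(ContinuousLinearMap.id F D) +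
      (ContinuousLinearMap.mulLeftRight F D (b : D) ((b⁻¹ : Dˣ) : D)).comp
        (-((ContinuousLinearMap.mulLeftRight F D (a : D) ((a⁻¹ : Dˣ) : D)).comp
        (ContinuousLinearMap.id F D) + -(ContinuousLinearMap.id F D))) := by
    ext v
    simp only [LinearMap.coe_toContinuousLinearMap', cc_apply, dd_apply,
      _root_.add_apply, ContinuousLinearMap.comp_apply,
      ContinuousLinearMap.mulLeftRight_apply, _root_.neg_apply,
      ContinuousLinearMap.id_apply]
    noncomm_ring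
  rw [e]
  exact h3

/-- The product of four double commutators and of `1 + c e`. -/
noncomputable def Phi (a b : Dˣ) (e : D) (p : (D × D × D × D) × F) : D :=
  gg a a p.1.1 * gg b a p.1.2.1 * gg a b p.1.2.2.1 * gg b b p.1.2.2.2 * (1 + p.2 • e)

theorem tan_Phi (a b : Dˣ) (e : D) :
    Tan (Phi (F := F) a b e) (LinearMap.toContinuousLinearMap (Psi F a b e)) 0 := by
  have comp : ∀ {γ : D → D} {γ' : D →L[F] D} (L : ((D × D × D × D) × F) →L[F] D),
      Tan γ γ' 0 → Tan (fun p => γ (L p)) (γ'.comp L) 0 := by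
    intro γ γ' L h
    refine ⟨by change γ (L 0) = 1; rw [map_zero]; exact h.1, ?_⟩
    have h2 : HasStrictFDerivAt γ γ' (L 0) := by rw [map_zero]; exact h.2
    exact h2.comp _ L.hasStrictFDerivAt
  let P1 : ((D × D × D × D) × F) →L[F] (D × D × D × D) := ContinuousLinearMap.fst F _ _
  let L1 : ((D × D × D × D) × F) →L[F] D := (ContinuousLinearMap.fst F _ _).comp P1
  let P2 : ((D × D × D × D) × F) →L[F] (D × D × D) := (ContinuousLinearMap.snd F _ _).comp P1
  let L2 : ((D × D × D × D) × F) →L[F] D := (ContinuousLinearMap.fst F _ _).comp P2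
  let P3 : ((D × D × D × D) × F) →L[F] (D × D) := (ContinuousLinearMap.snd F _ _).comp P2
  let L3 : ((D × D × D × D) × F) →L[F] D := (ContinuousLinearMap.fst F _ _).comp P3
  let L4 : ((D × D × D × D) × F) →L[F] D := (ContinuousLinearMap.snd F _ _).comp P3
  let L5 : ((D × D × D × D) × F) →L[F] F := ContinuousLinearMap.snd F _ _
  have h5 : Tan (fun p : (D × D × D × D) × F => 1 + p.2 • e) (L5.smulRight e) 0 := by
    refine ⟨by simp, ?_⟩
    exact ((L5.smulRight e).hasStrictFDerivAt).const_add 1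
  have h := ((((comp L1 (tan_gg a a)).mul (comp L2 (tan_gg b a))).mul
    (comp L3 (tan_gg a b))).mul (comp L4 (tan_gg b b))).mul h5
  have e1 : LinearMap.toContinuousLinearMap (Psi F a b e) =
      ((((LinearMap.toContinuousLinearMap (cc F a a)).comp L1 +
        (LinearMap.toContinuousLinearMap (cc F b a)).comp L2) +
        (LinearMap.toContinuousLinearMap (cc F a b)).comp L3) +
        (LinearMap.toContinuousLinearMap (cc F b b)).comp L4) + L5.smulRight e := by
    ext v <;> rfl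
  rw [e1]
  exact h

/-- Only `c = 0` near zero satisfies `det (1 + c e) = 1` if `e` has nonzero trace. -/
theorem eventually_det {Ω : Type*} [Field Ω] [Algebra F Ω] {n : ℕ}
    (M : Matrix (Fin n) (Fin n) Ω) (hM : M.trace ≠ 0) :
    ∀ᶠ c : F in 𝓝 0, (1 + algebraMap F Ω c • M).det = 1 → c = 0 := by
  set P : Ω[X] := (1 + (X : Ω[X]) • M.map C).det - 1 with hP
  have hev : ∀ c : Ω, P.eval c = (1 + c • M).det - 1 := by
    intro c
    rw [hP, eval_sub, eval_one]
    congr 1
    have h1 := RingHom.map_det (evalRingHom c) (1 + (X : Ω[X]) • M.map C)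
    rw [coe_evalRingHom] at h1
    rw [h1]
    congr 1
    ext i j
    rw [RingHom.mapMatrix_apply, map_apply, Matrix.add_apply, Matrix.smul_apply, map_apply,
      Matrix.add_apply, Matrix.smul_apply, smul_eq_mul, smul_eq_mul, coe_evalRingHom, eval_add,
      eval_mul, eval_X, eval_C, one_apply, one_apply]
    congr 1
    split_ifs
    · rw [eval_one]
    · rw [eval_zero]
  have hP0 : P ≠ 0 := by
    intro h
    have h1 := Matrix.derivative_det_one_add_X_smul M
    have h2 : (1 + (X : Ω[X]) • M.map C).det = P + 1 := by rw [hP]; ring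
    rw [h2, h, zero_add, derivative_one, eval_zero] at h1
    exact hM h1.symm
  have hfin : {c : F | P.IsRoot (algebraMap F Ω c)}.Finite :=
    Set.Finite.preimage (algebraMap F Ω).injective.injOn (Polynomial.finite_setOfPred_isRoot hP0)
  have h1 : ({c : F | P.IsRoot (algebraMap F Ω c)} \ {0})ᶜ ∈ 𝓝 (0 : F) :=
    (hfin.subset Set.sdiff_subset).isClosed.compl_mem_nhds fun h => h.2 rfl
  filter_upwards [h1] with c hc hdet
  by_contra h0
  refine hc ⟨?_, h0⟩
  change P.eval _ = 0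
  rw [hev, hdet, sub_self]

/-- **Elements of reduced norm one close to one are products of double commutators.** -/
theorem exists_double {Ω : Type*} [Field Ω] [Algebra F Ω] {n : ℕ}
    (f0 : D →ₐ[F] Matrix (Fin n) (Fin n) Ω) {a b : Dˣ} {e : D}
    (hs : Function.Surjective (Psi F a b e)) (he : (f0 e).trace ≠ 0) :
    ∃ δ : ℝ, 0 < δ ∧ ∀ g : Dˣ, ‖(g : D) - 1‖ < δ → (f0 g).det = 1 →
      ∃ x y z w : Dˣ, g = ⁅⁅a, x⁆, a⁆ * ⁅⁅b, y⁆, a⁆ * ⁅⁅a, z⁆, b⁆ * ⁅⁅b, w⁆, b⁆ := by
  have hT := tan_Phi (F := F) a b e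
  have hmap := hT.2.map_nhds_eq_of_surj (by
    rw [LinearMap.range_eq_top]
    exact hs)
  rw [hT.1] at hmap
  have hO : {p : (D × D × D × D) × F | (1 + p.1.1 ≠ 0 ∧ 1 + p.1.2.1 ≠ 0 ∧ 1 + p.1.2.2.1 ≠ 0 ∧
      1 + p.1.2.2.2 ≠ 0) ∧ ((1 + algebraMap F Ω p.2 • f0 e).det = 1 → p.2 = 0)} ∈
      𝓝 (0 : (D × D × D × D) × F) := by
    have hne : ∀ L : (D × D × D × D) × F → D, Continuous L → L 0 = 0 →
        ∀ᶠ p in 𝓝 (0 : (D × D × D × D) × F), 1 + L p ≠ 0 := by
      intro L hL hL0
      have h1 : Continuous fun p => 1 + L p := by fun_prop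
      refine h1.continuousAt.eventually_ne ?_
      rw [hL0, add_zero]
      exact one_ne_zero
    refine Filter.inter_mem ?_ ?_
    · refine Filter.inter_mem (hne _ (by fun_prop) rfl) ?_
      refine Filter.inter_mem (hne _ (by fun_prop) rfl) ?_
      exact Filter.inter_mem (hne _ (by fun_prop) rfl) (hne _ (by fun_prop) rfl)
    · have h2 : Filter.Tendsto (fun p : (D × D × D × D) × F => p.2) (𝓝 0) (𝓝 0) :=
        continuous_snd.tendsto _
      exact h2.eventually (eventually_det (f0 e) he)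
  have h1 := Filter.image_mem_map (m := Phi (F := F) a b e) hO
  rw [hmap] at h1
  obtain ⟨δ, hδ, hball⟩ := Metric.mem_nhds_iff.mp h1
  refine ⟨δ, hδ, fun g hg hdet => ?_⟩
  obtain ⟨p, ⟨⟨hx, hy, hz, hw⟩, hp⟩, hpg⟩ := hball (by
    rw [Metric.mem_ball, dist_eq_norm]
    exact hg : (g : D) ∈ Metric.ball 1 δ)
  have hgg : ∀ (c d : Dˣ) (X : D), 1 + X ≠ 0 → (f0 (gg c d X)).det = 1 := by
    intro c d X hX
    rw [gg_eq c d hX]
    have h2 : ∀ u v : Dˣ, (f0 ((⁅u, v⁆ : Dˣ) : D)).det = 1 := by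
      intro u v
      let δ : Dˣ →* Ωˣ := (Units.map (Matrix.detMonoidHom : Matrix (Fin n) (Fin n) Ω →* Ω)).comp
        (Units.map (f0 : D →* Matrix (Fin n) (Fin n) Ω))
      have h3 : δ ⁅u, v⁆ = 1 := by
        rw [map_commutatorElement]
        exact commutatorElement_eq_one_iff_mul_comm.mpr (mul_comm _ _)
      exact congrArg Units.val h3
    exact h2 _ _
  have h2 : (f0 (g : D)).det = (1 + algebraMap F Ω p.2 • f0 e).det := by
    rw [← hpg, Phi, map_mul, map_mul, map_mul, map_mul, det_mul, det_mul, det_mul, det_mul,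
      hgg _ _ _ hx, hgg _ _ _ hy, hgg _ _ _ hz, hgg _ _ _ hw, one_mul, one_mul, one_mul, one_mul,
      map_add, map_one, map_smul, algebraMap_smul]
  have h3 := hp (by rw [← h2, hdet])
  refine ⟨Units.mk0 _ hx, Units.mk0 _ hy, Units.mk0 _ hz, Units.mk0 _ hw, Units.ext ?_⟩
  rw [← hpg, Phi, h3, zero_smul, add_zero, mul_one, gg_eq _ _ hx, gg_eq _ _ hy, gg_eq _ _ hz,
    gg_eq _ _ hw, Units.val_mul, Units.val_mul, Units.val_mul]

end tan

end Vale.Agent.P011.H698
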