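import Vale.Agent.P011.H738.LocDens
import Vale.Agent.P011.H698.PlusTan

/-!
# Local data at the places of division type
-/

open Module Topology TensorProduct
open scoped commutatorElement

set_option linter.unusedSectionVars false

namespace Vale.Agent.P011.H698

open Vale.Agent.P011.H738

section

variable {k K A F Ω : Type} [Field k] [Field K] [StarRing K] [Ring A] [StarRing A] [Algebra k K]
  [Algebra k A] [Algebra K A] [IsScalarTower k K A] [StarModule K A] [FiniteDimensional K A]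
  [Nontrivial A] [Algebra.IsCentral K A]
  [NontriviallyNormedField F] [ProperSpace F] [IsUltrametricDist F] [Algebra k F]
  [Field Ω] [Algebra K Ω] {n : ℕ}

/-- The local data at a place of division type, with the double commutators. -/
structure LocPlus {k K A Ω : Type} [Field k] [Field K] [Ring A] [StarRing A]
    [Algebra k A] [Algebra K A] [Field Ω] [Algebra K Ω] {n : ℕ}
    (f : A →ₐ[K] Matrix (Fin n) (Fin n) Ω) (F : Type) [NormedField F] [Algebra k F]
    (D : Type) [NormedDivisionRing D] (ι : A →+* D) : Prop where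
  dat : LocDat (k := k) f F D ι
  upper : ∀ (M : ℕ) (B : Basis (Fin M) k A), ∃ C : ℝ, 0 < C ∧ ∀ (x : A) (ε : ℝ), 0 < ε →
    (∀ j, ‖algebraMap k F (B.repr x j)‖ < ε) → ‖ι x‖ ≤ C * ε
  double : ∀ (a b : Aˣ) (e : A), Function.Surjective (Psi K a b e) → (f e).trace ≠ 0 →
    ∃ δ : ℝ, 0 < δ ∧ ∀ x : Aˣ, (f x).det = 1 → ‖ι x - 1‖ < δ → ∃ p q r s : Dˣ,
      Units.map (ι : A →* D) x =
        ⁅⁅Units.map (ι : A →* D) a, p⁆, Units.map (ι : A →* D) a⁆ *
        ⁅⁅Units.map (ι : A →* D) b, q⁆, Units.map (ι : A →* D) a⁆ *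
        ⁅⁅Units.map (ι : A →* D) a, r⁆, Units.map (ι : A →* D) b⁆ *
        ⁅⁅Units.map (ι : A →* D) b, s⁆, Units.map (ι : A →* D) b⁆
  norm_k : ∀ (c : k) (x : A), ‖ι (c • x)‖ = ‖algebraMap k F c‖ * ‖ι x‖
  nrd : ∀ ε : ℝ, 0 < ε → ∃ δ : ℝ, 0 < δ ∧ ∀ (x : A) (c : K), ‖ι x - 1‖ < δ →
    (f x).det = algebraMap K Ω c → ‖ι (algebraMap K A c) - 1‖ < ε

theorem exists_locPlus (fixed : ∀ x : K, star x = x ↔ x ∈ Set.range (algebraMap k K))
    (star_ne : ∃ x : K, star x ≠ x) (hn : 0 < n) (hA : finrank K A = n ^ 2)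
    (f : A →ₐ[K] Matrix (Fin n) (Fin n) Ω) (φ : K →ₐ[k] F)
    (hdiv : letI := (φ : K →+* F).toAlgebra; ∀ x : F ⊗[K] A, x ≠ 0 → IsUnit x) :
    ∃ (D : Type) (_ : NormedDivisionRing D) (_ : IsUltrametricDist D) (_ : ProperSpace D)
      (ι : A →+* D), LocPlus (k := k) f F D ι := by
  let _ := (φ : K →+* F).toAlgebra
  have hnt : Nontrivial (F ⊗[K] A) :=
    Algebra.TensorProduct.nontrivial_of_algebraMap_injective_of_flat_left K F A
      (FaithfulSMul.algebraMap_injective K A)
  have hcen : Algebra.IsCentral F (F ⊗[K] A) := Vale.Agent.P011.H268.isCentral_baseChange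
  let hD : DivisionRing (F ⊗[K] A) :=
    DivisionRing.ofIsUnitOrEqZero fun x => by
      by_cases h : x = 0
      · exact Or.inr h
      · exact Or.inl (hdiv x h)
  let hN : NormedDivisionRing (F ⊗[K] A) := ndNormed F (D := F ⊗[K] A)
  have hU : IsUltrametricDist (F ⊗[K] A) := ndNormed_ultra F
  have hP : ProperSpace (F ⊗[K] A) := ndNormed_proper F
  let hAlg : NormedAlgebra F (F ⊗[K] A) := { (inferInstance : Algebra F (F ⊗[K] A)) with
    norm_smul_le := fun a x => by
      change nu F (a • x) ≤ ‖a‖ * nu F x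
      rw [nu_smul] }
  have hnorm : ∀ x : F ⊗[K] A, ‖x‖ = nu F x := fun x => rfl
  -- the extension of `f`
  obtain ⟨M, _, i, j, hij⟩ := Vale.Agent.P011.H268.exists_common K F Ω
  let _ := i.toAlgebra
  let _ := (j.comp (algebraMap K Ω)).toAlgebra
  have : IsScalarTower K F M := IsScalarTower.of_algebraMap_eq fun z => by
    exact (RingHom.congr_fun hij z).symm
  let j' : Ω →ₐ[K] M := { j with commutes' := fun z => rfl }
  let f0 : F ⊗[K] A →ₐ[F] Matrix (Fin n) (Fin n) M :=
    AlgHom.liftEquiv K F A (Matrix (Fin n) (Fin n) M) (j'.mapMatrix.comp f)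
  have hf0 : ∀ x : A, f0 (1 ⊗ₜ x) = (f x).map j := by
    intro x
    change AlgHom.liftEquiv K F A (Matrix (Fin n) (Fin n) M) (j'.mapMatrix.comp f) (1 ⊗ₜ x) = _
    rw [AlgHom.liftEquiv_tmul, one_smul]
    rfl
  have hf0det : ∀ x : A, (f x).det = 1 → (f0 (1 ⊗ₜ x)).det = 1 := by
    intro x hx
    rw [hf0]
    have h2 := RingHom.map_det j (f x)
    rw [hx, map_one] at h2
    exact h2.symm
  let ι : A →+* F ⊗[K] A := (Algebra.TensorProduct.includeRight : A →ₐ[K] F ⊗[K] A).toRingHom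
  have hι : ∀ x, ι x = 1 ⊗ₜ x := fun _ => rfl
  have hιK : ∀ (c : K) (x : A), ι (c • x) = φ c • ι x := by
    intro c x
    rw [hι, hι, TensorProduct.tmul_smul, ← algebraMap_smul F c]
    rfl
  have hιk : ∀ (c : k) (x : A), ι (c • x) = algebraMap k F c • ι x := by
    intro c x
    rw [← algebraMap_smul K c x, hιK, φ.commutes]
  have hcomm : ∀ x : A, (f x).det = 1 → ∀ ε : ℝ, 0 < ε →
      ∃ c ∈ commutator (F ⊗[K] A)ˣ, ‖(c : F ⊗[K] A) - ι x‖ < ε := by
    intro x hx ε hε
    have hfin : finrank F (F ⊗[K] A) = n ^ 2 := by rw [Module.finrank_baseChange, hA]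
    exact exists_commutator_near hn hfin f0 (hf0det x hx) hε
  have hcoord0 : ∀ (N : ℕ) (b : Basis (Fin N) K A), ∃ C : ℝ, 0 < C ∧
      ∀ x j, ‖(φ : K →+* F) (b.repr x j)‖ ≤ C * ‖ι x‖ := by
    intro N b
    let b' : Basis (Fin N) F (F ⊗[K] A) := Algebra.TensorProduct.basis F b
    obtain ⟨C, hC, h1⟩ := le_nu F b'
    refine ⟨C, hC, fun x j => ?_⟩
    have h2 : b'.equivFun (1 ⊗ₜ[K] x) j = φ (b.repr x j) := by
      rw [Basis.equivFun_apply, Algebra.TensorProduct.basis_repr_tmul, one_smul]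
      rfl
    rw [RingHom.coe_coe, ← h2]
    exact (norm_le_pi_norm _ j).trans (h1 _)
  refine ⟨F ⊗[K] A, hN, hU, hP, ι, ⟨⟨?_, hcomm, ?_, ?_, ?_⟩, ?_, ?_, ?_, ?_⟩⟩
  · intro M B
    exact coord_of_local fixed star_ne φ ι hcoord0 M B
  · intro z y
    change (1 ⊗ₜ[K] algebraMap K A z) * y = y * (1 ⊗ₜ[K] algebraMap K A z)
    rw [← Algebra.TensorProduct.algebraMap_apply']
    exact Algebra.commutes _ _
  · intro N b y ε hε
    let b' : Basis (Fin N) F (F ⊗[K] A) := Algebra.TensorProduct.basis F b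
    obtain ⟨C, hC, h1⟩ := nu_le F b'
    refine ⟨b'.equivFun y, ε / C, by positivity, fun a ha => ?_⟩
    have h2 : ∀ x j, b'.equivFun (1 ⊗ₜ[K] x) j = φ (b.repr x j) := by
      intro x j
      rw [Basis.equivFun_apply, Algebra.TensorProduct.basis_repr_tmul, one_smul]
      rfl
    change nu F ((1 : F) ⊗ₜ[K] (∑ i, a i • b i) - y) < ε
    have h3 : ‖b'.equivFun ((1 : F) ⊗ₜ[K] (∑ i, a i • b i) - y)‖ < ε / C := by
      rw [pi_norm_lt_iff (by positivity)]
      intro i
      have h7 : ∑ i, a i • b i = ∑ i, algebraMap k K (a i) • b i :=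
        Finset.sum_congr rfl fun i _ => by rw [algebraMap_smul]
      rw [map_sub, Pi.sub_apply, h2, h7, b.repr_sum_self]
      have h8 : φ (algebraMap k K (a i)) = algebraMap k F (a i) := φ.commutes _
      rw [h8]
      exact ha i
    refine (h1 _).trans_lt ?_
    rwa [lt_div_iff₀ hC, mul_comm] at h3
  · intro ε hε
    obtain ⟨c, hc0, hc⟩ := NormedField.exists_norm_lt F hε
    refine ⟨algebraMap F (F ⊗[K] A) c, ?_, ?_⟩
    · exact (map_ne_zero_iff _ (algebraMap F (F ⊗[K] A)).injective).mpr (norm_pos_iff.mp hc0)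
    · change nu F (algebraMap F (F ⊗[K] A) c) < ε
      rw [nu_algebraMap]
      exact hc
  · intro M B
    refine ⟨1 + ∑ j, ‖ι (B j)‖, by positivity, fun x ε hε hx => ?_⟩
    have h1 : ι x = ∑ j, algebraMap k F (B.repr x j) • ι (B j) := by
      conv_lhs => rw [← B.sum_repr x, map_sum]
      exact Finset.sum_congr rfl fun j _ => hιk _ _
    rw [h1, add_mul, one_mul]
    calc ‖∑ j, algebraMap k F (B.repr x j) • ι (B j)‖
        ≤ ∑ j, ‖algebraMap k F (B.repr x j) • ι (B j)‖ := norm_sum_le _ _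
      _ ≤ ∑ j, ‖ι (B j)‖ * ε := by
          refine Finset.sum_le_sum fun j _ => ?_
          rw [hnorm, nu_smul, mul_comm]
          exact mul_le_mul_of_nonneg_left (hx j).le (nu_nonneg F _)
      _ = (∑ j, ‖ι (B j)‖) * ε := by rw [Finset.sum_mul]
      _ ≤ ε + (∑ j, ‖ι (B j)‖) * ε := by linarith
  · intro a b e hs he
    have hs' : Function.Surjective (Psi F (Units.map (ι : A →* F ⊗[K] A) a)
        (Units.map (ι : A →* F ⊗[K] A) b) (ι e)) := by
      rw [← LinearMap.range_eq_top, eq_top_iff]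
      rintro y -
      induction y using TensorProduct.induction_on with
      | zero => exact Submodule.zero_mem _
      | tmul r x =>
        have h1 : r ⊗ₜ[K] x = r • ((1 : F) ⊗ₜ[K] x) := by
          rw [TensorProduct.smul_tmul', smul_eq_mul, mul_one]
        rw [h1]
        refine Submodule.smul_mem _ _ ?_
        obtain ⟨⟨⟨x1, x2, x3, x4⟩, c⟩, hx⟩ := hs x
        refine ⟨((ι x1, ι x2, ι x3, ι x4), φ c), ?_⟩
        rw [Psi_apply] at hx ⊢
        rw [← hι, ← hx, map_add, map_add, map_add, map_add, hιK]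
        simp only [cc_apply, dd_apply, map_sub, map_mul]
        rfl
      | add y y' h h' => exact Submodule.add_mem _ h h'
    have he' : (f0 (ι e)).trace ≠ 0 := by
      rw [hι, hf0]
      intro h
      apply he
      apply j.injective
      rw [map_zero, ← h, AddMonoidHom.map_trace]
    obtain ⟨δ, hδ, h⟩ := exists_double f0 hs' he'
    refine ⟨δ, hδ, fun x hx hxn => ?_⟩
    exact h (Units.map (ι : A →* F ⊗[K] A) x) hxn (hf0det x hx)
  · intro c x
    rw [hιk, hnorm, hnorm, nu_smul]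
  · intro ε hε
    have hfin : finrank F (F ⊗[K] A) = n ^ 2 := by rw [Module.finrank_baseChange, hA]
    obtain ⟨p, N, ω, fd, q, g, L, _, _, ιL, H⟩ := exists_full F (F ⊗[K] A)
    obtain rfl := H.eq_degree hfin
    have h1 := H.continuous_det.tendsto 1
    rw [map_one, Matrix.det_one, map_one] at h1
    obtain ⟨δ, hδ, h2⟩ := Metric.tendsto_nhds_nhds.mp h1 ε hε
    refine ⟨δ, hδ, fun x c hx hc => ?_⟩
    have h3 := h2 (x := ι x) (by rw [dist_eq_norm]; exact hx)
    rw [dist_eq_norm] at h3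
    have h4 : (f0 (ι x)).det = algebraMap F M (φ c) := by
      rw [hι, hf0]
      have h5 := RingHom.map_det j (f x)
      rw [hc] at h5
      exact h5.symm.trans (RingHom.congr_fun hij c).symm
    have h5 := Vale.Agent.P011.H268.det_compare hn hfin f0 H.spl (ι x) h4
    rw [h5, AlgHom.commutes] at h3
    have h6 : ι (algebraMap K A c) = algebraMap F (F ⊗[K] A) (φ c) := by
      rw [Algebra.algebraMap_eq_smul_one, hιK, map_one, Algebra.algebraMap_eq_smul_one]
    rw [h6]
    exact h3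

end

end Vale.Agent.P011.H698
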