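import Vale.Agent.P011.H698.PlusOf
import Vale.Agent.P011.H738.SolvFF
import Vale.Agent.P011.H871.CoreFF
import Vale.Agent.P011.H732.CoreRing
import Vale.Agent.P011.H40.CosFF

/-!
# Function fields: the normal subgroups of finite index which are not open
-/

open Module
open scoped commutatorElement

set_option linter.unusedSectionVars false

namespace Vale.Agent.P011.H698

open Vale.Agent.P011.H738 Vale.Agent.P011.H271 Vale.Agent.P011.H976 Vale.Agent.P011.H74

variable {k K A Ω : Type} [Field k] [Field K] [StarRing K] [Ring A] [StarRing A]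
  [Algebra k K] [Algebra k A] [Algebra K A] [IsScalarTower k K A] [StarModule K A] {n N : ℕ}
  [Field Ω] [Algebra K Ω]

/-- **No target**, for every algebra with an anisotropic involution of the second kind over a
function field. -/
theorem noTarget_anis (hk : IsGlobalFunctionField k) (hA : Anis k K A n) (hn : 1 < n)
    (f : A →ₐ[K] Matrix (Fin n) (Fin n) Ω) (B : Basis (Fin N) k A) : NoTarget f B ∅ 0 := by
  have hgff := gff_of_isGlobal hk
  have hSL : StarLinR k A := ⟨H519.star_smul_of_anis hA⟩
  by_cases hdiv : ∃ x : A, x ≠ 0 ∧ ¬ IsUnit x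
  · obtain ⟨q, -⟩ := H519.exists_split_place hk hA (by omega) ∅ 0
    exact H732.noTarget_ring hk hA hn f B (H40.uprf hA (by omega) hdiv B q)
  · have hu : ∀ x : A, IsUnit x ∨ x = 0 := by
      intro x
      by_contra hcon
      push Not at hcon
      exact hdiv ⟨x, hcon.2, hcon.1⟩
    have hnt : Nontrivial A := by
      have := hA.simple
      infer_instance
    exact @H871.noTarget_ff k K A Ω _ _ _ (DivisionRing.ofIsUnitOrEqZero hu) _ _ _ _ _ _ n N _ _
      f B hk hA hn

/-- **The normal subgroups of finite index which are not open.** -/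
theorem plus_ff (hk : IsGlobalFunctionField k) (hA : Anis k K A n) (hn : 3 ≤ n)
    (f : A →ₐ[K] Matrix (Fin n) (Fin n) Ω) (B : Basis (Fin N) k A)
    (M : Subgroup (SUA f)) [M.Normal] (hi : M.index ≠ 0) :
    NearA k K f B M ∨
      ∃ Q H : Subgroup (SUA f), Q.Normal ∧ H.Normal ∧ M ≤ Q ∧ Q ≤ H ∧
        NearA k K f B H ∧ (Q.relIndex H).Prime ∧ (∀ g : SUA f, ∀ x ∈ H, ⁅g, x⁆ ∈ Q) ∧
        ∀ V : Subgroup (SUA f), NearA k K f B V → H ≤ Q ⊔ V := by
  have hgff := gff_of_isGlobal hk
  exact plus_of_FF hk hA hn f B (splitNS hA (by omega)) (noTarget_anis hk hA (by omega) f B) M hi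

/-- **Every finite quotient is solvable.** -/
theorem solvable_anis (hk : IsGlobalFunctionField k) (hA : Anis k K A n) (hn : 3 ≤ n)
    (f : A →ₐ[K] Matrix (Fin n) (Fin n) Ω) (M : Subgroup (SUA f)) [M.Normal] (hi : M.index ≠ 0) :
    Group.IsSolvable (SUA f ⧸ M) := by
  have hKf : FiniteDimensional k K := (H519.quad hA.fixed hA.star_ne).1
  have hAf : FiniteDimensional K A := FiniteDimensional.of_finrank_pos (by
    rw [hA.finrank_eq]; positivity)
  have hAk : FiniteDimensional k A := Module.Finite.trans K A
  exact solvable_of_noTarget hk hA hn f (Module.finBasis k A)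
    (noTarget_anis hk hA (by omega) f (Module.finBasis k A)) M hi

end Vale.Agent.P011.H698
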