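import Vale.Agent.P011.H698.PlusDat

/-!
# The commutators of the elements close to one are dense among the elements close to one
-/

open Module Topology
open scoped commutatorElement

set_option linter.unusedSectionVars false

namespace Vale.Agent.P011.H698

open Vale.Agent.P011.H738

variable {k K A Ω : Type} [Field k] [Field K] [StarRing K] [Ring A] [StarRing A] [Algebra k K]
  [Algebra k A] [Algebra K A] [IsScalarTower k K A] [StarModule K A] [FiniteDimensional K A]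
  [Nontrivial A] [Algebra.IsCentral K A] [Field Ω] [Algebra K Ω] {n : ℕ}

/-- Double commutators are limits of commutators of elements of `V`. -/
theorem double_mem_closure {S : Type} [Finite S] {D : S → Type} [∀ v, NormedDivisionRing (D v)]
    (ι : ∀ v, A →+* D v) (hd : DenseRange (theta ι : UA A → ∀ v, (D v)ˣ))
    {V : Subgroup (UA A)} (hV : V.Normal) {a b : UA A} (ha : a ∈ V) (hb : b ∈ V)
    (p : ∀ v, (D v)ˣ) :
    ⁅⁅theta ι a, p⁆, theta ι b⁆ ∈ (Subgroup.map (theta ι) ⁅V, V⁆).topologicalClosure := by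
  have hC : IsClosed (((Subgroup.map (theta ι) ⁅V, V⁆).topologicalClosure :
      Subgroup (∀ v, (D v)ˣ)) : Set (∀ v, (D v)ˣ)) := Subgroup.isClosed_topologicalClosure _
  refine DenseRange.induction_on (p := fun p => ⁅⁅theta ι a, p⁆, theta ι b⁆ ∈
    (Subgroup.map (theta ι) ⁅V, V⁆).topologicalClosure) hd p ?_ ?_
  · refine hC.preimage (f := fun p : ∀ v, (D v)ˣ => ⁅⁅theta ι a, p⁆, theta ι b⁆) ?_
    simp only [commutatorElement_def]
    fun_prop
  · intro u
    refine Subgroup.le_topologicalClosure _ ⟨⁅⁅a, u⁆, b⁆, ?_, ?_⟩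
    · refine Subgroup.commutator_mem_commutator ?_ hb
      have h1 : ⁅a, u⁆ = a * (u * a⁻¹ * u⁻¹) := by rw [commutatorElement_def]; group
      rw [h1]
      exact V.mul_mem ha (hV.conj_mem _ (V.inv_mem ha) u)
    · rw [map_commutatorElement, map_commutatorElement]

/-- **The commutators of the elements of `V` are dense among the elements of reduced norm one close
to one.** -/
theorem loc3 {S : Type} [Finite S] {F : S → Type} [∀ v, NormedField (F v)]
    [∀ v, Algebra k (F v)] {D : S → Type} [∀ v, NormedDivisionRing (D v)]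
    (ι : ∀ v, A →+* D v) (f : A →ₐ[K] Matrix (Fin n) (Fin n) Ω)
    (L : ∀ v, LocPlus (k := k) f (F v) (D v) (ι v))
    (hd : DenseRange (theta ι : UA A → ∀ v, (D v)ˣ))
    {V : Subgroup (UA A)} (hV : V.Normal) {a b : UA A} (ha : a ∈ V) (hb : b ∈ V) {e : A}
    (hs : Function.Surjective (Psi K (a : Aˣ) (b : Aˣ) e)) (he : (f e).trace ≠ 0) :
    ∃ δ : ℝ, 0 < δ ∧ ∀ x : UA A, (f ((x : Aˣ) : A)).det = 1 →
      (∀ v, ‖ι v ((x : Aˣ) : A) - 1‖ < δ) → ∀ η : ℝ, 0 < η → ∃ c ∈ ⁅V, V⁆, ∀ v,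
        ‖ι v ((c : Aˣ) : A) - ι v ((x : Aˣ) : A)‖ < η ∧
        ‖ι v (star ((c : Aˣ) : A)) - ι v (star ((x : Aˣ) : A))‖ < η := by
  classical
  have h1 := fun v => (L v).double a b e hs he
  choose δ hδ hdb using h1
  obtain ⟨δ', hδ', hle⟩ : ∃ δ' : ℝ, 0 < δ' ∧ ∀ v, δ' < δ v := by
    have h4 : ∀ᶠ x : ℝ in 𝓝[>] 0, 0 < x ∧ ∀ v, x < δ v := by
      refine Filter.Eventually.and self_mem_nhdsWithin (Filter.eventually_all.mpr fun v => ?_)
      exact nhdsWithin_le_nhds (Iio_mem_nhds (hδ v))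
    exact h4.exists
  refine ⟨δ', hδ', fun x hx hxn η hη => ?_⟩
  have h2 := fun v => hdb v (x : Aˣ) hx ((hxn v).trans (hle v))
  choose p q r s hpqrs using h2
  have h3 : theta ι x = ⁅⁅theta ι a, p⁆, theta ι a⁆ * ⁅⁅theta ι b, q⁆, theta ι a⁆ *
      ⁅⁅theta ι a, r⁆, theta ι b⁆ * ⁅⁅theta ι b, s⁆, theta ι b⁆ := by
    funext v
    exact hpqrs v
  have h4 : theta ι x ∈ (Subgroup.map (theta ι) ⁅V, V⁆).topologicalClosure := by
    rw [h3]
    refine Subgroup.mul_mem _ (Subgroup.mul_mem _ (Subgroup.mul_mem _ ?_ ?_) ?_) ?_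
    · exact double_mem_closure ι hd hV ha ha p
    · exact double_mem_closure ι hd hV hb ha q
    · exact double_mem_closure ι hd hV ha hb r
    · exact double_mem_closure ι hd hV hb hb s
  have h5 : theta ι x ∈ closure (Subgroup.map (theta ι) ⁅V, V⁆ : Set (∀ v, (D v)ˣ)) := by
    rw [← Subgroup.topologicalClosure_coe]
    exact h4
  have h6 : ∀ᶠ y in 𝓝 (theta ι x), ∀ v, ‖((y v : (D v)ˣ) : D v) - ι v ((x : Aˣ) : A)‖ < η ∧
      ‖(((y v)⁻¹ : (D v)ˣ) : D v) - ι v (star ((x : Aˣ) : A))‖ < η := by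
    refine Filter.eventually_all.mpr fun v => ?_
    have hc1 : Continuous fun y : ∀ v, (D v)ˣ => ((y v : (D v)ˣ) : D v) :=
      Units.continuous_val.comp (continuous_apply v)
    have hc2 : Continuous fun y : ∀ v, (D v)ˣ => (((y v)⁻¹ : (D v)ˣ) : D v) :=
      Units.continuous_val.comp (continuous_apply v).inv
    have h7 := ((hc1.sub continuous_const).norm (f := fun y : ∀ v, (D v)ˣ =>
      ((y v : (D v)ˣ) : D v) - ι v ((x : Aˣ) : A))).tendsto (theta ι x)
    have h8 := ((hc2.sub continuous_const).norm (f := fun y : ∀ v, (D v)ˣ =>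
      (((y v)⁻¹ : (D v)ˣ) : D v) - ι v (star ((x : Aˣ) : A)))).tendsto (theta ι x)
    rw [theta_apply, sub_self, norm_zero] at h7
    have h9 : (((theta ι x v)⁻¹ : (D v)ˣ) : D v) = ι v (star ((x : Aˣ) : A)) := by
      rw [← Pi.inv_apply, ← map_inv, theta_apply, ua_inv]
    rw [h9, sub_self, norm_zero] at h8
    exact (h7.eventually (Iio_mem_nhds hη)).and (h8.eventually (Iio_mem_nhds hη))
  obtain ⟨_, hy, ⟨c, hc, rfl⟩⟩ := mem_closure_iff_nhds.mp h5 _ h6
  refine ⟨c, hc, fun v => ?_⟩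
  have h10 := hy v
  rw [theta_apply, ← Pi.inv_apply, ← map_inv, theta_apply, ua_inv] at h10
  exact h10

end Vale.Agent.P011.H698
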