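import Vale.Agent.P011.H465.Open
import Vale.Agent.P011.H268.Nrd
import Vale.Agent.P011.H158.SepSR

/-!
# Split regular elements close to one
-/

open Module Matrix Topology Polynomial Filter

set_option linter.unusedSectionVars false

namespace Vale.Agent.P011.H698

open Vale.Agent.P011.H465 (UD mem_UD nu_one nu_eq nu_inv nu_sub nu_pow_sub quot_mem)

section poly

/-- Almost all parameters give distinct powers. -/
theorem finite_bad_param {F : Type*} [Field F] {n : ℕ} (hn : 0 < n) {ω ω' : F} (hω : ω ≠ ω')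
    {a : Fin n → F} (ha : Function.Injective a) :
    {β : F | (∀ i, 1 + β * ω' * a i ≠ 0) ∧ (∀ i, 1 + β * ω * a i ≠ 0) ∧ ∃ i l, i ≠ l ∧
      ((1 + β * ω * a i) / (1 + β * ω' * a i)) ^ n =
        ((1 + β * ω * a l) / (1 + β * ω' * a l)) ^ n}.Finite := by
  classical
  let p : Fin n → Fin n → F → F[X] := fun i l ζ =>
    (1 + C (ω * a i) * X) * (1 + C (ω' * a l) * X) -
      C ζ * ((1 + C (ω * a l) * X) * (1 + C (ω' * a i) * X))
  have hev : ∀ i l ζ β, (p i l ζ).eval β = (1 + ω * a i * β) * (1 + ω' * a l * β) -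
      ζ * ((1 + ω * a l * β) * (1 + ω' * a i * β)) := by
    intro i l ζ β
    simp only [p, eval_sub, eval_mul, eval_add, eval_one, eval_C, eval_X]
  have hp : ∀ i l ζ, i ≠ l → p i l ζ ≠ 0 := by
    intro i l ζ hil h
    have h1 := hev i l ζ 0
    rw [h, eval_zero] at h1
    have hζ : ζ = 1 := by linear_combination h1
    have h2 : (derivative (p i l ζ)).eval 0 = (ω * a i + ω' * a l) - ζ * (ω * a l + ω' * a i) := by
      simp only [p, derivative_sub, derivative_mul, derivative_add, derivative_one, derivative_C,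
        derivative_X, eval_sub, eval_mul, eval_add, eval_one, eval_C, eval_X, eval_zero]
      ring
    rw [h, derivative_zero, eval_zero, hζ] at h2
    have h3 : (ω - ω') * (a i - a l) = 0 := by linear_combination -h2
    rcases mul_eq_zero.mp h3 with h4 | h4
    · exact hω (sub_eq_zero.mp h4)
    · exact hil (ha (sub_eq_zero.mp h4))
  have hroots : {ζ : F | ζ ^ n = 1}.Finite := by
    have h1 : (X ^ n - 1 : F[X]) ≠ 0 := (monic_X_pow_sub_C (1 : F) hn.ne').ne_zero
    refine (Polynomial.finite_setOfPred_isRoot h1).subset fun ζ hζ => ?_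
    change (X ^ n - 1 : F[X]).eval ζ = 0
    rw [eval_sub, eval_pow, eval_X, eval_one, show ζ ^ n = 1 from hζ, sub_self]
  have hfin : (⋃ i : Fin n, ⋃ l : Fin n, ⋃ ζ ∈ {ζ : F | ζ ^ n = 1},
      {β : F | i ≠ l ∧ (p i l ζ).IsRoot β}).Finite := by
    refine Set.finite_iUnion fun i => Set.finite_iUnion fun l => hroots.biUnion fun ζ _ => ?_
    by_cases hil : i = l
    · convert Set.finite_empty (α := F) using 1
      ext β
      simp [hil]
    · exact (Polynomial.finite_setOfPred_isRoot (hp i l ζ hil)).subset fun β hβ => hβ.2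
  refine hfin.subset ?_
  rintro β ⟨h1, h2, i, l, hil, h3⟩
  simp only [Set.mem_iUnion]
  refine ⟨i, l, ((1 + β * ω * a i) / (1 + β * ω' * a i)) /
    ((1 + β * ω * a l) / (1 + β * ω' * a l)), ?_, hil, ?_⟩
  · change _ ^ n = 1
    rw [div_pow, h3, div_self]
    exact pow_ne_zero _ (div_ne_zero (h2 l) (h1 l))
  · change (p i l _).eval β = 0
    rw [hev]
    have key : ∀ x y z t : F, y ≠ 0 → z ≠ 0 → t ≠ 0 →
        x * t - (x / y) / (z / t) * (z * y) = 0 := by
      intro x y z t hy hz ht
      field_simp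
      ring
    have h4 := key (1 + β * ω * a i) (1 + β * ω' * a i) (1 + β * ω * a l) (1 + β * ω' * a l)
      (h1 i) (h2 l) (h1 l)
    rw [← h4]
    ring

end poly

section main

variable {K A F Ω : Type*} [Field K] [StarRing K] [DivisionRing A] [StarRing A] [Algebra K A]
  [StarModule K A] [FiniteDimensional K A] [Algebra.IsCentral K A] [Field F] [Field Ω]
  [Algebra K Ω] {n : ℕ}

/-- Diagonal images of inverses. -/
theorem diag_inv {g : A →+* Matrix (Fin n) (Fin n) F} {x : A} (hx : x ≠ 0) {d : Fin n → F}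
    (h : g x = diagonal d) : (∀ i, d i ≠ 0) ∧ g x⁻¹ = diagonal fun i => (d i)⁻¹ := by
  have h1 : g x * g x⁻¹ = 1 := by rw [← map_mul, mul_inv_cancel₀ hx, map_one]
  have h2 : g x⁻¹ * g x = 1 := by rw [← map_mul, inv_mul_cancel₀ hx, map_one]
  have hd : ∀ i, d i ≠ 0 := by
    intro i hi
    have h3 := congrFun (congrFun h1 i) i
    rw [h, diagonal_mul, hi, zero_mul, one_apply_eq] at h3
    exact zero_ne_one h3
  refine ⟨hd, ?_⟩
  have h4 : g x * diagonal (fun i => (d i)⁻¹) = 1 := by
    rw [h, diagonal_mul_diagonal, ← diagonal_one]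
    congr 1
    funext i
    exact mul_inv_cancel₀ (hd i)
  calc g x⁻¹ = g x⁻¹ * (g x * diagonal (fun i => (d i)⁻¹)) := by rw [h4, mul_one]
    _ = diagonal fun i => (d i)⁻¹ := by rw [← mul_assoc, h2, one_mul]

/-- **Split regular elements of reduced norm one close to one.** -/
theorem exists_near_SR (hn : 0 < n) (hA : finrank K A = n ^ 2)
    (f : A →ₐ[K] Matrix (Fin n) (Fin n) Ω) (φ : K →+* F) (g : A →+* Matrix (Fin n) (Fin n) F)
    (hg : ∀ c : K, g (algebraMap K A c) = algebraMap F _ (φ c)) {w : K} (hw : star w ≠ w)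
    {σ : A} (hσ : star σ = σ) (hσR : g σ ∈ H210.SR (Fin n) F)
    {ι : Type*} [Finite ι] {ν : ι → AbsoluteValue A ℝ}
    (hu : ∀ i x y, ν i (x + y) ≤ max (ν i x) (ν i y))
    (hnrd : ∀ ε : ℝ, 0 < ε → ∃ δ : ℝ, 0 < δ ∧ ∀ (x : A) (c : K), (∀ i, ν i (x - 1) < δ) →
      (f x).det = algebraMap K Ω c → ∀ i, ν i (algebraMap K A c - 1) < ε)
    {b : ℕ → K} (hbs : ∀ j, star (b j) = b j) (hbi : Function.Injective b)
    (hb0 : ∀ i, Tendsto (fun j => ν i (algebraMap K A (b j))) atTop (𝓝 0)) {ε : ℝ} (hε : 0 < ε) :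
    ∃ e : Aˣ, e ∈ UD A ∧ (f (e : A)).det = 1 ∧ (∀ i, ν i ((e : A) - 1) < ε) ∧
      g (e : A) ∈ H210.SR (Fin n) F ∧ (e : A) ∈ Algebra.adjoin K {σ} := by
  classical
  obtain ⟨P, a, ha, hga⟩ := hσR
  have hKc : ∀ (c : K) (y : A), algebraMap K A c * y = y * algebraMap K A c :=
    fun c y => Algebra.commutes c y
  have hstarK : ∀ c : K, star (algebraMap K A c) = algebraMap K A (star c) := by
    intro c
    rw [Algebra.algebraMap_eq_smul_one, star_smul, star_one, ← Algebra.algebraMap_eq_smul_one]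
  -- the elements `y`
  obtain ⟨y, hy⟩ : ∃ y : ℕ → A, ∀ j, y j = 1 + algebraMap K A (b j * w) * σ := ⟨_, fun _ => rfl⟩
  have hsy : ∀ j, star (y j) = 1 + algebraMap K A (b j * star w) * σ := by
    intro j
    rw [hy, star_add, star_one, star_mul, hσ, hstarK, star_mul', hbs, hKc]
  have hy0 : ∀ j, y j ≠ 0 := by
    intro j h
    have h1 : algebraMap K A (b j * w) * σ = algebraMap K A (b j * star w) * σ := by
      have h2 := hy j
      have h3 := hsy j
      rw [h, star_zero] at h3
      rw [h] at h2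
      exact add_left_cancel (h2.symm.trans h3)
    have h2 : algebraMap K A (b j * (w - star w)) * σ = 0 := by
      rw [mul_sub, map_sub, sub_mul, h1, sub_self]
    rcases mul_eq_zero.mp h2 with h3 | h3
    · have h4 : b j = 0 := by
        have h5 := (map_eq_zero_iff _ (algebraMap K A).injective).mp h3
        exact (mul_eq_zero.mp h5).resolve_right (sub_ne_zero.mpr (Ne.symm hw))
      rw [hy, h4, zero_mul, map_zero, zero_mul, add_zero] at h
      exact one_ne_zero h
    · rw [hy, h3, mul_zero, add_zero] at h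
      exact one_ne_zero h
  have hsy0 : ∀ j, star (y j) ≠ 0 := fun j => star_ne_zero.mpr (hy0 j)
  have hcomm : ∀ j, Commute (y j) (star (y j)) := by
    intro j
    rw [hsy, hy]
    have h1 : Commute (algebraMap K A (b j * w) * σ) (algebraMap K A (b j * star w) * σ) := by
      have h2 : Commute (algebraMap K A (b j * w)) (algebraMap K A (b j * star w) * σ) :=
        hKc _ _
      have h3 : Commute σ (algebraMap K A (b j * star w) * σ) :=
        (show Commute σ (algebraMap K A (b j * star w)) from (hKc _ σ).symm).mul_right (Commute.refl σ)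
      exact h2.mul_left h3
    exact ((Commute.one_left _).add_left ((Commute.one_right _).add_right h1))
  -- the unitary elements
  obtain ⟨W, hW⟩ : ∃ W : ℕ → Aˣ, ∀ j, W j ∈ UD A ∧ (W j : A) = y j * (star (y j))⁻¹ :=
    ⟨fun j => Units.mk0 (y j) (hy0 j) * (Units.mk0 (star (y j)) (hsy0 j))⁻¹, fun j =>
      ⟨quot_mem (hy0 j) (hcomm j), by
        rw [Units.val_mul, Units.val_inv_eq_inv_val, Units.val_mk0, Units.val_mk0]⟩⟩
  choose c hc using fun j => H268.exists_nrd hn hA f (W j : A)
  have hcs : ∀ j, c j * star (c j) = 1 := by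
    intro j
    have h1 := H268.nrd_star hn hA hstarK f (W j : A) (hc j)
    have h2 : (f ((W j : A) * star (W j : A))).det = 1 := by
      rw [mem_UD.mp (hW j).1, map_one, det_one]
    rw [map_mul, det_mul, hc, h1, ← map_mul] at h2
    exact (algebraMap K Ω).injective (by rw [h2, map_one])
  have hc0 : ∀ j, c j ≠ 0 := fun j => left_ne_zero_of_mul_eq_one (hcs j)
  have hcA0 : ∀ j, algebraMap K A (c j) ≠ 0 := fun j =>
    (map_ne_zero_iff _ (algebraMap K A).injective).mpr (hc0 j)
  have hcU : ∀ j, Units.mk0 _ (hcA0 j) ∈ UD A := by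
    intro j
    rw [mem_UD, Units.val_mk0, hstarK, ← map_mul, hcs, map_one]
  -- the element
  let e : ℕ → Aˣ := fun j => (Units.mk0 _ (hcA0 j))⁻¹ * W j ^ n
  have hev : ∀ j, (e j : A) = (algebraMap K A (c j))⁻¹ * (W j : A) ^ n := by
    intro j
    rw [Units.val_mul, Units.val_inv_eq_inv_val, Units.val_mk0, Units.val_pow_eq_pow_val]
  have heK : ∀ j, (e j : A) = algebraMap K A (c j)⁻¹ * (W j : A) ^ n := by
    intro j
    rw [hev, map_inv₀]
  have heU : ∀ j, e j ∈ UD A := fun j =>
    (UD A).mul_mem ((UD A).inv_mem (hcU j)) ((UD A).pow_mem (hW j).1 n)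
  have hedet : ∀ j, (f (e j : A)).det = 1 := by
    intro j
    have h1 : algebraMap K Ω (c j)⁻¹ * algebraMap K Ω (c j) = 1 := by
      rw [← map_mul, inv_mul_cancel₀ (hc0 j), map_one]
    rw [heK, ← Algebra.smul_def, map_smul, map_pow, ← algebraMap_smul Ω (c j)⁻¹ (f (W j : A) ^ n),
      det_smul, Fintype.card_fin, det_pow, hc, ← mul_pow, h1, one_pow]
  have heσ : ∀ j, (e j : A) ∈ Algebra.adjoin K {σ} := by
    intro j
    have hσm : σ ∈ Algebra.adjoin K {σ} := Algebra.subset_adjoin (Set.mem_singleton σ)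
    have h1 : y j ∈ Algebra.adjoin K {σ} := by
      rw [hy]
      exact add_mem (one_mem _) (mul_mem (Subalgebra.algebraMap_mem _ _) hσm)
    have h2 : star (y j) ∈ Algebra.adjoin K {σ} := by
      rw [hsy]
      exact add_mem (one_mem _) (mul_mem (Subalgebra.algebraMap_mem _ _) hσm)
    rw [heK, (hW j).2]
    exact mul_mem (Subalgebra.algebraMap_mem _ _)
      (pow_mem (mul_mem h1 ((Algebra.IsIntegral.isIntegral (R := K) _).inv_mem h2)) n)
  -- closeness
  obtain ⟨δ, hδ, hδc⟩ := hnrd (min ε 1) (lt_min hε one_pos)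
  have hnear : ∀ᶠ j in atTop, ∀ i, ν i (y j - 1) < min δ (min ε 1) ∧
      ν i (star (y j) - 1) < min δ (min ε 1) := by
    refine eventually_all.mpr fun i => ?_
    have h1 : ∀ z : K, Tendsto (fun j => ν i (algebraMap K A (b j * z) * σ)) atTop (𝓝 0) := by
      intro z
      have h2 := (hb0 i).mul_const (ν i (algebraMap K A z * σ))
      rw [zero_mul] at h2
      refine h2.congr fun j => ?_
      rw [map_mul (algebraMap K A), mul_assoc]
      exact (map_mul (ν i) _ _).symm
    have h3 : 0 < min δ (min ε 1) := lt_min hδ (lt_min hε one_pos)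
    filter_upwards [(h1 w).eventually (Iio_mem_nhds h3),
      (h1 (star w)).eventually (Iio_mem_nhds h3)] with j h4 h5
    refine ⟨?_, ?_⟩
    · rw [hy, add_sub_cancel_left]
      exact h4
    · rw [hsy, add_sub_cancel_left]
      exact h5
  have hfar : ∀ᶠ j in atTop, φ (b j) ∉ {β : F | (∀ i, 1 + β * φ (star w) * a i ≠ 0) ∧
      (∀ i, 1 + β * φ w * a i ≠ 0) ∧ ∃ i l, i ≠ l ∧
      ((1 + β * φ w * a i) / (1 + β * φ (star w) * a i)) ^ n =
        ((1 + β * φ w * a l) / (1 + β * φ (star w) * a l)) ^ n} := by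
    rw [← Nat.cofinite_eq_atTop]
    exact (finite_bad_param hn (fun h => hw (φ.injective h).symm) ha).preimage
      ((φ.injective.comp hbi).injOn) |>.eventually_cofinite_notMem
  obtain ⟨j, hj1, hj2⟩ := (hnear.and hfar).exists
  refine ⟨e j, heU j, hedet j, fun i => ?_, ?_, heσ j⟩
  · -- closeness
    have hy1 : ∀ i, ν i (y j) = 1 := fun i => by
      rw [← nu_one (ν := ν i)]
      exact nu_eq (hu i) (by
        rw [nu_one]
        exact (hj1 i).1.trans_le ((min_le_right _ _).trans (min_le_right _ _)))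
    have hsy1 : ∀ i, ν i (star (y j)) = 1 := fun i => by
      rw [← nu_one (ν := ν i)]
      exact nu_eq (hu i) (by
        rw [nu_one]
        exact (hj1 i).2.trans_le ((min_le_right _ _).trans (min_le_right _ _)))
    have hW1 : ∀ i, ν i ((W j : A) - 1) < min δ (min ε 1) := fun i => by
      have h1 : (W j : A) - 1 = ((y j - 1) - (star (y j) - 1)) * (star (y j))⁻¹ := by
        rw [(hW j).2, sub_sub_sub_cancel_right, sub_mul, mul_inv_cancel₀ (hsy0 j)]
      rw [h1, map_mul, nu_inv, hsy1, inv_one, mul_one]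
      exact (nu_sub (hu i) _ _).trans_lt (max_lt (hj1 i).1 (hj1 i).2)
    have hWn : ν i ((W j : A) ^ n - 1) < ε := by
      refine (nu_pow_sub (hu i) ?_ n).trans_lt ?_
      · exact ((hW1 i).trans_le ((min_le_right _ _).trans (min_le_right _ _))).le
      · exact (hW1 i).trans_le ((min_le_right _ _).trans (min_le_left _ _))
    have hc1 := hδc (W j : A) (c j) (fun i => (hW1 i).trans_le (min_le_left _ _)) (hc j) i
    have hcn : ν i (algebraMap K A (c j)) = 1 := by
      rw [← nu_one (ν := ν i)]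
      exact nu_eq (hu i) (by
        rw [nu_one]
        exact hc1.trans_le (min_le_right _ _))
    have h1 : (e j : A) - 1 = (algebraMap K A (c j))⁻¹ *
        (((W j : A) ^ n - 1) - (algebraMap K A (c j) - 1)) := by
      rw [hev, sub_sub_sub_cancel_right, mul_sub, inv_mul_cancel₀ (hcA0 j)]
    rw [h1, map_mul, nu_inv, hcn, inv_one, one_mul]
    exact (nu_sub (hu i) _ _).trans_lt (max_lt hWn (hc1.trans_le (min_le_left _ _)))
  · -- split regular
    let g' : A →+* Matrix (Fin n) (Fin n) F :=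
      { toFun := fun x => ((P⁻¹ : (Matrix (Fin n) (Fin n) F)ˣ) : Matrix (Fin n) (Fin n) F) * g x *
          (P : Matrix (Fin n) (Fin n) F)
        map_one' := by rw [map_one, mul_one, Units.inv_mul]
        map_mul' := fun x z => by
          rw [map_mul]
          calc _ = ((P⁻¹ : (Matrix (Fin n) (Fin n) F)ˣ) : Matrix (Fin n) (Fin n) F) * g x *
              ((P : Matrix (Fin n) (Fin n) F) *
                ((P⁻¹ : (Matrix (Fin n) (Fin n) F)ˣ) : Matrix (Fin n) (Fin n) F)) * g z *
              (P : Matrix (Fin n) (Fin n) F) := by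
                rw [Units.mul_inv, mul_one]
                simp only [mul_assoc]
            _ = _ := by simp only [mul_assoc]
        map_zero' := by rw [map_zero, mul_zero, zero_mul]
        map_add' := fun x z => by rw [map_add, mul_add, add_mul] }
    have hg'v : ∀ x, g' x = ((P⁻¹ : (Matrix (Fin n) (Fin n) F)ˣ) : Matrix (Fin n) (Fin n) F) *
      g x * (P : Matrix (Fin n) (Fin n) F) := fun _ => rfl
    have hback : ∀ x, g x = (P : Matrix (Fin n) (Fin n) F) * g' x *
        ((P⁻¹ : (Matrix (Fin n) (Fin n) F)ˣ) : Matrix (Fin n) (Fin n) F) := by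
      intro x
      rw [hg'v]
      simp only [← mul_assoc, Units.mul_inv, one_mul]
      rw [mul_assoc, Units.mul_inv, mul_one]
    have hg'σ : g' σ = diagonal a := by
      rw [hg'v, hga]
      simp only [← mul_assoc, Units.inv_mul, one_mul]
      rw [mul_assoc, Units.inv_mul, mul_one]
    have hg'K : ∀ z : K, g' (algebraMap K A z) = diagonal fun _ => φ z := by
      intro z
      rw [hg'v, hg, ← Algebra.commutes, mul_assoc, Units.inv_mul, mul_one,
        algebraMap_eq_diagonal]
      rfl
    have hg'y : g' (y j) = diagonal fun i => 1 + φ (b j) * φ w * a i := by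
      rw [hy, map_add, map_one, map_mul, hg'K, hg'σ, diagonal_mul_diagonal, ← diagonal_one,
        diagonal_add, map_mul]
    have hg'sy : g' (star (y j)) = diagonal fun i => 1 + φ (b j) * φ (star w) * a i := by
      rw [hsy, map_add, map_one, map_mul, hg'K, hg'σ, diagonal_mul_diagonal, ← diagonal_one,
        diagonal_add, map_mul]
    obtain ⟨hd1, -⟩ := diag_inv (hy0 j) hg'y
    obtain ⟨hd2, hg'i⟩ := diag_inv (hsy0 j) hg'sy
    have hg'e : g' (e j : A) = diagonal fun i => φ (c j)⁻¹ *
        ((1 + φ (b j) * φ w * a i) / (1 + φ (b j) * φ (star w) * a i)) ^ n := by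
      rw [heK, map_mul, map_pow, hg'K, (hW j).2, map_mul, hg'y, hg'i, diagonal_mul_diagonal,
        diagonal_pow, diagonal_mul_diagonal]
      congr 1
      funext i
      rw [div_eq_mul_inv]
      rfl
    refine ⟨P, _, ?_, (hback _).trans (by rw [hg'e])⟩
    intro i l hil
    by_contra hne
    refine hj2 ⟨hd2, hd1, i, l, hne, ?_⟩
    have h1 : φ (c j)⁻¹ ≠ 0 := (_root_.map_ne_zero φ).mpr (inv_ne_zero (hc0 j))
    exact mul_left_cancel₀ h1 hil

end main

end Vale.Agent.P011.H698
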