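import Vale.Agent.P011.Two.Defs

/-!
# Rank two over function fields: the family of unit vectors

For a unit vector `y` with first coordinate `1 - β` and a central skew element `σ` the vector
`(1 + σ β)⁻¹ • (y + σ β • e₁)` is a unit vector.
-/

set_option linter.unusedSectionVars false

namespace Vale.Agent.P011.H698.R7

open Vale.Agent.P011.Two

variable {D : Type} [DivisionRing D] [StarRing D] {g : D}

theorem hh_add_left (x x' y : D × D) : hh g (x + x') y = hh g x y + hh g x' y := by
  simp only [hh, Prod.fst_add, Prod.snd_add]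
  noncomm_ring

theorem hh_add_right (x y y' : D × D) : hh g x (y + y') = hh g x y + hh g x y' := by
  simp only [hh, Prod.fst_add, Prod.snd_add, star_add]
  noncomm_ring

theorem hh_smul_left (a : D) (x y : D × D) : hh g (a • x) y = a * hh g x y := by
  simp only [hh, Prod.smul_fst, Prod.smul_snd, smul_eq_mul]
  noncomm_ring

theorem hh_smul_right (a : D) (x y : D × D) : hh g x (a • y) = hh g x y * star a := by
  simp only [hh, Prod.smul_fst, Prod.smul_snd, smul_eq_mul, star_mul]
  noncomm_ring

theorem hh_e (x : D × D) : hh g x e₁ = x.1 := by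
  simp [hh, e₁]

theorem hh_e' (x : D × D) : hh g e₁ x = star x.1 := by
  simp [hh, e₁]

/-- The member of the family. -/
def fam (σ : D) (y : D × D) : D × D :=
  (1 + σ * (1 - y.1))⁻¹ • (y + (σ * (1 - y.1)) • e₁)

variable {σ : D} {y : D × D}

theorem fam_fst : (fam σ y).1 = (1 + σ * (1 - y.1))⁻¹ * (y.1 + σ * (1 - y.1)) := by
  simp [fam, e₁, mul_add]

/-- The product with the first basis vector. -/
theorem hh_e_fam : hh g e₁ (fam σ y) =
    star (y.1 + σ * (1 - y.1)) * star (1 + σ * (1 - y.1))⁻¹ := by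
  rw [hh_e', fam_fst, star_mul]

/-- The product with the given vector. -/
theorem hh_fam_y (hy : hh g y y = 1) : hh g (fam σ y) y =
    (1 + σ * (1 - y.1))⁻¹ * (1 + σ * ((1 - y.1) * star y.1)) := by
  rw [fam, hh_smul_left, hh_add_left, hh_smul_left, hy, hh_e', mul_assoc σ]

/-- The member of the family is a unit vector. -/
theorem hh_fam_fam (hσ : star σ = -σ) (hc : ∀ x : D, σ * x = x * σ) (hy : hh g y y = 1)
    (h0 : 1 + σ * (1 - y.1) ≠ 0) : hh g (fam σ y) (fam σ y) = 1 := by
  obtain ⟨β, hβ⟩ : ∃ β : D, β = 1 - y.1 := ⟨_, rfl⟩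
  have hy1 : y.1 = 1 - β := by rw [hβ]; abel
  rw [fam, hh_smul_left, hh_smul_right, ← hβ]
  rw [← hβ] at h0
  rw [hh_add_left, hh_add_right, hh_add_right, hh_smul_left, hh_smul_left, hh_smul_right,
    hh_smul_right, hy, hh_e', hh_e, hh_e']
  have h1 : star (1 + σ * β) = 1 - star β * σ := by
    rw [star_add, star_one, star_mul, hσ, mul_neg, ← sub_eq_add_neg]
  have h2 : (1 : D) + y.1 * star (σ * β) + (σ * β * star y.1 + σ * β * (star (e₁ : D × D).1 *
      star (σ * β))) = (1 + σ * β) * star (1 + σ * β) := by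
    have e1 : star (e₁ : D × D).1 = 1 := by simp [e₁]
    rw [e1, one_mul, h1, star_mul, hσ, hy1, star_sub, star_one]
    have e2 : star β * -σ = -(σ * star β) := by rw [mul_neg, hc]
    have e3 : star β * σ = σ * star β := (hc _).symm
    rw [e2, e3]
    have e4 : (1 - β) * -(σ * star β) = -(σ * star β) + σ * (β * star β) := by
      have : β * (σ * star β) = σ * (β * star β) := by
        rw [← mul_assoc, ← hc β, mul_assoc]
      rw [mul_neg, sub_mul, one_mul, this]
      abel
    rw [e4]
    noncomm_ring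
  have h3 : star (1 + σ * β)⁻¹ = (star (1 + σ * β))⁻¹ := star_inv₀ _
  have h4 : star (1 + σ * β) ≠ 0 := star_ne_zero.mpr h0
  rw [h2, h3, ← mul_assoc, ← mul_assoc, inv_mul_cancel₀ h0, one_mul, mul_inv_cancel₀ h4]

end Vale.Agent.P011.H698.R7
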