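import Mathlib

/-!
# Rank two over function fields: norms and minimal polynomials

The norm of an element of a finite dimensional division algebra is determined by its minimal
polynomial; the exceptional values of the parameter are finite in number.
-/

open Module Polynomial

set_option linter.unusedSectionVars false

namespace Vale.Agent.P011.H698.R7

section norm

variable {K D : Type} [Field K] [DivisionRing D] [Algebra K D] [FiniteDimensional K D]

/-- The norm in terms of the minimal polynomial. -/
theorem norm_eq_pow (a : D) : Algebra.norm K a =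
    ((-1) ^ (minpoly K a).natDegree * (minpoly K a).coeff 0) ^
      (finrank K D / (minpoly K a).natDegree) := by
  have ha : IsIntegral K a := IsIntegral.of_finite K a
  have hirr := minpoly.irreducible ha
  obtain ⟨m, hm⟩ : ∃ m : K[X], m = minpoly K a := ⟨_, rfl⟩
  rw [← hm] at hirr ⊢
  have hm0 : m ≠ 0 := hirr.ne_zero
  have hmon : m.Monic := hm ▸ minpoly.monic ha
  have _ : Fact (Irreducible m) := ⟨hirr⟩
  let j : AdjoinRoot m →ₐ[K] D := Ideal.Quotient.liftₐ (Ideal.span {m}) (aeval a) (by
    intro x hx
    rw [Ideal.mem_span_singleton] at hx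
    obtain ⟨y, rfl⟩ := hx
    rw [map_mul, hm, minpoly.aeval, zero_mul])
  have hj : j (AdjoinRoot.root m) = a := by
    change aeval a (X : K[X]) = a
    exact aeval_X a
  let _ : Module (AdjoinRoot m) D := Module.compHom D (j : AdjoinRoot m →+* D)
  have hsmul : ∀ (x : AdjoinRoot m) (y : D), x • y = j x * y := fun _ _ => rfl
  have _ : IsScalarTower K (AdjoinRoot m) D := ⟨fun c x y => by
    rw [hsmul, hsmul, map_smul, smul_mul_assoc]⟩
  have _ : Module.Finite K (AdjoinRoot m) := (AdjoinRoot.powerBasis hm0).finite
  have _ : Module.Finite (AdjoinRoot m) D := Module.Finite.of_restrictScalars_finite K _ _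
  have h1 : (LinearMap.mulLeft K a) =
      ((AdjoinRoot.root m • (LinearMap.id : D →ₗ[AdjoinRoot m] D)).restrictScalars K) := by
    ext x
    change a * x = AdjoinRoot.root m • x
    rw [hsmul, hj]
  have h2 : Algebra.norm K a = LinearMap.det (LinearMap.mulLeft K a) := rfl
  rw [h2, h1, LinearMap.det_restrictScalars, LinearMap.det_smul, LinearMap.det_id, mul_one, map_pow]
  have h3 := Algebra.PowerBasis.norm_gen_eq_coeff_zero_minpoly (AdjoinRoot.powerBasis hm0)
  rw [AdjoinRoot.powerBasis_gen] at h3
  have h4 : minpoly K (AdjoinRoot.root m) = m := by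
    have := AdjoinRoot.minpoly_powerBasis_gen_of_monic hmon
    rwa [AdjoinRoot.powerBasis_gen] at this
  have h5 : finrank K (AdjoinRoot m) = m.natDegree := by
    rw [(AdjoinRoot.powerBasis hm0).finrank, AdjoinRoot.powerBasis_dim]
  rw [h4, AdjoinRoot.powerBasis_dim] at h3
  rw [h3]
  congr 1
  have h6 := Module.finrank_mul_finrank K (AdjoinRoot m) D
  rw [h5] at h6
  rw [← h6, Nat.mul_div_cancel_left _ hirr.natDegree_pos]

variable [StarRing K] [StarRing D]

theorem aeval_star (hst : ∀ (x : K) (y : D), star (x • y) = star x • star y) (p : K[X]) (a : D) :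
    aeval (star a) (p.map (starRingEnd K)) = star (aeval a p) := by
  induction p using Polynomial.induction_on' with
  | add p q hp hq => rw [Polynomial.map_add, map_add, hp, hq, map_add, star_add]
  | monomial n c =>
    rw [Polynomial.map_monomial, aeval_monomial, aeval_monomial, ← Algebra.smul_def,
      ← Algebra.smul_def, hst, star_pow]
    rfl

/-- The minimal polynomial of the conjugate. -/
theorem minpoly_star (hst : ∀ (x : K) (y : D), star (x • y) = star x • star y) (a : D) :
    minpoly K (star a) = (minpoly K a).map (starRingEnd K) := by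
  have h1 : ∀ b : D, (minpoly K (star b)).natDegree ≤ (minpoly K b).natDegree := by
    intro b
    have h2 : aeval (star b) ((minpoly K b).map (starRingEnd K)) = 0 := by
      rw [aeval_star hst, minpoly.aeval, star_zero]
    have h3 := minpoly.dvd K _ h2
    have h4 := Polynomial.natDegree_le_of_dvd h3
      ((minpoly.monic (IsIntegral.of_finite K b)).map _).ne_zero
    rwa [Polynomial.natDegree_map] at h4
  have h2 : aeval (star a) ((minpoly K a).map (starRingEnd K)) = 0 := by
    rw [aeval_star hst, minpoly.aeval, star_zero]
  refine (Polynomial.eq_of_monic_of_dvd_of_natDegree_le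
    (minpoly.monic (IsIntegral.of_finite K _))
    ((minpoly.monic (IsIntegral.of_finite K a)).map _) (minpoly.dvd K _ h2) ?_).symm
  rw [Polynomial.natDegree_map]
  have := h1 (star a)
  rwa [star_star] at this

/-- The norm of the conjugate. -/
theorem norm_star (hst : ∀ (x : K) (y : D), star (x • y) = star x • star y) (a : D) :
    Algebra.norm K (star a) = star (Algebra.norm K a) := by
  rw [norm_eq_pow, norm_eq_pow, minpoly_star hst, Polynomial.natDegree_map, Polynomial.coeff_map,
    star_pow, star_mul', star_pow, star_neg, star_one]
  rfl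

/-- If the norm is not self-conjugate, neither is the minimal polynomial. -/
theorem minpoly_ne {a : D} (h : star (Algebra.norm K a) ≠ Algebra.norm K a) :
    minpoly K a ≠ (minpoly K a).map (starRingEnd K) := by
  intro h1
  apply h
  have h2 : star ((minpoly K a).coeff 0) = (minpoly K a).coeff 0 := by
    conv_rhs => rw [h1, Polynomial.coeff_map]
    rfl
  rw [norm_eq_pow, star_pow, star_mul', h2, star_pow, star_neg, star_one]

end norm

section poly

variable {K D : Type} [Field K] [DivisionRing D] [Algebra K D] [FiniteDimensional K D]

theorem norm_algebraMap_sub (μ : K) (η : D) : Algebra.norm K (algebraMap K D μ - η) =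
    (LinearMap.charpoly (LinearMap.mulLeft K η)).eval μ := by
  rw [LinearMap.eval_charpoly]
  have h2 : Algebra.norm K (algebraMap K D μ - η) =
      LinearMap.det (LinearMap.mulLeft K (algebraMap K D μ - η)) := rfl
  rw [h2]
  congr 1
  ext x
  simp [sub_mul, Algebra.smul_def]

end poly

end Vale.Agent.P011.H698.R7
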