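import Vale.Agent.P011.H698.R7Cop
import Vale.Agent.P011.H167.LfC

/-!
# Rank two over function fields: units at almost all places
-/

open Module Polynomial

set_option linter.unusedSectionVars false

namespace Vale.Agent.P011.H698.R7

open Vale.Agent.P011.H738 Vale.Agent.P011.H271 Vale.Agent.P011.H182 Vale.Agent.P011.H305
  Vale.Agent.P011.H158.N4 Vale.Agent.P011.H167.Lf

variable {k K D : Type} [Field k] [GFF k] [Field K] [StarRing K]
    [DivisionRing D] [StarRing D] [Algebra k K] [Algebra k D] [Algebra K D] [IsScalarTower k K D]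
    {d : kˣ} {s : K} {N : ℕ}

/-- The element does not vanish. -/
theorem gen_ne (hS : SetF k K D d s) {q r : D} (hq : q ≠ 0)
    (h : star (Algebra.norm K (q⁻¹ * r)) ≠ Algebra.norm K (q⁻¹ * r)) (τ : k) :
    r + algebraMap k D τ * q ≠ 0 := by
  have _ := hS.fin
  intro h0
  apply h
  have h1 : q⁻¹ * r = algebraMap K D (algebraMap k K (-τ)) := by
    have h2 : r = q * algebraMap k D (-τ) := by
      rw [map_neg, mul_neg, ← Algebra.commutes]
      exact eq_neg_of_add_eq_zero_left h0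
    rw [h2, inv_mul_cancel_left₀ hq, ← IsScalarTower.algebraMap_apply]
  rw [h1, Algebra.norm_algebraMap, star_pow, hS.star_algebraMap]

/-- The element is a unit at almost all places which are not split. -/
theorem gen_unit (hS : SetF k K D d s) (B : Basis (Fin N) k D) {q r : D} (hq : q ≠ 0)
    (h : star (Algebra.norm K (q⁻¹ * r)) ≠ Algebra.norm K (q⁻¹ * r)) :
    ∃ U : Set (Place k), U.Finite ∧ ∀ v ∉ U, ¬ SqAt (d : k) v → ∀ τ : k, v.abv τ ≤ 1 →
      Ig B v.abv (r + algebraMap k D τ * q) ∧ Ig B v.abv (r + algebraMap k D τ * q)⁻¹ := by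
  have _ := hS.fin
  obtain ⟨A, A', hrel⟩ := coprime_conj (minpoly_ne h)
  obtain ⟨S, hSf, hSgood⟩ := exists_fin_bad B d
    ({algebraMap K D s, q, r, q⁻¹, q⁻¹ * r} : Set D) (by simp)
  obtain ⟨T, hTf, hT⟩ : ∃ T : Set (Place k), T.Finite ∧ ∀ v ∉ T,
      ∀ p ∈ ({minpoly K (q⁻¹ * r), A, A'} : Set K[X]), ∀ i, KI v s (p.coeff i) := by
    have h1 : (⋃ p ∈ ({minpoly K (q⁻¹ * r), A, A'} : Set K[X]), {v : Place k |
        ¬ ∀ i, KI v s (p.coeff i)}).Finite :=
      (by simp : ({minpoly K (q⁻¹ * r), A, A'} : Set K[X]).Finite).biUnion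
        fun p _ => finite_not_poly hS p
    refine ⟨_, h1, fun v hv p hp => ?_⟩
    by_contra hcon
    exact hv (Set.mem_biUnion hp hcon)
  refine ⟨S ∪ T, hSf.union hTf, fun v hv hns τ hτ => ?_⟩
  rw [Set.mem_union, not_or] at hv
  obtain ⟨hd, hB, hall⟩ := hSgood v hv.1
  have hpol := hT v hv.2
  have h1 := inv_integral hS hns hd hB (hall _ (by simp)) (hall (q⁻¹ * r) (by simp))
    (minpoly.aeval K _) hrel (hpol _ (by simp)) (hpol _ (by simp)) (hpol _ (by simp)) hτ
  have hmul : r + algebraMap k D τ * q = q * (q⁻¹ * r + algebraMap k D τ) := by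
    rw [mul_add, mul_inv_cancel_left₀ hq, Algebra.commutes]
  refine ⟨?_, ?_⟩
  · refine Gd.add hB.na (hall _ (by simp)) ?_
    rw [← Algebra.smul_def]
    exact Gd.smul hτ (hall _ (by simp))
  · rw [hmul, mul_inv_rev]
    exact hB.mul' h1 (hall _ (by simp))

/-- The condition on the first coordinate. -/
structure Cond (K : Type) {D : Type} [Field K] [StarRing K] [DivisionRing D] [StarRing D]
    [Algebra K D] (s : K) (y : D) : Prop where
  one : star (Algebra.norm K (algebraMap K D s * (1 - y))) ≠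
    Algebra.norm K (algebraMap K D s * (1 - y))
  two : star (Algebra.norm K ((algebraMap K D s * (1 - y))⁻¹ * y)) ≠
    Algebra.norm K ((algebraMap K D s * (1 - y))⁻¹ * y)
  three : star (Algebra.norm K (algebraMap K D s * ((1 - y) * star y))) ≠
    Algebra.norm K (algebraMap K D s * ((1 - y) * star y))

theorem norm_inv' (hS : SetF k K D d s) {x : D} (hx : x ≠ 0) :
    Algebra.norm K x⁻¹ = (Algebra.norm K x)⁻¹ := by
  have _ := hS.fin
  apply eq_inv_of_mul_eq_one_left
  rw [← map_mul, inv_mul_cancel₀ hx, map_one]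

theorem ne_of_norm (hS : SetF k K D d s) {x : D}
    (h : star (Algebra.norm K x) ≠ Algebra.norm K x) : x ≠ 0 := by
  have _ := hS.fin
  rintro rfl
  apply h
  rw [Algebra.norm_zero, star_zero]

theorem norm_inv_ne (hS : SetF k K D d s) {x : D}
    (h : star (Algebra.norm K x) ≠ Algebra.norm K x) :
    star (Algebra.norm K (x⁻¹ * 1)) ≠ Algebra.norm K (x⁻¹ * 1) := by
  rw [mul_one, norm_inv' hS (ne_of_norm hS h), star_inv₀]
  intro h1
  exact h (inv_injective h1)

theorem cond_beta_ne (hS : SetF k K D d s) {y : D} (h : Cond K s y) : 1 - y ≠ 0 :=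
  right_ne_zero_of_mul (ne_of_norm hS h.one)

theorem cond_y_ne (hS : SetF k K D d s) {y : D} (h : Cond K s y) : y ≠ 0 :=
  right_ne_zero_of_mul (ne_of_norm hS h.two)

section units

variable {τ : k} {σ : D}

theorem sig_eq (hσ : σ = algebraMap K D (algebraMap k K τ * s)) (x : D) :
    σ * x = algebraMap k D τ * (algebraMap K D s * x) := by
  rw [hσ, map_mul, ← IsScalarTower.algebraMap_apply, mul_assoc]

/-- The three elements do not vanish. -/
theorem units_ne (hS : SetF k K D d s) {y : D} (h : Cond K s y) (τ : k) {σ : D}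
    (hσ : σ = algebraMap K D (algebraMap k K τ * s)) {p : D}
    (hp : p = 1 + σ * (1 - y) ∨ p = y + σ * (1 - y) ∨ p = 1 + σ * ((1 - y) * star y)) : p ≠ 0 := by
  rcases hp with rfl | rfl | rfl <;> rw [sig_eq hσ]
  · exact gen_ne hS (ne_of_norm hS h.one) (norm_inv_ne hS h.one) τ
  · exact gen_ne hS (ne_of_norm hS h.one) h.two τ
  · exact gen_ne hS (ne_of_norm hS h.three) (norm_inv_ne hS h.three) τ

/-- The three elements are units at almost all places which are not split. -/
theorem units_generic (hS : SetF k K D d s) (B : Basis (Fin N) k D) {y : D} (h : Cond K s y) :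
    ∃ U : Set (Place k), U.Finite ∧ ∀ v ∉ U, ¬ SqAt (d : k) v → ∀ (τ : k) (σ : D),
      v.abv τ ≤ 1 → σ = algebraMap K D (algebraMap k K τ * s) → ∀ p : D,
      p = 1 + σ * (1 - y) ∨ p = y + σ * (1 - y) ∨ p = 1 + σ * ((1 - y) * star y) →
      Ig B v.abv p ∧ Ig B v.abv p⁻¹ := by
  obtain ⟨U1, hU1, h1⟩ := gen_unit hS B (ne_of_norm hS h.one) (norm_inv_ne hS h.one)
  obtain ⟨U2, hU2, h2⟩ := gen_unit hS B (ne_of_norm hS h.one) h.two
  obtain ⟨U3, hU3, h3⟩ := gen_unit hS B (ne_of_norm hS h.three) (norm_inv_ne hS h.three)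
  refine ⟨U1 ∪ U2 ∪ U3, (hU1.union hU2).union hU3, fun v hv hns τ σ hτ hσ p hp => ?_⟩
  simp only [Set.mem_union, not_or] at hv
  rcases hp with rfl | rfl | rfl <;> rw [sig_eq hσ]
  · exact h1 v hv.1.1 hns τ hτ
  · exact h2 v hv.1.2 hns τ hτ
  · exact h3 v hv.2 hns τ hτ

end units

end Vale.Agent.P011.H698.R7
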