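import Vale.Agent.P011.H698.R7Gen

/-!
# Rank two over function fields: the exceptional scalars
-/

open Module Polynomial

set_option linter.unusedSectionVars false

namespace Vale.Agent.P011.H698.R7

open Vale.Agent.P011.H738 Vale.Agent.P011.H271 Vale.Agent.P011.H182 Vale.Agent.P011.H305
  Vale.Agent.P011.H158.N4 Vale.Agent.P011.H167.Lf

variable {k K D : Type} [Field k] [GFF k] [Field K] [StarRing K]
    [DivisionRing D] [StarRing D] [Algebra k K] [Algebra k D] [Algebra K D] [IsScalarTower k K D]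
    {d : kˣ} {s : K} {N : ℕ}

/-- The value of the reversed conjugate polynomial. -/
theorem eval_rev (f : K[X]) {μ : K} (hμ : μ * star μ = 1) :
    (f.map (starRingEnd K)).reverse.eval μ * star μ ^ f.natDegree = star (f.eval μ) := by
  have hl : star μ * μ = 1 := by rw [mul_comm, hμ]
  let _ : Invertible (star μ) := ⟨μ, hμ, hl⟩
  have h1 := Polynomial.eval₂_reverse_mul_pow (RingHom.id K) (star μ) (f.map (starRingEnd K))
  have h2 : ⅟(star μ) = μ := rfl
  rw [h2, Polynomial.natDegree_map] at h1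
  change (f.map (starRingEnd K)).reverse.eval μ * star μ ^ f.natDegree =
    (f.map (starRingEnd K)).eval (star μ) at h1
  rw [h1]
  have h3 : (f.map (starRingEnd K)).eval (starRingEnd K μ) = starRingEnd K (f.eval μ) :=
    Polynomial.eval_map_apply _ _
  exact h3

theorem star_algebraMap' (hS : SetF k K D d s) (x : K) :
    star (algebraMap K D x) = algebraMap K D (star x) := by
  rw [Algebra.algebraMap_eq_smul_one, hS.star_smul, star_one, Algebra.algebraMap_eq_smul_one]

/-- The exceptional scalars are finite in number. -/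
theorem finite_bad_mu (hS : SetF k K D d s) {η : D} (hη : η ≠ 0) :
    {μ : K | μ * star μ = 1 ∧ ¬ Cond K s (algebraMap K D (star μ) * η)}.Finite := by
  classical
  have _ := hS.fin
  have hs0 : s ≠ 0 := hS.s_ne
  obtain ⟨e, he⟩ : ∃ e : ℕ, e = finrank K D := ⟨_, rfl⟩
  have he0 : e ≠ 0 := by rw [he]; exact (finrank_pos).ne'
  obtain ⟨χ, hχ⟩ : ∃ χ : K[X], χ = LinearMap.charpoly (LinearMap.mulLeft K η) := ⟨_, rfl⟩
  have hmon : χ.Monic := hχ ▸ LinearMap.charpoly_monic _
  have hdeg : χ.natDegree = e := by rw [hχ, LinearMap.charpoly_natDegree, he]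
  obtain ⟨R, hR⟩ : ∃ R : K[X], R = (χ.map (starRingEnd K)).reverse := ⟨_, rfl⟩
  obtain ⟨ν, hν⟩ : ∃ ν : K, ν = Algebra.norm K η := ⟨_, rfl⟩
  have hν0 : ν ≠ 0 := by
    rw [hν]
    intro h
    have h1 : Algebra.norm K η * Algebra.norm K η⁻¹ = 1 := by
      rw [← map_mul, mul_inv_cancel₀ hη, map_one]
    rw [h, zero_mul] at h1
    exact zero_ne_one h1
  have hm1 : ((-1 : K) ^ e) ≠ 0 := pow_ne_zero _ (neg_ne_zero.mpr one_ne_zero)
  obtain ⟨A, hA⟩ : ∃ A : K[X], A = χ - C ((-1) ^ e) * X ^ e * R := ⟨_, rfl⟩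
  obtain ⟨Bp, hBp⟩ : ∃ Bp : K[X], Bp = C (star ν) * X ^ e * χ - C ((-1) ^ e * ν) * R := ⟨_, rfl⟩
  have hA0 : A ≠ 0 := by
    intro h
    have h1 : A.eval 0 = 0 := by rw [h, eval_zero]
    rw [hA, eval_sub, eval_mul, eval_mul, eval_pow, eval_X, zero_pow he0, mul_zero, zero_mul,
      sub_zero, hχ, ← norm_algebraMap_sub, map_zero, zero_sub] at h1
    have h2 : Algebra.norm K (-η) * Algebra.norm K (-η)⁻¹ = 1 := by
      rw [← map_mul, mul_inv_cancel₀ (neg_ne_zero.mpr hη), map_one]
    rw [h1, zero_mul] at h2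
    exact zero_ne_one h2
  have hB0 : Bp ≠ 0 := by
    intro h
    have h1 : Bp.eval 0 = 0 := by rw [h, eval_zero]
    have h2 : R.eval 0 = 1 := by
      rw [← Polynomial.coeff_zero_eq_eval_zero, hR, Polynomial.coeff_zero_reverse]
      exact (hmon.map _)
    rw [hBp, eval_sub, eval_mul, eval_mul, eval_pow, eval_X, zero_pow he0, mul_zero, zero_mul,
      zero_sub, eval_mul, h2, eval_C, mul_one] at h1
    exact (mul_ne_zero hm1 hν0) (neg_eq_zero.mp h1)
  refine ((A.roots.toFinset.finite_toSet).union (Bp.roots.toFinset.finite_toSet)).subset ?_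
  rintro μ ⟨hμ, hcon⟩
  rw [Set.mem_union, Finset.mem_coe, Finset.mem_coe, Multiset.mem_toFinset, Multiset.mem_toFinset,
    Polynomial.mem_roots hA0, Polynomial.mem_roots hB0]
  by_contra hc
  rw [not_or] at hc
  apply hcon
  obtain ⟨hcA, hcB⟩ := hc
  rw [Polynomial.IsRoot] at hcA hcB
  obtain ⟨lam, hlam⟩ : ∃ lam : K, lam = star μ := ⟨_, rfl⟩
  obtain ⟨Z, hZ⟩ : ∃ Z : K, Z = χ.eval μ := ⟨_, rfl⟩
  obtain ⟨W, hW⟩ : ∃ W : K, W = R.eval μ := ⟨_, rfl⟩
  have hsμ : star lam = μ := by rw [hlam, star_star]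
  have hμl : μ * lam = 1 := by rw [hlam, hμ]
  have hμl' : lam * μ = 1 := by rw [mul_comm, hμl]
  have hμ0 : μ ≠ 0 := left_ne_zero_of_mul_eq_one hμl
  have hl0 : lam ≠ 0 := right_ne_zero_of_mul_eq_one hμl
  have hpow : μ ^ e * lam ^ e = 1 := by rw [← mul_pow, hμl, one_pow]
  have hZs : star Z = W * lam ^ e := by
    have := eval_rev χ hμ
    rw [hdeg, ← hR, ← hW, ← hlam, ← hZ] at this
    exact this.symm
  have hcA' : Z - (-1) ^ e * μ ^ e * W ≠ 0 := by
    rw [hA, eval_sub, eval_mul, eval_mul, eval_C, eval_pow, eval_X, ← hZ, ← hW] at hcA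
    exact hcA
  have hcB' : star ν * μ ^ e * Z - (-1) ^ e * ν * W ≠ 0 := by
    rw [hBp, eval_sub, eval_mul, eval_mul, eval_mul, eval_C, eval_C, eval_pow, eval_X, ← hZ,
      ← hW] at hcB
    exact hcB
  rw [← hlam]
  have hs0e : s ^ e ≠ 0 := pow_ne_zero _ hs0
  have hneg : (-s) ^ e = (-1) ^ e * s ^ e := by rw [← mul_pow, neg_one_mul]
  have hone : Algebra.norm K (algebraMap K D s * (1 - algebraMap K D lam * η)) =
      s ^ e * lam ^ e * Z := by
    have h1 : algebraMap K D s * (1 - algebraMap K D lam * η) =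
        algebraMap K D s * (algebraMap K D lam * (algebraMap K D μ - η)) := by
      rw [mul_sub (algebraMap K D lam), ← map_mul, hμl', map_one]
    rw [h1, map_mul, map_mul, norm_algebraMap_sub, ← hχ, ← hZ, Algebra.norm_algebraMap,
      Algebra.norm_algebraMap, ← he, mul_assoc]
  have hnl : Algebra.norm K (algebraMap K D lam * η) = lam ^ e * ν := by
    rw [map_mul, Algebra.norm_algebraMap, ← he, ← hν]
  have hkey : star (s ^ e * lam ^ e * Z) = (-1) ^ e * s ^ e * W := by
    rw [star_mul', star_mul', star_pow, star_pow, hS.star_s, hsμ, hZs, hneg]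
    linear_combination ((-1) ^ e * s ^ e * W) * hpow
  have hkey3 : star (s ^ e * lam ^ e * Z * (μ ^ e * star ν)) =
      (-1) ^ e * s ^ e * W * (lam ^ e * ν) := by
    rw [star_mul', hkey, star_mul', star_pow, star_star, ← hlam]
  have h3ne : (-1) ^ e * s ^ e * W * (lam ^ e * ν) ≠
      s ^ e * lam ^ e * Z * (μ ^ e * star ν) := by
    intro h
    apply hcB'
    have h2 : s ^ e * (star ν * μ ^ e * Z - (-1) ^ e * ν * W) = 0 := by
      have h3 := congrArg (fun t => t * μ ^ e) h
      linear_combination (-1 : K) * h3 + ((-1) ^ e * s ^ e * W * ν -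
        s ^ e * Z * μ ^ e * star ν) * hpow
    exact (mul_eq_zero.mp h2).resolve_left hs0e
  refine ⟨?_, ?_, ?_⟩
  · rw [hone, hkey]
    intro h
    apply hcA'
    have h2 : s ^ e * (Z - (-1) ^ e * μ ^ e * W) = 0 := by
      have h3 := congrArg (fun t => t * μ ^ e) h
      linear_combination (-1 : K) * h3 - (s ^ e * Z) * hpow
    exact (mul_eq_zero.mp h2).resolve_left hs0e
  · obtain ⟨x, hx⟩ : ∃ x : D, x = algebraMap K D s * (1 - algebraMap K D lam * η) := ⟨_, rfl⟩
    rw [← hx] at hone ⊢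
    have hx0 : s ^ e * lam ^ e * Z ≠ 0 := by
      intro h
      have h1 : star (s ^ e * lam ^ e * Z) = 0 := by rw [h, star_zero]
      rw [hkey] at h1
      apply h3ne
      rw [h1, h, zero_mul, zero_mul]
    have hx1 : x ≠ 0 := by
      rintro rfl
      rw [Algebra.norm_zero] at hone
      exact hx0 hone.symm
    rw [map_mul, norm_inv' hS hx1, hone, hnl, star_mul', star_inv₀, hkey]
    intro h
    apply h3ne
    have hW0 : (-1) ^ e * s ^ e * W ≠ 0 := by
      rw [← hkey]
      exact star_ne_zero.mpr hx0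
    rw [star_mul', star_pow, hsμ] at h
    rw [inv_mul_eq_div, inv_mul_eq_div, div_eq_div_iff hW0 hx0] at h
    linear_combination (-1 : K) * h
  · have hstl : star (algebraMap K D lam * η) = algebraMap K D μ * star η := by
      rw [star_mul, star_algebraMap' hS, Algebra.commutes, hsμ]
    rw [← mul_assoc, map_mul, hone, hstl, map_mul, Algebra.norm_algebraMap, ← he,
      norm_star hS.star_smul, ← hν, hkey3]
    exact h3ne

end Vale.Agent.P011.H698.R7
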