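import Vale.Agent.P011.H698.R7Mu
import Vale.Agent.P011.H698.R7Alg
import Vale.Agent.P011.H271.KSF

/-!
# Rank two over function fields: two rotations bring the first basis vector to a unit vector

The choice of the parameter of the family.
-/

open Module Polynomial

set_option linter.unusedSectionVars false

namespace Vale.Agent.P011.H698.R7

open Vale.Agent.P011.H738 Vale.Agent.P011.H271 Vale.Agent.P011.H182 Vale.Agent.P011.H305
  Vale.Agent.P011.H158.N4 Vale.Agent.P011.H167.Lf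
open Vale.Agent.P011.Two (hh An Uh e₁ IsDiag)

variable {k K D : Type} [Field k] [GFF k] [Field K] [StarRing K]
    [DivisionRing D] [StarRing D] [Algebra k K] [Algebra k D] [Algebra K D] [IsScalarTower k K D]
    {d : kˣ} {s : K} {N : ℕ}

/-- One of the three elements. -/
def Pt (σ y p : D) : Prop :=
  p = 1 + σ * (1 - y) ∨ p = y + σ * (1 - y) ∨ p = 1 + σ * ((1 - y) * star y)

/-- The choice of the parameter. -/
theorem exists_tau (hS : SetF k K D d s) (B : Basis (Fin N) k D) {y : D} (hc : Cond K s y)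
    {q : Place k} {T : Finset (Place k)} (hqT : q ∉ T) (hq : SqAt (d : k) q)
    (hres : ∀ v : Place k, v ∉ T → ¬ SqAt (d : k) v → ∃ θ : k, v.abv θ ≤ 1 ∧ ∀ (τ : k) (σ : D),
      v.abv (τ - θ) < 1 → σ = algebraMap K D (algebraMap k K τ * s) → ∀ p : D, Pt σ y p →
      Ig B v.abv p ∧ Ig B v.abv p⁻¹) :
    ∃ τ : k, (∀ v ∈ T, v.abv τ ≤ 1) ∧ ∀ v : Place k, v ∉ T → ¬ SqAt (d : k) v → ∀ (σ : D),
      σ = algebraMap K D (algebraMap k K τ * s) → ∀ p : D, Pt σ y p →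
      Ig B v.abv p ∧ Ig B v.abv p⁻¹ := by
  classical
  obtain ⟨U, hUf, hU⟩ := units_generic hS B hc
  have h1 : ∀ v : Place k, ∃ θ : k, (v ∈ T → θ = 0) ∧ v.abv θ ≤ 1 ∧ (v ∉ T → ¬ SqAt (d : k) v →
      ∀ (τ : k) (σ : D), v.abv (τ - θ) < 1 → σ = algebraMap K D (algebraMap k K τ * s) →
      ∀ p : D, Pt σ y p → Ig B v.abv p ∧ Ig B v.abv p⁻¹) := by
    intro v
    by_cases hv : v ∉ T ∧ ¬ SqAt (d : k) v
    · obtain ⟨θ, hθ, h⟩ := hres v hv.1 hv.2
      exact ⟨θ, fun h => absurd h hv.1, hθ, fun _ _ => h⟩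
    · refine ⟨0, fun _ => rfl, by rw [map_zero]; exact zero_le_one, fun h3 h4 => ?_⟩
      exact absurd ⟨h3, h4⟩ hv
  choose θ hθT hθ1 hθ using h1
  obtain ⟨T', hT'⟩ : ∃ T' : Finset (Place k), T' = (hUf.toFinset).erase q := ⟨_, rfl⟩
  have hqT' : q ∉ T' := by rw [hT']; exact Finset.notMem_erase q _
  obtain ⟨C, hC⟩ := place_strong q T' hqT' (ε := 1 / 2) (by norm_num)
  obtain ⟨τ, hτ1, hτ2, -⟩ := hC (fun v => if v ∈ T' then θ v else 0) (by
    refine (Finset.finite_toSet T').subset fun v hv => ?_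
    by_contra hcon
    rw [Finset.mem_coe] at hcon
    simp only [Set.mem_ofPred_eq, if_neg hcon, map_zero] at hv
    linarith)
  have hτI : ∀ v : Place k, v ≠ q → v.abv τ ≤ 1 := by
    intro v hv
    have h2 := hτ2 v hv
    have h3 : v.abv (if v ∈ T' then θ v else 0) ≤ 1 := by
      split_ifs
      · exact hθ1 v
      · rw [map_zero]; exact zero_le_one
    have e : τ = (if v ∈ T' then θ v else 0) + -((if v ∈ T' then θ v else 0) - τ) := by ring
    rw [e]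
    refine abv_add_le h3 ?_
    rw [AbsoluteValue.map_neg]
    exact h2
  refine ⟨τ, fun v hv => hτI v ?_, ?_⟩
  · rintro rfl
    exact hqT hv
  · intro v hv hns σ hσ p hp
    have hvq : v ≠ q := by
      rintro rfl
      exact hns hq
    by_cases hvU : v ∈ U
    · have hvT' : v ∈ T' := by
        rw [hT', Finset.mem_erase]
        exact ⟨hvq, hUf.mem_toFinset.mpr hvU⟩
      refine hθ v hv hns τ σ ?_ hσ p hp
      have h2 := hτ1 v hvT'
      simp only [if_pos hvT'] at h2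
      have e : τ - θ v = -(θ v - τ) := by ring
      rw [e, AbsoluteValue.map_neg]
      linarith
    · exact hU v hvU hns τ σ (hτI v hvq) hσ p hp

/-- Two rotations. -/
theorem two_steps (hS : SetF k K D d s) (B : Basis (Fin N) k D) {g : D}
    {Q : Subgroup ((D × D) ≃ₗ[D] (D × D))} {ε : Place k → ℝ}
    (hstep : ∀ y y' : D × D, hh g y y = 1 → hh g y' y' = 1 → hh g y y' ≠ 0 →
      (∀ v : Place k, SqAt (d : k) v ∨
        (v.abv (d : k) = 1 ∧ H182.Gd B v.abv ∧ Ig B v.abv (hh g y y') ∧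
          Ig B v.abv (hh g y y')⁻¹) ∨
        na B v.abv (hh g y y' * star (hh g y y') - 1) < ε v) →
      ∃ u ∈ Q, ∃ δ : D, δ ≠ 0 ∧ u y = δ • y')
    {y : D × D} (hy : hh g y y = 1) (hc : Cond K s y.1)
    {q : Place k} {T : Finset (Place k)} (hqT : q ∉ T) (hq : SqAt (d : k) q)
    (hT : ∀ v : Place k, v ∉ T → v.abv (d : k) = 1 ∧ H182.Gd B v.abv)
    (hres : ∀ v : Place k, v ∉ T → ¬ SqAt (d : k) v → ∃ θ : k, v.abv θ ≤ 1 ∧ ∀ (τ : k) (σ : D),
      v.abv (τ - θ) < 1 → σ = algebraMap K D (algebraMap k K τ * s) → ∀ p : D, Pt σ y.1 p →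
      Ig B v.abv p ∧ Ig B v.abv p⁻¹)
    (hnear : ∀ v ∈ T, ∀ (τ : k) (σ : D), σ = algebraMap K D (algebraMap k K τ * s) →
      v.abv τ ≤ 1 → 1 + σ * (1 - y.1) ≠ 0 → ∀ z z' : D,
      z = star (y.1 + σ * (1 - y.1)) * star (1 + σ * (1 - y.1))⁻¹ →
      z' = (1 + σ * (1 - y.1))⁻¹ * (1 + σ * ((1 - y.1) * star y.1)) →
      na B v.abv (z * star z - 1) < ε v ∧ na B v.abv (z' * star z' - 1) < ε v) :
    ∃ u ∈ Q, ∃ δ : D, δ ≠ 0 ∧ u e₁ = δ • y := by
  obtain ⟨τ, hτT, hτ⟩ := exists_tau hS B hc hqT hq hres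
  obtain ⟨σ, hσ⟩ : ∃ σ : D, σ = algebraMap K D (algebraMap k K τ * s) := ⟨_, rfl⟩
  obtain ⟨p₁, hp₁⟩ : ∃ p : D, p = 1 + σ * (1 - y.1) := ⟨_, rfl⟩
  obtain ⟨p₂, hp₂⟩ : ∃ p : D, p = y.1 + σ * (1 - y.1) := ⟨_, rfl⟩
  obtain ⟨p₃, hp₃⟩ : ∃ p : D, p = 1 + σ * ((1 - y.1) * star y.1) := ⟨_, rfl⟩
  have h1 : Pt σ y.1 p₁ := Or.inl hp₁
  have h2 : Pt σ y.1 p₂ := Or.inr (Or.inl hp₂)
  have h3 : Pt σ y.1 p₃ := Or.inr (Or.inr hp₃)
  have hn1 : p₁ ≠ 0 := units_ne hS hc τ hσ h1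
  have hn2 : p₂ ≠ 0 := units_ne hS hc τ hσ h2
  have hn3 : p₃ ≠ 0 := units_ne hS hc τ hσ h3
  have hσs : star σ = -σ := by
    rw [hσ, star_algebraMap' hS, star_mul', hS.star_algebraMap, hS.star_s, mul_neg, map_neg]
  have hσc : ∀ x : D, σ * x = x * σ := fun x => by rw [hσ]; exact Algebra.commutes _ _
  obtain ⟨Y, hY⟩ : ∃ Y : D × D, Y = fam σ y := ⟨_, rfl⟩
  have hYY : hh g Y Y = 1 := by
    rw [hY]
    exact hh_fam_fam hσs hσc hy (hp₁ ▸ hn1)
  have hz : hh g e₁ Y = star p₂ * star p₁⁻¹ := by rw [hY, hh_e_fam, hp₂, hp₁]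
  have hz' : hh g Y y = p₁⁻¹ * p₃ := by rw [hY, hh_fam_y hy, hp₃, hp₁]
  have hee : hh g (e₁ : D × D) e₁ = 1 := by rw [hh_e]; rfl
  have hstar : ∀ {v : Place k}, H182.Gd B v.abv → ∀ {x : D}, Ig B v.abv x →
      Ig B v.abv (star x) := fun hB x hx => hB.star hS.star_smulk hx
  obtain ⟨u₁, hu₁, δ₁, hδ₁, hu₁'⟩ := hstep e₁ Y hee hYY (by
      rw [hz]
      exact mul_ne_zero (star_ne_zero.mpr hn2) (star_ne_zero.mpr (inv_ne_zero hn1))) (by
    intro v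
    by_cases hv : SqAt (d : k) v
    · exact Or.inl hv
    · right
      by_cases hvT : v ∈ T
      · right
        exact (hnear v hvT τ σ hσ (hτT v hvT) (hp₁ ▸ hn1) _ _ (by rw [hz, hp₂, hp₁])
          rfl).1
      · left
        obtain ⟨hd, hB⟩ := hT v hvT
        obtain ⟨ha, ha'⟩ := hτ v hvT hv σ hσ p₁ h1
        obtain ⟨hb, hb'⟩ := hτ v hvT hv σ hσ p₂ h2
        refine ⟨hd, hB, ?_, ?_⟩
        · rw [hz]
          exact hB.mul' (hstar hB hb) (hstar hB ha')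
        · rw [hz, mul_inv_rev, ← star_inv₀, ← star_inv₀, inv_inv]
          exact hB.mul' (hstar hB ha) (hstar hB hb'))
  obtain ⟨u₂, hu₂, δ₂, hδ₂, hu₂'⟩ := hstep Y y hYY hy (by
      rw [hz']
      exact mul_ne_zero (inv_ne_zero hn1) hn3) (by
    intro v
    by_cases hv : SqAt (d : k) v
    · exact Or.inl hv
    · right
      by_cases hvT : v ∈ T
      · right
        exact (hnear v hvT τ σ hσ (hτT v hvT) (hp₁ ▸ hn1) _ _ rfl (by rw [hz', hp₃, hp₁])).2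
      · left
        obtain ⟨hd, hB⟩ := hT v hvT
        obtain ⟨ha, ha'⟩ := hτ v hvT hv σ hσ p₁ h1
        obtain ⟨hb, hb'⟩ := hτ v hvT hv σ hσ p₃ h3
        refine ⟨hd, hB, ?_, ?_⟩
        · rw [hz']
          exact hB.mul' ha' hb
        · rw [hz', mul_inv_rev, inv_inv]
          exact hB.mul' hb' ha)
  refine ⟨u₂ * u₁, Q.mul_mem hu₂ hu₁, δ₁ * δ₂, mul_ne_zero hδ₁ hδ₂, ?_⟩
  change u₂ (u₁ e₁) = _
  rw [hu₁', map_smul, hu₂', smul_smul]

end Vale.Agent.P011.H698.R7
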