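import Vale.Agent.P011.H698.R7One
import Vale.Agent.P011.H518.R8.CosetG0
import Vale.Agent.P011.H961.StepF

/-!
# Rank two over function fields: transitivity on the lines of unit vectors
-/

open Module Polynomial

set_option linter.unusedSectionVars false

namespace Vale.Agent.P011.H698.R7

open Vale.Agent.P011.H738 Vale.Agent.P011.H271 Vale.Agent.P011.H182 Vale.Agent.P011.H305
  Vale.Agent.P011.H158.N4 Vale.Agent.P011.H167.Lf
open Vale.Agent.P011.Two (hh An Uh e₁ IsDiag)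
open Vale.Agent.P011.H519.R2 (HQF)
open Vale.Agent.P011.H699 (G0)

/-- The estimate near one. -/
def NearFam {k K D : Type} [Field k] [GFF k] [Field K] [StarRing K] [DivisionRing D] [StarRing D]
    [Algebra k K] [Algebra k D] [Algebra K D] [IsScalarTower k K D] (s : K) {N : ℕ}
    (B : Basis (Fin N) k D) (v : Place k) : Prop :=
  ∀ ε : ℝ, 0 < ε → ∃ δ : ℝ, 0 < δ ∧ ∀ (y : D) (τ : k) (σ : D),
    σ = algebraMap K D (algebraMap k K τ * s) → v.abv τ ≤ 1 → na B v.abv (y - 1) < δ →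
    1 + σ * (1 - y) ≠ 0 → ∀ z z' : D,
    z = star (y + σ * (1 - y)) * star (1 + σ * (1 - y))⁻¹ →
    z' = (1 + σ * (1 - y))⁻¹ * (1 + σ * ((1 - y) * star y)) →
    na B v.abv (z * star z - 1) < ε ∧ na B v.abv (z' * star z' - 1) < ε

/-- The residues. -/
def Residues {k K D : Type} [Field k] [GFF k] [Field K] [StarRing K] [DivisionRing D] [StarRing D]
    [Algebra k K] [Algebra k D] [Algebra K D] [IsScalarTower k K D] (d : kˣ) (s : K) {N : ℕ}
    (B : Basis (Fin N) k D) (v : Place k) : Prop :=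
  ¬ SqAt (d : k) v → v.abv (d : k) = 1 → H182.Gd B v.abv → Ig B v.abv (algebraMap K D s) →
  ∀ Θ : Finset k, 3 * N + 1 ≤ Θ.card → (∀ θ ∈ Θ, v.abv θ ≤ 1) →
  (∀ θ ∈ Θ, ∀ θ' ∈ Θ, θ ≠ θ' → v.abv (θ - θ') = 1) → ∀ y : D, Ig B v.abv y →
  ∃ θ ∈ Θ, ∀ (τ : k) (σ : D), v.abv (τ - θ) < 1 → σ = algebraMap K D (algebraMap k K τ * s) →
    ∀ p : D, p = 1 + σ * (1 - y) ∨ p = y + σ * (1 - y) ∨ p = 1 + σ * ((1 - y) * star y) →
    Ig B v.abv p ∧ Ig B v.abv p⁻¹

/-- Elements of norm one close to one. -/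
def InfLam {k K D : Type} [Field k] [GFF k] [Field K] [StarRing K] [DivisionRing D] [StarRing D]
    [Algebra k K] [Algebra k D] [Algebra K D] [IsScalarTower k K D] {N : ℕ}
    (B : Basis (Fin N) k D) : Prop :=
  ∀ (T : Finset (Place k)) (δ : Place k → ℝ), (∀ v, 0 < δ v) →
    {μ : K | μ * star μ = 1 ∧ ∀ v ∈ T, na B v.abv (algebraMap K D (star μ) - 1) < δ v}.Infinite

variable {k K D : Type} [Field k] [GFF k] [Field K] [StarRing K]
    [DivisionRing D] [StarRing D] [Algebra k K] [Algebra k D] [Algebra K D] [IsScalarTower k K D]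
    {d : kˣ} {s : K} {N : ℕ}

/-- A finite set of elements with unit differences outside a finite set of places. -/
theorem exists_theta (k : Type) [Field k] [GFF k] (M : ℕ) : ∃ (Θ : Finset k) (S : Set (Place k)),
    Θ.card = M ∧ S.Finite ∧ ∀ v ∉ S, (∀ θ ∈ Θ, v.abv θ ≤ 1) ∧
      ∀ θ ∈ Θ, ∀ θ' ∈ Θ, θ ≠ θ' → v.abv (θ - θ') = 1 := by
  classical
  obtain ⟨Θ, -, hΘ⟩ := (infinite_small (k := k) (Set.finite_empty) (δ := fun _ => 1)
    (fun _ => one_pos)).exists_subset_card_eq M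
  refine ⟨Θ, (⋃ θ ∈ Θ, {v | ¬ v.abv θ ≤ 1}) ∪
    ⋃ x ∈ Θ ×ˢ Θ, {v | x.1 ≠ x.2 ∧ ¬ v.abv (x.1 - x.2) = 1}, hΘ, ?_, ?_⟩
  · refine Set.Finite.union (Set.Finite.biUnion (Finset.finite_toSet _) fun θ _ => finite_big θ)
      (Set.Finite.biUnion (Finset.finite_toSet _) fun x _ => ?_)
    by_cases hx : x.1 = x.2
    · convert Set.finite_empty
      ext v
      simp [hx]
    · exact (finite_not_unit (sub_ne_zero.mpr hx)).subset fun v hv => hv.2
  · intro v hv
    simp only [Set.mem_union, Set.mem_iUnion, not_or, not_exists, Set.mem_ofPred_eq, not_not,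
      not_and, Finset.mem_product, Prod.forall, exists_prop, ne_eq] at hv
    exact ⟨fun θ hθ => hv.1 θ hθ, fun θ hθ θ' hθ' h => hv.2 θ θ' ⟨hθ, hθ'⟩ h⟩

/-- **Transitivity.** -/
theorem transQ_of {Ω : Type} [Field Ω] [Algebra K Ω] [StarModule K D]
    (hk : IsGlobalFunctionField k) (hS : SetF k K D d s) {n : ℕ} (hn : 2 ≤ n)
    (hdeg : finrank K D = n ^ 2) {g : D} (hg : star g = g) (han : An g)
    (f : D →ₐ[K] Matrix (Fin n) (Fin n) Ω)
    (hnear : ∀ {N : ℕ} (B : Basis (Fin N) k D) (v : Place k), NearFam s B v)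
    (hres : ∀ {N : ℕ} (B : Basis (Fin N) k D) (v : Place k), Residues d s B v)
    (hlam : ∀ {N : ℕ} (B : Basis (Fin N) k D), InfLam (K := K) B)
    (hki : ∀ (v : Place k), ¬ SqAt (d : k) v → v.abv (d : k) = 1 → ∀ μ : K, μ * star μ = 1 →
      KI v s μ)
    {Q : Subgroup ((D × D) ≃ₗ[D] (D × D))} (hQ : Q ≤ G0 f g)
    (hQn : ∀ a ∈ G0 f g, ∀ x ∈ Q, a * x * a⁻¹ ∈ Q) (hfin : Q.relIndex (G0 f g) ≠ 0)
    (hHQ : HQF d s g Q) {x : (D × D) ≃ₗ[D] (D × D)} (hx : x ∈ G0 f g) :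
    ∃ u ∈ Q, ∃ δ : D, δ ≠ 0 ∧ u e₁ = δ • x e₁ := by
  classical
  have _ := hS.fin
  have _ : Module.Finite k K := FiniteDimensional.of_finrank_pos (by rw [hS.rank]; norm_num)
  have _ : Module.Finite k D := Module.Finite.trans K D
  obtain ⟨N, B⟩ : ∃ N : ℕ, Nonempty (Basis (Fin N) k D) := ⟨_, ⟨Module.finBasis k D⟩⟩
  obtain ⟨B⟩ := B
  obtain ⟨ε, hε, hstep⟩ := H961.SF.exists_step hS B
  obtain ⟨Θ, S1, hΘc, hS1f, hΘ⟩ := exists_theta k (3 * N + 1)
  obtain ⟨S0, hS0f, hS0⟩ := exists_fin_bad B d ({algebraMap K D s} : Set D) (by simp)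
  obtain ⟨p0⟩ := Hey.nonempty_place k
  obtain ⟨T₀, hT₀⟩ : ∃ T₀ : Finset (Place k), T₀ = insert p0 (hS0f.union hS1f).toFinset := ⟨_, rfl⟩
  obtain ⟨q, T, hT0, hqT, hq, hcos⟩ := H518.R8.coset_G0 hk hS hn hdeg hg han f B T₀
  have hTgood : ∀ v : Place k, v ∉ T → v ∉ S0 ∧ v ∉ S1 := by
    intro v hv
    have h1 : v ∉ T₀ := fun h => hv (hT0 h)
    rw [hT₀, Finset.mem_insert, not_or, Set.Finite.mem_toFinset, Set.mem_union, not_or] at h1
    exact h1.2
  have hp0 : p0 ∈ T := hT0 (by rw [hT₀]; exact Finset.mem_insert_self _ _)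
  choose δ hδ hnear' using fun v => hnear B v (ε v) (hε v)
  choose C hC1 hC using fun v : Place k => na_mul B v.abv
  have hone : ∀ v : Place k, 0 < na B v.abv (1 : D) := fun v => na_pos B v.abv one_ne_zero
  obtain ⟨e₀, he₀, hle⟩ := H74.GlobF.exists_lower (Finset.finite_toSet T)
    (u := fun v => min (δ v / 2) (min 1 (na B v.abv (1 : D))))
    (fun v _ => lt_min (half_pos (hδ v)) (lt_min one_pos (hone v)))
  obtain ⟨x', hx', hxQ, hxT, hxI⟩ := hcos Q hQ hQn hfin x hx T le_rfl hqT e₀ he₀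
  obtain ⟨η, hη⟩ : ∃ η : D, η = (x' e₁).1 := ⟨_, rfl⟩
  have hηT : ∀ v ∈ T, na B v.abv (η - 1) < min (δ v / 2) (min 1 (na B v.abv (1 : D))) :=
    fun v hv => by
      rw [hη]
      exact (hxT v hv).1.trans_le (hle v hv)
  have hη0 : η ≠ 0 := by
    rintro h0
    have h1 := (hηT p0 hp0).trans_le ((min_le_right _ _).trans (min_le_right _ _))
    rw [h0, zero_sub, na_neg] at h1
    exact lt_irrefl _ h1
  have hδ' : ∀ v : Place k, 0 < δ v / (2 * (C v * (na B v.abv (1 : D) + 1))) := fun v => by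
    have h1 := hδ v
    have h2 := hC1 v
    have h3 := hone v
    positivity
  obtain ⟨μ, ⟨hμ, hμT⟩, hμc⟩ := ((hlam B T _ hδ').sdiff (finite_bad_mu hS hη0)).nonempty
  have hcond : Cond K s (algebraMap K D (star μ) * η) := by
    by_contra hcon
    exact hμc ⟨hμ, hcon⟩
  obtain ⟨lam, hlamd⟩ : ∃ lam : D, lam = algebraMap K D (star μ) := ⟨_, rfl⟩
  rw [← hlamd] at hcond
  have hμs : star μ * μ = 1 := by rw [mul_comm, hμ]
  have hls : lam * star lam = 1 := by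
    rw [hlamd, star_algebraMap' hS, star_star, ← map_mul, hμs, map_one]
  have hl0 : lam ≠ 0 := left_ne_zero_of_mul_eq_one hls
  obtain ⟨y, hyd⟩ : ∃ y : D × D, y = lam • x' e₁ := ⟨_, rfl⟩
  have hy1 : y.1 = lam * η := by rw [hyd, hη]; rfl
  have hxx : hh g (x' e₁) (x' e₁) = 1 := by
    have h1 : x' ∈ Uh g := H699.G0_le f g hx'
    rw [h1 e₁ e₁, hh_e]
    rfl
  have hy : hh g y y = 1 := by
    rw [hyd, hh_smul_left, hh_smul_right, hxx, one_mul, hls]
  have hyT : ∀ v ∈ T, na B v.abv (y.1 - 1) < δ v := by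
    intro v hv
    have h1 := hηT v hv
    have h2 : na B v.abv (η - 1) < δ v / 2 := h1.trans_le (min_le_left _ _)
    have h3 : na B v.abv (η - 1) < 1 := h1.trans_le ((min_le_right _ _).trans (min_le_left _ _))
    have h4 := hμT v hv
    rw [← hlamd] at h4
    have h5 : na B v.abv η ≤ na B v.abv (1 : D) + 1 := by
      have e : η = (η - 1) + 1 := by abel
      conv_lhs => rw [e]
      have := na_add_le B v.abv (η - 1) 1
      linarith
    have e : y.1 - 1 = (lam - 1) * η + (η - 1) := by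
      rw [hy1]
      noncomm_ring
    rw [e]
    have hCp : 0 < C v := lt_of_lt_of_le one_pos (hC1 v)
    have hn1 := hone v
    have h6 : na B v.abv ((lam - 1) * η) ≤ δ v / 2 := by
      refine (hC v _ _).trans ?_
      have h7 : C v * na B v.abv (lam - 1) * na B v.abv η ≤
          C v * (δ v / (2 * (C v * (na B v.abv (1 : D) + 1)))) * (na B v.abv (1 : D) + 1) := by
        have h8 := na_nonneg B v.abv (lam - 1)
        have h9 := na_nonneg B v.abv η
        refine mul_le_mul (mul_le_mul_of_nonneg_left h4.le hCp.le) h5 h9 ?_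
        exact mul_nonneg hCp.le (hδ' v).le
      refine h7.trans (le_of_eq ?_)
      field_simp
    refine (na_add_le B v.abv _ _).trans_lt ?_
    linarith
  rw [← hy1] at hcond
  obtain ⟨u₀, hu₀, δ₀, hδ₀, hu₀'⟩ := two_steps hS B (g := g) (Q := Q) (ε := ε)
    (fun y y' => hstep g hg han Q hHQ y y') hy hcond hqT hq
    (fun v hv => ⟨(hS0 v (hTgood v hv).1).1, (hS0 v (hTgood v hv).1).2.1⟩)
    (by
      intro v hv hns
      obtain ⟨hd, hB, hsI⟩ := hS0 v (hTgood v hv).1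
      obtain ⟨hΘ1, hΘ2⟩ := hΘ v (hTgood v hv).2
      have hsI' : Ig B v.abv (algebraMap K D s) := hsI _ rfl
      have hvq : v ≠ q := by
        rintro rfl
        exact hns hq
      have hηI : Ig B v.abv η := by
        rw [hη]
        exact (hxI v hv hvq).1
      have hlI : Ig B v.abv lam := by
        rw [hlamd]
        exact ig_of_ki hB hsI' (hki v hns hd (star μ) (by rw [star_star, hμs]))
      have hyI : Ig B v.abv y.1 := by
        rw [hy1]
        exact hB.mul' hlI hηI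
      obtain ⟨θ, hθ, h⟩ := hres B v hns hd hB hsI' Θ hΘc.ge hΘ1 hΘ2 y.1 hyI
      exact ⟨θ, hΘ1 θ hθ, h⟩)
    (fun v hv τ σ hσ hτ h1 z z' hz hz' => hnear' v y.1 τ σ hσ hτ (hyT v hv) h1 z z' hz hz')
  have hw : x' * x⁻¹ ∈ Q := by
    have h1 := hQn x hx _ hxQ
    rwa [← mul_assoc, mul_inv_cancel, one_mul] at h1
  refine ⟨(x' * x⁻¹)⁻¹ * u₀, Q.mul_mem (Q.inv_mem hw) hu₀, δ₀ * lam, mul_ne_zero hδ₀ hl0, ?_⟩
  have h1 : ((x' * x⁻¹)⁻¹ * u₀) e₁ = x (x'⁻¹ (u₀ e₁)) := by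
    rw [mul_inv_rev, inv_inv]
    rfl
  have h2 : x'⁻¹ (x' e₁) = e₁ := x'.symm_apply_apply e₁
  rw [h1, hu₀', hyd, smul_smul, map_smul, map_smul, h2]

end Vale.Agent.P011.H698.R7
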