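import Vale.Agent.P011.H698.FG

/-!
# Every level contains an element which is not central
-/

open Module Matrix Topology Filter

set_option linter.unusedSectionVars false

namespace Vale.Agent.P011.H698

open Vale.Agent.P011.H738 Vale.Agent.P011.H271 Vale.Agent.P011.H976 Vale.Agent.P011.H74

variable {k K A Ω : Type} [Field k] [GFF k] [Field K] [StarRing K] [Ring A] [StarRing A]
  [Algebra k K] [Algebra k A] [Algebra K A] [IsScalarTower k K A] [StarModule K A] {n N : ℕ}
  [Field Ω] [Algebra K Ω] {f : A →ₐ[K] Matrix (Fin n) (Fin n) Ω} {B : Basis (Fin N) k A}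

/-- A central element of the special unitary group: finitely many. -/
theorem finite_central (hA : Anis k K A n) (hn : n ≠ 0)
    (f : A →ₐ[K] Matrix (Fin n) (Fin n) Ω) :
    {x : A | (f x).det = 1 ∧ ∀ y : A, x * y = y * x}.Finite := by
  have hcen := hA.central
  have h1 : {c : Ω | c ^ n = 1}.Finite := by
    refine ((Polynomial.nthRootsFinset n (1 : Ω)).finite_toSet).subset fun c hc => ?_
    rw [Finset.mem_coe, Polynomial.mem_nthRootsFinset (Nat.pos_of_ne_zero hn)]
    exact hc
  have h2 : {c : K | c ^ n = 1}.Finite := by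
    refine Set.Finite.of_finite_image (f := algebraMap K Ω) (h1.subset ?_)
      (algebraMap K Ω).injective.injOn
    rintro _ ⟨c, hc, rfl⟩
    rw [Set.mem_ofPred_eq] at hc ⊢
    rw [← map_pow, hc, map_one]
  refine (h2.image (algebraMap K A)).subset ?_
  rintro x ⟨hx, hxc⟩
  have h3 : x ∈ Subalgebra.center K A := by
    rw [Subalgebra.mem_center_iff]
    intro y
    exact (hxc y).symm
  rw [hcen.center_eq_bot, Algebra.mem_bot] at h3
  obtain ⟨c, rfl⟩ := h3
  refine ⟨c, ?_, rfl⟩
  rw [f.commutes, Matrix.algebraMap_eq_diagonal, Matrix.det_diagonal] at hx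
  rw [Set.mem_ofPred_eq]
  apply (algebraMap K Ω).injective
  rw [map_pow, map_one, ← hx]
  simp

/-- Finitely many classes of integral elements modulo a level. -/
theorem exists_class (hst : ∀ (c : k) (x : A), star (c • x) = c • star x) {q : Place k}
    {T : Finset (Place k)} (hT : Big B T) {ε : ℝ} (hε : 0 < ε) {d : k} (hd : d ≠ 0) :
    ∃ (κ : Type) (_ : Finite κ) (cl : A → κ), ∀ x y : A, (∀ i, d * B.repr x i ∈ OSF {q}) →
      (∀ i, d * B.repr y i ∈ OSF {q}) → star x * x = 1 → cl x = cl y →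
      star x * y ∈ Lv B {q} T ε := by
  classical
  obtain ⟨T', hT'd⟩ : ∃ T', T' = T ∪ (place_finite hd).toFinset := ⟨_, rfl⟩
  have hTT' : T ⊆ T' := by rw [hT'd]; exact Finset.subset_union_left
  have hT' : Big B T' := hT.mono hTT'
  obtain ⟨C, hC1, -, hCm, hCs, -⟩ := exists_const B hst
  -- the bound at `v`
  have hdv : ∀ v : Place k, 0 < v.abv d := fun v => v.abv.pos hd
  have hbd : ∀ x : A, (∀ i, d * B.repr x i ∈ OSF {q}) → ∀ v : Place k, v ≠ q →
      Bd B v (v.abv d)⁻¹ x := by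
    intro x hx v hv i
    have h1 := hx i v (by rwa [Finset.mem_singleton])
    rw [map_mul] at h1
    rw [← one_div, le_div_iff₀ (hdv v), mul_comm]
    exact h1
  obtain ⟨m, hm⟩ : ∃ m, m = min ε 1 := ⟨_, rfl⟩
  have hm0 : 0 < m := by rw [hm]; exact lt_min hε one_pos
  -- the radius at `v`
  let δ : Place k → ℝ := fun v => m / (2 * (C v * (C v * (v.abv d)⁻¹)))
  have hδ : ∀ v, 0 < δ v := fun v => by
    have h1 := hC1 v
    have h2 := hdv v
    have : 0 < C v := by linarith
    positivity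
  have hδ2 : ∀ v, C v * (C v * (v.abv d)⁻¹) * δ v < m := fun v => by
    have h1 := hC1 v
    have h2 := hdv v
    have h3 : 0 < C v := by linarith
    have h4 : 0 < C v * (C v * (v.abv d)⁻¹) := by positivity
    have h5 : C v * (C v * (v.abv d)⁻¹) * δ v = m / 2 := by
      change C v * (C v * (v.abv d)⁻¹) * (m / (2 * (C v * (C v * (v.abv d)⁻¹)))) = m / 2
      field_simp
    rw [h5]
    linarith
  have hreps : ∀ v : Place k, ∃ R : Finset k, ∀ x : k, v.abv x ≤ (v.abv d)⁻¹ →
      ∃ r ∈ R, v.abv (x - r) ≤ δ v := fun v => ball_reps v _ (hδ v)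
  choose R hR using hreps
  have hR0 : ∀ v : Place k, ∃ r : k, r ∈ R v := fun v => by
    obtain ⟨r, hr, -⟩ := hR v 0 (by rw [map_zero]; exact (inv_pos.mpr (hdv v)).le)
    exact ⟨r, hr⟩
  choose r0 hr0 using hR0
  let cl : A → ((v : T') → Fin N → (R v : Set k)) := fun x v i =>
    if h : ∃ r ∈ R v, (v : Place k).abv (B.repr x i - r) ≤ δ v then ⟨h.choose, h.choose_spec.1⟩
    else ⟨r0 v, hr0 v⟩
  refine ⟨_, inferInstance, cl, fun x y hx hy hxx hcl => ?_⟩
  have key : ∀ v ∈ T', v ≠ q → Bd B v (δ v) (y - x) := by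
    intro v hv hvq i
    have h1 : cl x ⟨v, hv⟩ i = cl y ⟨v, hv⟩ i := by rw [hcl]
    have hx1 := hR v _ (hbd x hx v hvq i)
    have hy1 := hR v _ (hbd y hy v hvq i)
    have hx2 : v.abv (B.repr x i - (cl x ⟨v, hv⟩ i : k)) ≤ δ v := by
      change v.abv (B.repr x i - ((dite _ _ _ : (R v : Set k)) : k)) ≤ δ v
      rw [dif_pos hx1]
      exact hx1.choose_spec.2
    have hy2 : v.abv (B.repr y i - (cl y ⟨v, hv⟩ i : k)) ≤ δ v := by
      change v.abv (B.repr y i - ((dite _ _ _ : (R v : Set k)) : k)) ≤ δ v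
      rw [dif_pos hy1]
      exact hy1.choose_spec.2
    rw [← h1] at hy2
    have e : B.repr (y - x) i = (B.repr y i - (cl x ⟨v, hv⟩ i : k)) -
        (B.repr x i - (cl x ⟨v, hv⟩ i : k)) := by
      rw [map_sub, Finsupp.sub_apply]
      ring
    rw [e, sub_eq_add_neg]
    refine (v.nonarch _ _).trans (max_le hy2 ?_)
    rw [AbsoluteValue.map_neg]
    exact hx2
  have hmem : star x * y ∈ Lv B {q} T' m := by
    refine ⟨fun v hv hvq => ?_, fun v hv hvq => ?_⟩
    · have hvq' : v ≠ q := hvq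
      have e : star x * y - 1 = star x * (y - x) := by rw [mul_sub, hxx]
      rw [e]
      have h1 := hbd x hx v hvq'
      have hd0 : 0 ≤ (v.abv d)⁻¹ := (inv_pos.mpr (hdv v)).le
      have hC0 : 0 ≤ C v := zero_le_one.trans (hC1 v)
      have h2 := hCs v _ x hd0 h1
      exact (hCm v _ _ _ _ (mul_nonneg hC0 hd0) (hδ v).le h2 (key v hv hvq')).sm (hδ2 v)
    · have hvq' : v ≠ q := hvq
      have hdv1 : v.abv d = 1 := by
        by_contra hcon
        apply hv
        rw [hT'd]
        exact Finset.mem_union_right _ ((place_finite hd).mem_toFinset.mpr hcon)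
      have h1 := hbd x hx v hvq'
      have h2 := hbd y hy v hvq'
      rw [hdv1, inv_one] at h1 h2
      have h3 := (hT' v hv).mul' zero_le_one zero_le_one
        ((hT' v hv).star' hst zero_le_one h1) h2
      rwa [mul_one] at h3
  exact lv_mono hTT' hT (by rw [hm]; exact min_le_left _ _) (by rw [hm]; exact min_le_right _ _)
    hmem

/-- **Every level contains an element which is not central.** -/
theorem exists_noncentral (hA : Anis k K A n) (hn : 2 ≤ n) {q : Place k} {φ : K →ₐ[k] q.comp}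
    {g : A →+* Matrix (Fin n) (Fin n) q.comp}
    (hφ : ∀ c : K, g (algebraMap K A c) = algebraMap q.comp _ (φ c))
    (hspan : Submodule.span q.comp (Set.range fun x : A => (g x, (g (star x)).transpose)) = ⊤)
    (f : A →ₐ[K] Matrix (Fin n) (Fin n) Ω) (B : Basis (Fin N) k A) {T : Finset (Place k)}
    (hT : Big B T) {ε : ℝ} (hε : 0 < ε) :
    ∃ u : UA A, u ∈ GA f ∧ ((u : Aˣ) : A) ∈ Lv B {q} T ε ∧
      ∃ x : A, ((u : Aˣ) : A) * x ≠ x * ((u : Aˣ) : A) := by
  classical
  by_contra hcon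
  push Not at hcon
  have hn0 : n ≠ 0 := by omega
  have hst := H519.star_smul_of_anis hA
  have hSL : StarLinR k A := ⟨hst⟩
  have hq : ({q} : Finset (Place k)).Nonempty := ⟨q, Finset.mem_singleton_self q⟩
  have hNZ : NeZero N := by
    refine ⟨?_⟩
    rintro rfl
    have h1 := H519.finrank_of_anis hA
    rw [finrank_eq_card_basis B, Fintype.card_fin] at h1
    have : 0 < 2 * n ^ 2 := by positivity
    omega
  obtain ⟨d0, -, hd0⟩ := exists_denR B (OSF {q}) (OSF_den hq)
  obtain ⟨H, -⟩ := isOrdR_ordO B hd0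
  obtain ⟨D, hD, hcoc⟩ := one_SL hA hn0 hφ hspan B H fun c hc => smul_one_mem_ordO B hc
  have hdet : ∀ x : A, (f x).det = 1 ↔ (g x).det = 1 := det_eq_one_iff hA hn0 _ hφ f
  obtain ⟨d, hd, hup⟩ := H.up
  obtain ⟨κ, hκ, cl, hcl⟩ := exists_class (B := B) (q := q) hst hT hε hd
  -- the group is finite
  have hfin : {u : Aˣ | u ∈ UL (ordO B (OSF {q})) ∧ (g (u : A)).det = 1}.Finite := by
    have hZ := finite_central hA hn0 f
    have h1 : ∀ c : κ, {u : Aˣ | (u ∈ UL (ordO B (OSF {q})) ∧ (g (u : A)).det = 1) ∧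
        cl (u : A) = c}.Finite := by
      intro c
      rcases Set.eq_empty_or_nonempty {u : Aˣ | (u ∈ UL (ordO B (OSF {q})) ∧
        (g (u : A)).det = 1) ∧ cl (u : A) = c} with h | ⟨u0, ⟨hu0, hu0d⟩, hu0c⟩
      · rw [h]
        exact Set.finite_empty
      · refine Set.Finite.of_finite_image (f := fun u : Aˣ => star (u0 : A) * (u : A))
          (hZ.subset ?_) ?_
        · rintro _ ⟨u, ⟨⟨hu, hud⟩, huc⟩, rfl⟩
          have hs0 : star (u0 : A) = ((u0⁻¹ : Aˣ) : A) := star_eq_inv hu0.2.2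
          have h2 : star (u0 : A) * (u : A) ∈ Lv B {q} T ε := by
            refine hcl _ _ (hup _ hu0.1) (hup _ hu.1) ?_ (by rw [hu0c, huc])
            rw [hs0, Units.inv_mul]
          have hUA : u0⁻¹ * u ∈ UA A := (UA A).mul_mem ((UA A).inv_mem hu0.2.2) hu.2.2
          have e : ((u0⁻¹ * u : Aˣ) : A) = star (u0 : A) * (u : A) := by
            rw [Units.val_mul, hs0]
          have h3 : (f (star (u0 : A) * (u : A))).det = 1 := by
            rw [hdet, map_mul, Matrix.det_mul, hud, mul_one]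
            have h4 : (g (star (u0 : A))).det * (g (u0 : A)).det = 1 := by
              rw [← Matrix.det_mul, ← map_mul, hs0, Units.inv_mul, map_one, Matrix.det_one]
            rwa [hu0d, mul_one] at h4
          have h5 := hcon ⟨u0⁻¹ * u, hUA⟩ (mem_GA.mpr (by rw [e]; exact h3)) (by rw [e]; exact h2)
          exact ⟨h3, fun y => by
            have := h5 y
            rwa [e] at this⟩
        · intro u _ u' _ h
          have hs0 : star (u0 : A) = ((u0⁻¹ : Aˣ) : A) := star_eq_inv hu0.2.2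
          simp only [hs0] at h
          exact Units.ext ((Units.mul_right_inj u0⁻¹).mp h)
    refine (Set.finite_iUnion h1).subset fun u hu => ?_
    exact Set.mem_iUnion.mpr ⟨cl (u : A), hu, rfl⟩
  -- the special linear group is bounded
  have hK : IsCompact (⋃ u ∈ {u : Aˣ | u ∈ UL (ordO B (OSF {q})) ∧ (g (u : A)).det = 1},
      (fun s : GL (Fin n) q.comp => s * (Units.map (g : A →* Matrix (Fin n) (Fin n) q.comp) u)⁻¹) ''
        D) :=
    hfin.isCompact_biUnion fun u _ => hD.image (continuous_id.mul continuous_const)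
  have h01 : (⟨0, by omega⟩ : Fin n) ≠ ⟨1, by omega⟩ := by
    intro h
    have := congrArg Fin.val h
    simp at this
  obtain ⟨R, hR⟩ := (hK.image (f := fun s : GL (Fin n) q.comp =>
    ‖(s : Matrix (Fin n) (Fin n) q.comp) ⟨0, by omega⟩ ⟨1, by omega⟩‖)
      (by
        refine Continuous.norm ?_
        have hc1 : Continuous fun M : Matrix (Fin n) (Fin n) q.comp =>
            M ⟨0, by omega⟩ ⟨1, by omega⟩ := continuous_apply_apply _ _
        exact hc1.comp Units.continuous_val)).bddAbove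
  obtain ⟨c, hc⟩ : ∃ c : q.comp, 1 < ‖c‖ := by
    obtain ⟨x, hx⟩ := q.normalized.2.1
    refine ⟨algebraMap k _ x, ?_⟩
    rw [norm_alg, hx]
    exact one_lt_qq' q
  obtain ⟨m, hm⟩ := pow_unbounded_of_one_lt R hc
  let s : SpecialLinearGroup (Fin n) q.comp := SpecialLinearGroup.transvection h01 (c ^ m)
  obtain ⟨γ, hγ, hγD⟩ := hcoc (s : GL (Fin n) q.comp) s.2
  have h1 : (s : GL (Fin n) q.comp) ∈ ⋃ u ∈ {u : Aˣ | u ∈ UL (ordO B (OSF {q})) ∧
      (g (u : A)).det = 1}, (fun s : GL (Fin n) q.comp =>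
        s * (Units.map (g : A →* Matrix (Fin n) (Fin n) q.comp) u)⁻¹) '' D := by
    refine Set.mem_biUnion (x := (γ : Aˣ)) ⟨γ.2, hγ⟩ ⟨_, hγD, ?_⟩
    exact mul_inv_cancel_right _ _
  have h2 := hR ⟨_, h1, rfl⟩
  have h3 : (s : GL (Fin n) q.comp).1 ⟨0, by omega⟩ ⟨1, by omega⟩ = c ^ m := by
    change (Matrix.transvection (⟨0, by omega⟩ : Fin n) ⟨1, by omega⟩ (c ^ m)) _ _ = _
    rw [Matrix.transvection, Matrix.add_apply, Matrix.one_apply_ne h01, Matrix.single_apply_same,
      zero_add]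
  change ‖(s : GL (Fin n) q.comp).1 ⟨0, by omega⟩ ⟨1, by omega⟩‖ ≤ R at h2
  rw [h3, norm_pow] at h2
  linarith

end Vale.Agent.P011.H698
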