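import Vale.Agent.P011.H698.RemAbs
import Vale.Agent.P011.H698.LocE
import Vale.Agent.P011.H698.T6
import Vale.Agent.P011.H698.SolvFF
import Vale.Agent.P011.H698.DensFF
import Vale.Agent.P011.H565.P11FF
import Vale.Agent.P011.H738.ProsolvFF

/-!
# Function fields: removing the places which are not of division type

Let `Q` be a normal subgroup of the unitary group, below `G(k)`, which contains the elements of
`G(k)` near one at finitely many places.  Then `Q` contains the commutators of elements of `G(k)`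
which are near one at the finitely many places of division type among them.
-/

open Module Matrix Topology commutatorElement TensorProduct

set_option linter.unusedSectionVars false

namespace Vale.Agent.P011.H698

open Vale.Agent.P011.H738 Vale.Agent.P011.H271 Vale.Agent.P011.H74 Vale.Agent.P011.H976

section topo

/-- The topology of the unitary group is induced by the topology of the ring. -/
theorem inducing_UA (E : Type) [Ring E] [StarRing E] [TopologicalSpace E] [IsTopologicalRing E]
    [ContinuousStar E] : IsInducing fun u : UA E => ((u : Eˣ) : E) := by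
  have h1 : IsInducing (Units.embedProduct E ∘ (Subtype.val : UA E → Eˣ)) :=
    Units.isInducing_embedProduct.comp IsInducing.subtypeVal
  have h2 : (Units.embedProduct E ∘ (Subtype.val : UA E → Eˣ)) =
      (fun x : E => (x, MulOpposite.op (star x))) ∘ fun u : UA E => ((u : Eˣ) : E) := by
    funext u
    refine Prod.ext rfl ?_
    change MulOpposite.op (((u : Eˣ)⁻¹ : Eˣ) : E) = MulOpposite.op (star ((u : Eˣ) : E))
    rw [← ua_inv]
    rfl
  rw [h2] at h1
  refine IsInducing.of_comp ?_ ?_ h1
  · exact Units.continuous_val.comp continuous_subtype_val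
  · exact continuous_id.prodMk (MulOpposite.continuous_op.comp continuous_star)

/-- A positive lower bound of finitely many positive numbers. -/
theorem exists_pos_le {ι : Type*} [Finite ι] (δ : ι → ℝ) (h : ∀ i, 0 < δ i) :
    ∃ ε : ℝ, 0 < ε ∧ ∀ i, ε ≤ δ i := by
  classical
  have := Fintype.ofFinite ι
  refine ⟨∏ i, min 1 (δ i), Finset.prod_pos fun i _ => lt_min one_pos (h i), fun i => ?_⟩
  rw [← Finset.mul_prod_erase Finset.univ _ (Finset.mem_univ i)]
  refine (mul_le_of_le_one_right (le_min zero_le_one (h i).le) ?_).trans (min_le_right _ _)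
  exact Finset.prod_le_one (fun i _ => le_min zero_le_one (h i).le) fun i _ => min_le_left _ _

variable {k F A E ι : Type} [Field k] [NormedField F] [Algebra k F]
  [Ring A] [StarRing A] [Algebra k A] [Ring E] [StarRing E] [TopologicalSpace E]
  [IsTopologicalRing E] [Algebra F E] [Fintype ι] [DecidableEq ι] (H : BCR k F A E ι)

theorem nhds_UA (x : UA E) {O : Set (UA E)} (hO : O ∈ 𝓝 x) : ∃ δ : ℝ, 0 < δ ∧ ∀ y : UA E,
    (∀ i, ‖H.φ (((y : Eˣ) : E) - ((x : Eˣ) : E)) i‖ < δ) → y ∈ O := by
  have hcs : ContinuousStar E := H.continuousStar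
  have h1 : IsInducing fun u : UA E => H.φ ((u : Eˣ) : E) :=
    H.φ.toHomeomorph.isInducing.comp (inducing_UA E)
  rw [h1.nhds_eq_comap, Filter.mem_comap] at hO
  obtain ⟨V, hV, hVO⟩ := hO
  obtain ⟨δ, hδ, hball⟩ := Metric.mem_nhds_iff.mp hV
  refine ⟨δ, hδ, fun y hy => hVO (hball ?_)⟩
  rw [Metric.mem_ball, dist_pi_lt_iff hδ]
  intro i
  rw [dist_eq_norm]
  have := hy i
  rwa [map_sub, Pi.sub_apply] at this

theorem box_mem (x : UA E) {δ : ℝ} (hδ : 0 < δ) :
    {y : UA E | ∀ i, ‖H.φ (((y : Eˣ) : E) - ((x : Eˣ) : E)) i‖ < δ} ∈ 𝓝 x := by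
  have hcs : ContinuousStar E := H.continuousStar
  have h1 : IsInducing fun u : UA E => H.φ ((u : Eˣ) : E) :=
    H.φ.toHomeomorph.isInducing.comp (inducing_UA E)
  rw [h1.nhds_eq_comap, Filter.mem_comap]
  refine ⟨Metric.ball (H.φ ((x : Eˣ) : E)) δ, Metric.ball_mem_nhds _ hδ, fun y hy i => ?_⟩
  rw [Set.mem_preimage, Metric.mem_ball, dist_pi_lt_iff hδ] at hy
  have := hy i
  rwa [dist_eq_norm, ← Pi.sub_apply, ← map_sub] at this

/-- The embedding of the unitary groups. -/
def jUA : UA A →* UA E where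
  toFun u := ⟨Units.map (H.j : A →* E) (u : Aˣ), by
    change H.j ((u : Aˣ) : A) * star (H.j ((u : Aˣ) : A)) = 1
    rw [← H.j_star, ← map_mul, ua_mul_star, map_one]⟩
  map_one' := Subtype.ext (map_one _)
  map_mul' u w := Subtype.ext (map_mul _ _ _)

theorem jUA_coe (u : UA A) : ((jUA H u : Eˣ) : E) = H.j ((u : Aˣ) : A) := rfl

end topo

section nc

/-- An invertible matrix whose commutators with the invertible matrices are scalar is scalar. -/
theorem scalar_of_comm_scalar {F : Type*} [Field F] {n : ℕ} (hn : 3 ≤ n)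
    {T : (Matrix (Fin n) (Fin n) F)ˣ}
    (h : ∀ S : (Matrix (Fin n) (Fin n) F)ˣ,
      ((⁅S, T⁆ : (Matrix (Fin n) (Fin n) F)ˣ) : Matrix (Fin n) (Fin n) F) ∈
        Set.range (Matrix.scalar (Fin n))) :
    (T : Matrix (Fin n) (Fin n) F) ∈ Set.range (Matrix.scalar (Fin n)) := by
  rw [mem_range_scalar_iff_commute_single]
  intro i j hij
  -- the transvection
  have hsq : (single i j (1 : F)) * single i j 1 = 0 := by
    rw [single_mul_single_of_ne]
    exact hij.symm
  let S : (Matrix (Fin n) (Fin n) F)ˣ :=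
    ⟨1 + single i j 1, 1 - single i j 1, by
      rw [mul_sub, add_mul, add_mul, hsq]
      simp, by
      rw [sub_mul, mul_add, mul_add, hsq]
      simp⟩
  obtain ⟨c, hc⟩ := h S
  have h1 : (S : Matrix (Fin n) (Fin n) F) * T = c • ((T : Matrix (Fin n) (Fin n) F) * S) := by
    have h2 : (⁅S, T⁆ : (Matrix (Fin n) (Fin n) F)ˣ) * (T * S) = S * T := by
      rw [commutatorElement_def]
      group
    have h3 := congrArg (fun u : (Matrix (Fin n) (Fin n) F)ˣ => (u : Matrix (Fin n) (Fin n) F)) h2
    simp only [Units.val_mul] at h3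
    rw [← hc, scalar_apply, ← smul_one_eq_diagonal, smul_mul_assoc, one_mul] at h3
    exact h3.symm
  have hS : (S : Matrix (Fin n) (Fin n) F) = 1 + single i j 1 := rfl
  -- a vector killed by two functionals
  obtain ⟨x, hx0, hxj, hTx⟩ : ∃ x : Fin n → F, x ≠ 0 ∧ x j = 0 ∧
      ((T : Matrix (Fin n) (Fin n) F) *ᵥ x) j = 0 := by
    let L : (Fin n → F) →ₗ[F] F × F := (LinearMap.proj j).prod
      ((LinearMap.proj j).comp (Matrix.mulVecLin (T : Matrix (Fin n) (Fin n) F)))
    have h4 : LinearMap.ker L ≠ ⊥ := by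
      refine LinearMap.ker_ne_bot_of_finrank_lt ?_
      rw [Module.finrank_prod, Module.finrank_self, Module.finrank_fin_fun]
      omega
    obtain ⟨x, hx, hx0⟩ := Submodule.exists_mem_ne_zero_of_ne_bot h4
    rw [LinearMap.mem_ker] at hx
    exact ⟨x, hx0, congrArg Prod.fst hx, congrArg Prod.snd hx⟩
  have hEx : ∀ y : Fin n → F, y j = 0 → single i j (1 : F) *ᵥ y = 0 := by
    intro y hy
    rw [single_mulVec, hy, mul_zero]
    exact Function.update_eq_self_iff.mpr rfl
  have h5 : (T : Matrix (Fin n) (Fin n) F) *ᵥ x = c • ((T : Matrix (Fin n) (Fin n) F) *ᵥ x) := by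
    have h6 := congrArg (fun M => M *ᵥ x) h1
    simp only [hS] at h6
    rw [add_mul, one_mul, add_mulVec, ← mulVec_mulVec x (single i j 1), hEx _ hTx, add_zero,
      mul_add, mul_one, smul_mulVec, add_mulVec, ← mulVec_mulVec x (T : Matrix (Fin n) (Fin n) F),
      hEx _ hxj, mulVec_zero, add_zero] at h6
    exact h6
  have hc1 : c = 1 := by
    by_contra hne
    have h6 : (1 - c) • ((T : Matrix (Fin n) (Fin n) F) *ᵥ x) = 0 := by
      rw [sub_smul, one_smul, ← h5, sub_self]
    have h7 := (smul_eq_zero.mp h6).resolve_left (sub_ne_zero.mpr (Ne.symm hne))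
    apply hx0
    have h8 := congrArg (fun y => ((T⁻¹ : (Matrix (Fin n) (Fin n) F)ˣ) :
      Matrix (Fin n) (Fin n) F) *ᵥ y) h7
    simp only [mulVec_mulVec, mulVec_zero, Units.inv_mul, one_mulVec] at h8
    exact h8
  rw [hc1, one_smul, hS, add_mul, one_mul, mul_add, mul_one] at h1
  exact add_left_cancel h1

theorem isClosed_comm {F : Type*} [Field F] [TopologicalSpace F] [IsTopologicalRing F] [T2Space F]
    {n : ℕ} (T : (Matrix (Fin n) (Fin n) F)ˣ) (X : Matrix (Fin n) (Fin n) F) :
    IsClosed {S : (Matrix (Fin n) (Fin n) F)ˣ | Commute X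
      ((⁅S, T⁆ : (Matrix (Fin n) (Fin n) F)ˣ) : Matrix (Fin n) (Fin n) F)} := by
  have hc : Continuous fun S : (Matrix (Fin n) (Fin n) F)ˣ =>
      ((⁅S, T⁆ : (Matrix (Fin n) (Fin n) F)ˣ) : Matrix (Fin n) (Fin n) F) := by
    simp only [commutatorElement_def]
    exact Units.continuous_val.comp (((continuous_id.mul continuous_const).mul
      continuous_inv).mul continuous_const)
  exact isClosed_eq (continuous_const.mul hc) (hc.mul continuous_const)

/-- The same for the elements of a dense subgroup. -/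
theorem scalar_of_dense {F : Type*} [Field F] [TopologicalSpace F] [IsTopologicalRing F]
    [T2Space F] {n : ℕ} (hn : 3 ≤ n) {G : Type*} [Group G] (ρ : G →* (Matrix (Fin n) (Fin n) F)ˣ)
    (hd : DenseRange ρ) (u : G) (h : ∀ (a : G) (Y : Matrix (Fin n) (Fin n) F), Commute Y
      ((ρ ⁅a, u⁆ : (Matrix (Fin n) (Fin n) F)ˣ) : Matrix (Fin n) (Fin n) F)) :
    ((ρ u : (Matrix (Fin n) (Fin n) F)ˣ) : Matrix (Fin n) (Fin n) F) ∈
      Set.range (Matrix.scalar (Fin n)) := by
  refine scalar_of_comm_scalar hn fun S => ?_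
  rw [mem_range_scalar_iff_commute_single]
  intro i j _
  have h2 : closure (Set.range ρ) ⊆ {S : (Matrix (Fin n) (Fin n) F)ˣ |
      Commute (single i j 1)
      ((⁅S, ρ u⁆ : (Matrix (Fin n) (Fin n) F)ˣ) : Matrix (Fin n) (Fin n) F)} := by
    refine closure_minimal ?_ (isClosed_comm _ _)
    rintro _ ⟨a, rfl⟩
    rw [Set.mem_ofPred_eq, ← map_commutatorElement]
    exact h a _
  exact h2 (hd S)

variable {k K A : Type} [Field k] [Field K] [StarRing K] [Ring A] [StarRing A]
  [Algebra k K] [Algebra k A] [Algebra K A] [IsScalarTower k K A] [StarModule K A] {n : ℕ}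

/-- Some commutator with an element which is not central is not central. -/
theorem exists_comm_noncentral (hA : Anis k K A n) (hn : 3 ≤ n) {q : Place k}
    {φ : K →ₐ[k] q.comp} {g : A →+* Matrix (Fin n) (Fin n) q.comp}
    (hφ : ∀ c : K, g (algebraMap K A c) = algebraMap q.comp _ (φ c))
    (hspan : Submodule.span q.comp (Set.range fun x : A => (g x, (g (star x)).transpose)) = ⊤)
    {u : UA A} (hu : ∃ x : A, ((u : Aˣ) : A) * x ≠ x * ((u : Aˣ) : A)) :
    ∃ a : UA A, ∃ x : A, (((⁅a, u⁆ : UA A) : Aˣ) : A) * x ≠ x * (((⁅a, u⁆ : UA A) : Aˣ) : A) := by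
  by_contra hcon
  push Not at hcon
  have hn0 : n ≠ 0 := by omega
  have hsim := hA.simple
  have hne : Nonempty (Fin n) := ⟨⟨0, by omega⟩⟩
  have hspan1 := H565.span_fst hspan
  set ρ := H565.rhoR g (UA A) with hρ
  have hd : DenseRange ρ := H565.denseRange_FF hA hn0 hφ hspan fun _ => Iff.rfl
  have hsc : ∀ z : UA A, (∀ x : A, ((z : Aˣ) : A) * x = x * ((z : Aˣ) : A)) →
      ∀ Y : Matrix (Fin n) (Fin n) q.comp, Commute Y
        ((ρ z : (Matrix (Fin n) (Fin n) q.comp)ˣ) : Matrix (Fin n) (Fin n) q.comp) := by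
    intro z hz Y
    have hY : Y ∈ Submodule.span q.comp (Set.range g) := by
      rw [hspan1]
      exact Submodule.mem_top
    induction hY using Submodule.span_induction with
    | mem y hy =>
      obtain ⟨x, rfl⟩ := hy
      change g x * g ((z : Aˣ) : A) = g ((z : Aˣ) : A) * g x
      rw [← map_mul, ← map_mul, hz]
    | zero => exact Commute.zero_left _
    | add y y' _ _ h h' => exact h.add_left h'
    | smul c y _ h => exact h.smul_left c
  have h2 := scalar_of_dense hn ρ hd u fun a Y => hsc _ (hcon a) Y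
  obtain ⟨c, hc⟩ := h2
  obtain ⟨x, hx⟩ := hu
  apply hx
  apply RingHom.injective g
  have h3 : g ((u : Aˣ) : A) = Matrix.scalar (Fin n) c := hc.symm
  rw [map_mul, map_mul, h3]
  exact Matrix.scalar_commute _ (fun _ => Commute.all _ _) _

end nc

end Vale.Agent.P011.H698
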