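import Mathlib

/-!
# Removing places, abstractly

A group `G` dense in a finite product of topological groups, a normal subgroup `Q` which contains
the elements of `G₀` near one at all factors.  At the factors outside `S`, the normal subgroups
which contain certain elements contain all commutators.  Then `Q` contains the commutators of
elements of `G₀` which are near one at the factors in `S`.
-/

open Topology commutatorElement

set_option linter.unusedSectionVars false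

namespace Vale.Agent.P011.H698

variable {G : Type*} [Group G] {P : Type*} [Finite P] [DecidableEq P] {E : P → Type*}
  [∀ v, Group (E v)] [∀ v, TopologicalSpace (E v)] [∀ v, IsTopologicalGroup (E v)]

/-- **Removing places, abstractly.** -/
theorem rem_abs (ι : ∀ v, G →* E v) (hd : DenseRange fun (g : G) (v : P) => ι v g)
    (Q G₀ : Subgroup G) [Q.Normal] (hQ : Q ≤ G₀) {O : Set (∀ v, E v)} (hO : O ∈ 𝓝 1)
    (hOQ : ∀ g ∈ G₀, (fun v => ι v g) ∈ O → g ∈ Q) (S : Set P) {u : G} (hu : u ∈ Q)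
    (hloc : ∀ v ∉ S, ∀ M : Subgroup (E v), M.Normal → (∀ a : G, ι v ⁅a, u⁆ ∈ M) →
      ∀ a b : G, ι v ⁅a, b⁆ ∈ M) :
    ∃ W : ∀ v, Set (E v), (∀ v, W v ∈ 𝓝 1) ∧
      ∀ a ∈ G₀, ∀ b ∈ G₀, (∀ v ∈ S, ι v ⁅a, b⁆ ∈ W v) → ⁅a, b⁆ ∈ Q := by
  classical
  let j : G →* (∀ v, E v) := Pi.monoidHom ι
  have hj : ∀ g, j g = fun v => ι v g := fun _ => rfl
  set cl : Subgroup (∀ v, E v) := (Q.map j).topologicalClosure with hcl
  have hclosed : IsClosed (cl : Set (∀ v, E v)) := Subgroup.isClosed_topologicalClosure _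
  have hmem : ∀ h ∈ Q, j h ∈ cl := fun h hh =>
    Subgroup.le_topologicalClosure _ ⟨h, hh, rfl⟩
  -- the closure is normal
  have hconj1 : ∀ g : G, ∀ x ∈ cl, j g * x * (j g)⁻¹ ∈ cl := by
    intro g
    have hc : IsClosed {x : ∀ v, E v | j g * x * (j g)⁻¹ ∈ cl} :=
      hclosed.preimage (by fun_prop)
    refine fun x hx => ?_
    have h1 : (cl : Set (∀ v, E v)) ⊆ {x : ∀ v, E v | j g * x * (j g)⁻¹ ∈ cl} := by
      rw [hcl, Subgroup.topologicalClosure_coe]
      refine closure_minimal ?_ hc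
      rintro _ ⟨h, hh, rfl⟩
      rw [Set.mem_ofPred_eq, ← map_inv, ← map_mul, ← map_mul]
      exact hmem _ ((inferInstance : Q.Normal).conj_mem h hh g)
    exact h1 hx
  have hconj : ∀ p : ∀ v, E v, ∀ x ∈ cl, p * x * p⁻¹ ∈ cl := by
    intro p x hx
    have hc : IsClosed {p : ∀ v, E v | p * x * p⁻¹ ∈ cl} :=
      hclosed.preimage (by fun_prop)
    have h1 : closure (Set.range fun (g : G) (v : P) => ι v g) ⊆
        {p : ∀ v, E v | p * x * p⁻¹ ∈ cl} := by
      refine closure_minimal ?_ hc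
      rintro _ ⟨g, rfl⟩
      exact hconj1 g x hx
    exact h1 (hd p)
  have hnormal : cl.Normal := ⟨fun x hx p => hconj p x hx⟩
  -- the local subgroups
  have hM : ∀ v ∉ S, ∀ a b : G, Pi.mulSingle v (ι v ⁅a, b⁆) ∈ cl := by
    intro v hv a b
    refine hloc v hv (cl.comap (MonoidHom.mulSingle E v)) inferInstance (fun a => ?_) a b
    rw [Subgroup.mem_comap, MonoidHom.mulSingle_apply]
    have h1 : (Pi.mulSingle v (ι v ⁅a, u⁆) : ∀ v, E v) =
        (Pi.mulSingle v (ι v a) * j u * (Pi.mulSingle v (ι v a))⁻¹) * (j u)⁻¹ := by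
      funext w
      by_cases hw : w = v
      · subst hw
        rw [Pi.mulSingle_eq_same, Pi.mul_apply, Pi.mul_apply, Pi.mul_apply, Pi.inv_apply,
          Pi.inv_apply, Pi.mulSingle_eq_same, commutatorElement_def, map_mul, map_mul, map_mul,
          map_inv, map_inv]
        rfl
      · rw [Pi.mulSingle_eq_of_ne hw, Pi.mul_apply, Pi.mul_apply, Pi.mul_apply, Pi.inv_apply,
          Pi.inv_apply, Pi.mulSingle_eq_of_ne hw, inv_one, mul_one, one_mul, mul_inv_cancel]
    rw [h1]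
    exact cl.mul_mem (hconj _ _ (hmem u hu)) (cl.inv_mem (hmem u hu))
  -- the neighbourhoods
  obtain ⟨O₁, hO₁, h1O, hOO⟩ := exists_open_nhds_one_mul_subset hO
  have hO₁' : O₁ ∈ 𝓝 (1 : ∀ v, E v) := hO₁.mem_nhds h1O
  rw [nhds_pi, Filter.mem_pi] at hO₁'
  obtain ⟨I, hI, W, hW, hIW⟩ := hO₁'
  refine ⟨W, hW, fun a ha b hb hab => ?_⟩
  let y : ∀ v, E v := fun v => if v ∈ S then 1 else ι v ⁅a, b⁆
  have hy : y ∈ cl := by
    refine Subgroup.pi_mem_of_mulSingle_mem _ fun v => ?_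
    by_cases hv : v ∈ S
    · have : y v = 1 := if_pos hv
      rw [this, Pi.mulSingle_one]
      exact cl.one_mem
    · have : y v = ι v ⁅a, b⁆ := if_neg hv
      rw [this]
      exact hM v hv a b
  have hz : y⁻¹ * j ⁅a, b⁆ ∈ O₁ := by
    refine hIW fun v _ => ?_
    by_cases hv : v ∈ S
    · have : y v = 1 := if_pos hv
      rw [Pi.mul_apply, Pi.inv_apply, this, inv_one, one_mul]
      exact hab v hv
    · have : y v = ι v ⁅a, b⁆ := if_neg hv
      rw [Pi.mul_apply, Pi.inv_apply, this]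
      have h2 : j ⁅a, b⁆ v = ι v ⁅a, b⁆ := rfl
      rw [h2, inv_mul_cancel]
      exact mem_of_mem_nhds (hW v)
  obtain ⟨_, hp, h, hh, rfl⟩ : ({p : ∀ v, E v | p⁻¹ * y ∈ O₁} ∩
      (Q.map j : Set (∀ v, E v))).Nonempty := by
    have h2 : y ∈ closure (Q.map j : Set (∀ v, E v)) := by
      rw [← Subgroup.topologicalClosure_coe]
      exact hy
    refine mem_closure_iff_nhds.mp h2 _ ?_
    have hc : Continuous fun p : ∀ v, E v => p⁻¹ * y := by fun_prop
    refine hc.continuousAt.preimage_mem_nhds ?_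
    have : y⁻¹ * y = 1 := inv_mul_cancel y
    rw [this]
    exact hO₁.mem_nhds h1O
  have h3 : j (h⁻¹ * ⁅a, b⁆) ∈ O := by
    have : j (h⁻¹ * ⁅a, b⁆) = ((j h)⁻¹ * y) * (y⁻¹ * j ⁅a, b⁆) := by
      rw [map_mul, map_inv]
      group
    rw [this]
    exact hOO (Set.mul_mem_mul hp hz)
  have h4 : ⁅a, b⁆ ∈ G₀ := by
    rw [commutatorElement_def]
    exact G₀.mul_mem (G₀.mul_mem (G₀.mul_mem ha hb) (G₀.inv_mem ha)) (G₀.inv_mem hb)
  have h5 := hOQ _ (G₀.mul_mem (G₀.inv_mem (hQ hh)) h4) h3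
  have h6 := Q.mul_mem hh h5
  rwa [mul_inv_cancel_left] at h6

end Vale.Agent.P011.H698
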