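import Vale.Agent.P011.H775.Cub
import Vale.Agent.P011.H182.QWa

/-!
# The norm one torus of a cubic extension as a quadric

`h` is an element of trace zero of an algebra of degree three, `S` and `N` the other coefficients.
-/

open Module Matrix

namespace Vale.Agent.P011.H698

open Vale.Agent.P011.H775

section poly

variable {R : Type*} [CommRing R]

/-- The norm of `a + b h + c h ^ 2`. -/
def nP (S N a b c : R) : R :=
  a ^ 3 - 2 * S * c * a ^ 2 + a * (S * b ^ 2 - 3 * N * b * c + S ^ 2 * c ^ 2) + b ^ 3 * N +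
    b * c ^ 2 * N * S + c ^ 3 * N ^ 2

/-- The second coefficient of `a + b h + c h ^ 2`. -/
def qP (S N a b c : R) : R :=
  3 * a ^ 2 - 4 * S * a * c + S ^ 2 * c ^ 2 + S * b ^ 2 - 3 * N * b * c

theorem nP_sub (S N a b c x : R) :
    nP S N (a + x) b c - nP S N (a - x) b c = 2 * x * (qP S N a b c + x ^ 2) := by
  unfold nP qP
  ring

end poly

section cub

/-- The linear combination of `1`, `h` and `h ^ 2`. -/
def lam {K D : Type*} [Field K] [Ring D] [Algebra K D] (h : D) (a b c : K) : D :=
  a • (1 : D) + b • h + c • (h * h)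

variable {K D : Type} [Field K] [Ring D] [Algebra K D] (C : Cub K D) {h : D}

include C in
theorem h_cube (hT : C.T h = 0) : h * (h * h) = C.N h • (1 : D) - C.S h • h := by
  have h1 := C.cayley h
  rw [hT, zero_smul, sub_zero, mul_assoc] at h1
  rw [eq_sub_iff_add_eq]
  exact sub_eq_zero.mp h1

theorem lam_mul_of {K D : Type*} [Field K] [Ring D] [Algebra K D] {h : D} {S N : K}
    (h3 : h * (h * h) = N • (1 : D) - S • h) (a b c a' b' c' : K) :
    lam h a b c * lam h a' b' c' =
      lam h (a * a' + N * (b * c' + c * b'))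
        (a * b' + b * a' - S * (b * c' + c * b') + N * c * c')
        (a * c' + b * b' + c * a' - S * c * c') := by
  have h4 : (h * h) * (h * h) = N • h - S • (h * h) := by
    have : (h * h) * (h * h) = (h * (h * h)) * h := by simp only [mul_assoc]
    rw [this, h3, sub_mul, smul_mul_assoc, smul_mul_assoc, one_mul]
  have h3' : (h * h) * h = N • (1 : D) - S • h := by rw [mul_assoc, h3]
  unfold lam
  simp only [add_mul, mul_add, smul_mul_assoc, mul_smul_comm, one_mul, mul_one, h3, h3', h4,
    smul_sub, smul_smul]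
  module

theorem lam_mul (hT : C.T h = 0) (a b c a' b' c' : K) :
    lam h a b c * lam h a' b' c' =
      lam h (a * a' + C.N h * (b * c' + c * b'))
        (a * b' + b * a' - C.S h * (b * c' + c * b') + C.N h * c * c')
        (a * c' + b * b' + c * a' - C.S h * c * c') := lam_mul_of (h_cube C hT) _ _ _ _ _ _

theorem T_sq (hT : C.T h = 0) : C.T (h * h) = -(2 * C.S h) := by
  have h1 := C.T_cr h h
  rw [C.cr_self, map_smul, smul_eq_mul, hT, zero_mul, zero_sub] at h1
  rw [← neg_eq_iff_eq_neg, ← h1]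
  rfl

theorem adj_h (hT : C.T h = 0) : C.adj h = h * h + C.S h • (1 : D) := by
  rw [C.adj_eq, hT, zero_smul, sub_zero]

/-- The norm of a linear combination. -/
theorem N_lam (hT : C.T h = 0) (a b c : K) :
    C.N (lam h a b c) = nP (C.S h) (C.N h) a b c := by
  have h3 := h_cube C hT
  have h3' : (h * h) * h = C.N h • (1 : D) - C.S h • h := by rw [mul_assoc, h3]
  have h4 : (h * h) * (h * h) = C.N h • h - C.S h • (h * h) := by
    have : (h * h) * (h * h) = (h * (h * h)) * h := by simp only [mul_assoc]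
    rw [this, h3, sub_mul, smul_mul_assoc, smul_mul_assoc, one_mul]
  have hs := T_sq C hT
  have ha := adj_h C hT
  have hTh3 : C.T (h * (h * h)) = 3 * C.N h := by
    rw [h3, map_sub, map_smul, map_smul, hT, C.T_one, smul_zero, sub_zero, smul_eq_mul, mul_comm]
  have e1 : C.N (a • (1 : D) + b • h) = a ^ 3 + a * b ^ 2 * C.S h + b ^ 3 * C.N h := by
    rw [C.N_add, C.adj_smul, C.adj_one, C.adj_smul, C.N_smul, C.N_smul, C.N_one, smul_mul_assoc,
      one_mul, smul_mul_assoc, one_mul, map_smul, map_smul, map_smul, map_smul, hT]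
    simp only [smul_eq_mul]
    change _ + _ + a * (b ^ 2 * C.S h) + _ = _
    ring
  have e2 : C.adj (a • (1 : D) + b • h) = a ^ 2 • (1 : D) + b ^ 2 • (h * h + C.S h • (1 : D)) -
      (a * b) • h := by
    rw [C.adj_add, C.adj_smul, C.adj_one, C.adj_smul, ha, C.cr_smul_left, C.cr_smul_right]
    have e3 : C.cr 1 h = -h := by
      rw [Cub.cr, one_mul, mul_one, C.T_one, hT, mul_zero, zero_smul, sub_zero, sub_zero,
        zero_smul, add_zero]
      module
    rw [e3]
    module
  have e4 : C.adj (h * h) = h * h * (h * h) + (2 * C.S h) • (h * h) + (C.S h ^ 2) • (1 : D) := by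
    rw [C.adj_mul_distrib, ha]
    simp only [add_mul, mul_add, smul_mul_assoc, mul_smul_comm, one_mul, mul_one]
    module
  unfold lam
  rw [C.N_add, e1, e2, C.adj_smul, C.N_smul, C.N_mul, e4]
  have e5 : C.T ((a ^ 2 • (1 : D) + b ^ 2 • (h * h + C.S h • (1 : D)) - (a * b) • h) *
      c • (h * h)) = -(2 * C.S h * a ^ 2 * c) - 3 * C.N h * a * b * c := by
    have e6 : (a ^ 2 • (1 : D) + b ^ 2 • (h * h + C.S h • (1 : D)) - (a * b) • h) *
      c • (h * h) = (a ^ 2 * c) • (h * h) + (b ^ 2 * c * C.N h) • h -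
        (a * b * c) • (h * (h * h)) := by
      simp only [add_mul, sub_mul, mul_add, smul_mul_assoc, mul_smul_comm, one_mul, mul_one, h4]
      module
    rw [e6, map_sub, map_add, map_smul, map_smul, map_smul, hs, hT, hTh3]
    simp only [smul_eq_mul]
    ring
  have e7 : C.T ((a • (1 : D) + b • h) * c ^ 2 • (h * h * (h * h) + (2 * C.S h) • (h * h) +
      (C.S h ^ 2) • (1 : D))) = a * c ^ 2 * C.S h ^ 2 + b * c ^ 2 * C.N h * C.S h := by
    have e8 : (a • (1 : D) + b • h) * c ^ 2 • (h * h * (h * h) + (2 * C.S h) • (h * h) +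
      (C.S h ^ 2) • (1 : D)) = (a * c ^ 2 * C.N h) • h + (a * c ^ 2 * C.S h) • (h * h) +
        (a * c ^ 2 * C.S h ^ 2) • (1 : D) + (b * c ^ 2 * C.N h) • (h * h) +
        (b * c ^ 2 * C.S h) • (h * (h * h)) + (b * c ^ 2 * C.S h ^ 2) • h := by
      simp only [add_mul, sub_mul, mul_add, smul_mul_assoc, mul_smul_comm, one_mul, mul_one, h4,
        mul_sub]
      module
    rw [e8]
    simp only [map_add, map_smul, hs, hT, hTh3, C.T_one, smul_eq_mul]
    ring
  rw [e5, e7]
  unfold nP
  ring

end cub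

end Vale.Agent.P011.H698
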