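import Vale.Agent.P011.H698.TorLoc
import Vale.Agent.P011.H929.DP
import Mathlib.RingTheory.Flat.Basic
import Mathlib.LinearAlgebra.TensorProduct.Basis

/-!
# The cubic subfields of a division algebra of degree three, and their completions
-/

open Module Matrix TensorProduct

namespace Vale.Agent.P011.H698

open Vale.Agent.P011.H775

section indep

/-- Linear independence of `1`, `h`, `h ^ 2`. -/
def Ind (K : Type*) {D : Type*} [Field K] [Ring D] [Algebra K D] (h : D) : Prop :=
  ∀ a b c : K, lam h a b c = 0 → a = 0 ∧ b = 0 ∧ c = 0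

/-- The linear map `(a, b, c) ↦ a + b h + c h ^ 2`. -/
def lamL (K : Type*) {D : Type*} [Field K] [Ring D] [Algebra K D] (h : D) :
    (Fin 3 → K) →ₗ[K] D where
  toFun x := lam h (x 0) (x 1) (x 2)
  map_add' x y := by
    simp only [lam, Pi.add_apply]
    module
  map_smul' t x := by
    simp only [lam, Pi.smul_apply, smul_eq_mul, RingHom.id_apply]
    module

theorem Ind.injective {K D : Type*} [Field K] [Ring D] [Algebra K D] {h : D} (hi : Ind K h) :
    Function.Injective (lamL K h) := by
  rw [injective_iff_map_eq_zero]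
  intro x hx
  obtain ⟨h0, h1, h2⟩ := hi _ _ _ hx
  ext i
  fin_cases i
  · exact h0
  · exact h1
  · exact h2

variable {K D : Type} [Field K] [DivisionRing D] [Algebra K D] (C : Cub K D)

include C in
theorem mem_adjoin {h : D} (hT : C.T h = 0) {y : D} (hy : y ∈ Algebra.adjoin K {h}) :
    ∃ a b c : K, y = lam h a b c := by
  induction hy using Algebra.adjoin_induction with
  | mem x hx =>
    rw [Set.mem_singleton_iff] at hx
    subst hx
    exact ⟨0, 1, 0, by simp [lam]⟩
  | algebraMap r => exact ⟨r, 0, 0, by simp [lam, Algebra.algebraMap_eq_smul_one]⟩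
  | add x y _ _ hx hy =>
    obtain ⟨a, b, c, rfl⟩ := hx
    obtain ⟨a', b', c', rfl⟩ := hy
    refine ⟨a + a', b + b', c + c', ?_⟩
    unfold lam
    module
  | mul x y _ _ hx hy =>
    obtain ⟨a, b, c, rfl⟩ := hx
    obtain ⟨a', b', c', rfl⟩ := hy
    exact ⟨_, _, _, lam_mul C hT _ _ _ _ _ _⟩

include C in
theorem ind_of [FiniteDimensional K D] [Algebra.IsCentral K D] (hdeg : finrank K D = 3 ^ 2) {h : D}
    (hT : C.T h = 0) (hh : h ∉ Set.range (algebraMap K D)) : Ind K h := by
  have h1 : finrank K (Algebra.adjoin K {h}) = 3 := by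
    refine Vale.Agent.P011.H929.finrank_eq_of_ne Nat.prime_three hdeg ?_ ?_
    · intro h1
      have : h ∈ Algebra.adjoin K {h} := Algebra.self_mem_adjoin_singleton K h
      rw [h1] at this
      exact hh (Algebra.mem_bot.mp this)
    · intro h1
      apply hh
      have h2 : h ∈ Subalgebra.center K D := by
        rw [Subalgebra.mem_center_iff]
        intro y
        have hy : y ∈ Algebra.adjoin K {h} := h1 ▸ Algebra.mem_top
        have h3 : Algebra.adjoin K {h} ≤ Subalgebra.centralizer K {h} :=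
          Algebra.adjoin_le (by
            rintro _ rfl
            rw [SetLike.mem_coe, Subalgebra.mem_centralizer_iff]
            rintro _ rfl
            rfl)
        exact ((Subalgebra.mem_centralizer_iff K).mp (h3 hy) h rfl).symm
      rw [Algebra.IsCentral.center_eq_bot] at h2
      exact Algebra.mem_bot.mp h2
  have h2 : Subalgebra.toSubmodule (Algebra.adjoin K {h}) ≤ LinearMap.range (lamL K h) := by
    intro y hy
    obtain ⟨a, b, c, rfl⟩ := mem_adjoin C hT hy
    exact ⟨![a, b, c], rfl⟩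
  have h3 : 3 ≤ finrank K (LinearMap.range (lamL K h)) := by
    have h4 := Submodule.finrank_mono h2
    have h5 : finrank K (Subalgebra.toSubmodule (Algebra.adjoin K {h})) = 3 := h1
    rwa [h5] at h4
  have h4 := LinearMap.finrank_range_add_finrank_ker (lamL K h)
  rw [Module.finrank_fin_fun] at h4
  have h4' : finrank K (LinearMap.ker (lamL K h)) = 0 := by omega
  have h5 : LinearMap.ker (lamL K h) = ⊥ := Submodule.finrank_eq_zero.mp h4'
  intro a b c habc
  have h6 : (![a, b, c] : Fin 3 → K) ∈ LinearMap.ker (lamL K h) := habc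
  rw [h5, Submodule.mem_bot] at h6
  exact ⟨congrFun h6 0, congrFun h6 1, congrFun h6 2⟩

end indep

section base

variable {K D F : Type} [Field K] [DivisionRing D] [Algebra K D] [Field F] [Algebra K F]

/-- The coordinates of the base change. -/
theorem exists_coord {h : D} (hi : Ind K h) : ∃ G : Fin 3 → (F ⊗[K] D) →ₗ[F] F,
    ∀ (a b c : F) (i : Fin 3), G i (lam ((1 : F) ⊗ₜ[K] h) a b c) = ![a, b, c] i := by
  obtain ⟨g, hg⟩ := LinearMap.exists_leftInverse_of_injective (lamL K h)
    (LinearMap.ker_eq_bot.mpr hi.injective)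
  have hg' : ∀ x : Fin 3 → K, g (lam h (x 0) (x 1) (x 2)) = x := fun x => LinearMap.congr_fun hg x
  have h0 : g 1 = ![1, 0, 0] := by
    rw [← hg' ![1, 0, 0]]
    simp [lam]
  have h1 : g h = ![0, 1, 0] := by
    rw [← hg' ![0, 1, 0]]
    simp [lam]
  have h2 : g (h * h) = ![0, 0, 1] := by
    rw [← hg' ![0, 0, 1]]
    simp [lam]
  refine ⟨fun i => (TensorProduct.AlgebraTensorModule.rid K F F).toLinearMap.comp
    (((LinearMap.proj i).comp g).baseChange F), fun a b c i => ?_⟩
  have h3 : lam ((1 : F) ⊗ₜ[K] h) a b c = a ⊗ₜ[K] (1 : D) + b ⊗ₜ[K] h + c ⊗ₜ[K] (h * h) := by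
    unfold lam
    rw [Algebra.TensorProduct.tmul_mul_tmul, Algebra.TensorProduct.one_def, mul_one]
    simp only [TensorProduct.smul_tmul', smul_eq_mul, mul_one]
  rw [h3]
  simp only [LinearMap.comp_apply, map_add, LinearMap.baseChange_tmul, LinearMap.proj_apply,
    LinearEquiv.coe_coe, TensorProduct.AlgebraTensorModule.rid_tmul, h0, h1, h2]
  fin_cases i <;> simp

theorem ind_base {h : D} (hi : Ind K h) : Ind F ((1 : F) ⊗ₜ[K] h) := by
  obtain ⟨G, hG⟩ := exists_coord (F := F) hi
  intro a b c habc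
  have h1 : ∀ i, ![a, b, c] i = 0 := fun i => by rw [← hG a b c i, habc, map_zero]
  exact ⟨h1 0, h1 1, h1 2⟩

theorem cube_base {h : D} {S N : K} (h3 : h * (h * h) = N • (1 : D) - S • h) :
    ((1 : F) ⊗ₜ[K] h) * (((1 : F) ⊗ₜ[K] h) * ((1 : F) ⊗ₜ[K] h)) =
      algebraMap K F N • (1 : F ⊗[K] D) - algebraMap K F S • ((1 : F) ⊗ₜ[K] h) := by
  rw [Algebra.TensorProduct.tmul_mul_tmul, Algebra.TensorProduct.tmul_mul_tmul, h3,
    Algebra.TensorProduct.one_def, mul_one, mul_one, TensorProduct.tmul_sub,
    TensorProduct.tmul_smul, TensorProduct.tmul_smul, algebraMap_smul, algebraMap_smul]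

end base

section comp

variable {R : Type*} [CommRing R]

/-- The companion matrix of `X ^ 3 + S X - N`. -/
def cM (S N : R) : Matrix (Fin 3) (Fin 3) R := !![0, 0, N; 1, 0, -S; 0, 1, 0]

theorem cM_trace (S N : R) : (cM S N).trace = 0 := by
  simp [cM, Matrix.trace_fin_three]

theorem cM_det (S N : R) : (cM S N).det = N := by
  simp [cM, Matrix.det_fin_three]

theorem cM_adj (S N : R) : (cM S N).adjugate.trace = S := by
  simp [cM, Matrix.adjugate_fin_three, Matrix.trace_fin_three]

theorem lam_cM {F : Type} [Field F] (S N a b c : F) (i : Fin 3) :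
    lam (cM S N) a b c i 0 = ![a, b, c] i := by
  fin_cases i <;>
    simp [lam, cM]

variable {K D F : Type} [Field K] [DivisionRing D] [Algebra K D] [Field F] [Algebra K F]

/-- **The completion of the cubic field is a field.** -/
theorem det_ne_zero {h : D} (hi : Ind K h) {S N : K} (h3 : h * (h * h) = N • (1 : D) - S • h)
    (hdiv : ∀ x : F ⊗[K] D, x ≠ 0 → IsUnit x) (x : Matrix (Fin 3) (Fin 3) F)
    (hx : IsE (cM (algebraMap K F S) (algebraMap K F N)) x) (hx0 : x ≠ 0) : x.det ≠ 0 := by
  set S' := algebraMap K F S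
  set N' := algebraMap K F N
  set M := cM S' N' with hM
  have hMT : M.trace = 0 := cM_trace _ _
  obtain ⟨a, b, c, rfl⟩ := hx
  intro hdet
  obtain ⟨u, hu0, hu⟩ := Matrix.exists_mulVec_eq_zero_iff.mpr hdet
  apply hu0
  -- the product in the completion of the division algebra
  have hind := ind_base (F := F) hi
  have hcube := cube_base (F := F) h3
  have hcM : M * (M * M) = N' • (1 : Matrix (Fin 3) (Fin 3) F) - S' • M := by
    have := h_cube (cubM F) (h := M) hMT
    have h5 : (cubM F).N M = N' := cM_det _ _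
    have h6 : (cubM F).S M = S' := cM_adj _ _
    rwa [h5, h6] at this
  have hz : lam ((1 : F) ⊗ₜ[K] h) a b c ≠ 0 := by
    intro h0
    obtain ⟨ha, hb, hc⟩ := hind _ _ _ h0
    apply hx0
    rw [ha, hb, hc]
    simp [lam]
  have hprod : lam M a b c * lam M (u 0) (u 1) (u 2) = 0 := by
    rw [lam_mul_of hcM]
    have h7 : ∀ i, (lam M a b c * lam M (u 0) (u 1) (u 2)) i 0 = 0 := by
      intro i
      have h8 := congrFun hu i
      rw [Matrix.mul_apply]
      simp only [Matrix.mulVec, dotProduct, Pi.zero_apply] at h8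
      rw [← h8]
      refine Finset.sum_congr rfl fun j _ => ?_
      rw [hM, lam_cM]
      congr 1
      fin_cases j <;> rfl
    rw [lam_mul_of hcM] at h7
    simp only [hM, lam_cM] at h7
    have h70 := h7 0
    have h71 := h7 1
    have h72 := h7 2
    simp only [Matrix.cons_val_zero, Matrix.cons_val_one, Matrix.cons_val] at h70 h71 h72
    rw [h70, h71, h72]
    simp [lam]
  have hprod' : lam ((1 : F) ⊗ₜ[K] h) a b c * lam ((1 : F) ⊗ₜ[K] h) (u 0) (u 1) (u 2) = 0 := by
    rw [lam_mul_of hcM] at hprod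
    rw [lam_mul_of hcube]
    have h7 : ∀ i, (0 : Matrix (Fin 3) (Fin 3) F) i 0 = 0 := fun i => rfl
    rw [← hprod] at h7
    simp only [hM, lam_cM] at h7
    have h70 := h7 0
    have h71 := h7 1
    have h72 := h7 2
    simp only [Matrix.cons_val_zero, Matrix.cons_val_one, Matrix.cons_val] at h70 h71 h72
    rw [h70, h71, h72]
    simp [lam]
  have h9 : lam ((1 : F) ⊗ₜ[K] h) (u 0) (u 1) (u 2) = 0 :=
    (hdiv _ hz).mul_right_eq_zero.mp hprod'
  obtain ⟨h0, h1, h2⟩ := hind _ _ _ h9
  ext i
  fin_cases i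
  · exact h0
  · exact h1
  · exact h2

end comp

end Vale.Agent.P011.H698
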