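import Vale.Agent.P011.H698.TorAlg

/-!
# Local points of the quadric of the norm one torus
-/

open Module Matrix

namespace Vale.Agent.P011.H698

open Vale.Agent.P011.H775 Vale.Agent.P011.H182.QW

section mat

variable {F : Type} [Field F]

/-- The matrices of size three as an algebra of degree three. -/
noncomputable def cubM (F : Type) [Field F] : Cub F (Matrix (Fin 3) (Fin 3) F) where
  T := Matrix.traceLinearMap (Fin 3) F F
  N := Matrix.det
  adj := Matrix.adjugate
  spl := ⟨F, inferInstance, inferInstance, AlgHom.id F _, fun _ _ h => h, fun _ => rfl,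
    fun _ => rfl, fun _ => rfl⟩

/-- The quadratic form. -/
noncomputable def Q4 {R : Type*} [CommRing R] (S N d : R) : QuadraticForm R (Fin 4 → R) :=
  (3 : R) • QuadraticMap.proj 0 0 - (4 * S) • QuadraticMap.proj 0 2 +
    (S ^ 2) • QuadraticMap.proj 2 2 + S • QuadraticMap.proj 1 1 -
    (3 * N) • QuadraticMap.proj 1 2 + d • QuadraticMap.proj 3 3

theorem Q4_apply {R : Type*} [CommRing R] (S N d : R) (x : Fin 4 → R) :
    Q4 S N d x = qP S N (x 0) (x 1) (x 2) + d * x 3 ^ 2 := by
  unfold Q4 qP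
  simp only [_root_.add_apply, _root_.sub_apply, _root_.smul_apply,
    QuadraticMap.proj_apply, smul_eq_mul]
  ring

variable {M : Matrix (Fin 3) (Fin 3) F}

/-- The cubic algebra generated by `M`. -/
def IsE (M : Matrix (Fin 3) (Fin 3) F) (x : Matrix (Fin 3) (Fin 3) F) : Prop :=
  ∃ a b c : F, x = lam M a b c

variable (hT : M.trace = 0) (hfield : ∀ x, IsE M x → x ≠ 0 → x.det ≠ 0)

include hT in
theorem isE_mul {x y : Matrix (Fin 3) (Fin 3) F} (hx : IsE M x) (hy : IsE M y) :
    IsE M (x * y) ∧ x * y = y * x := by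
  obtain ⟨a, b, c, rfl⟩ := hx
  obtain ⟨a', b', c', rfl⟩ := hy
  refine ⟨⟨_, _, _, lam_mul (cubM F) hT _ _ _ _ _ _⟩, ?_⟩
  rw [lam_mul (cubM F) hT, lam_mul (cubM F) hT]
  congr 1 <;> ring

theorem isE_one : IsE M 1 := ⟨1, 0, 0, by simp [lam]⟩

theorem isE_add {x y : Matrix (Fin 3) (Fin 3) F} (hx : IsE M x) (hy : IsE M y) :
    IsE M (x + y) := by
  obtain ⟨a, b, c, rfl⟩ := hx
  obtain ⟨a', b', c', rfl⟩ := hy
  refine ⟨a + a', b + b', c + c', ?_⟩
  unfold lam
  module

theorem isE_smul (t : F) {x : Matrix (Fin 3) (Fin 3) F} (hx : IsE M x) : IsE M (t • x) := by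
  obtain ⟨a, b, c, rfl⟩ := hx
  refine ⟨t * a, t * b, t * c, ?_⟩
  unfold lam
  module

theorem isE_sub {x y : Matrix (Fin 3) (Fin 3) F} (hx : IsE M x) (hy : IsE M y) :
    IsE M (x - y) := by
  have := isE_add hx (isE_smul (-1) hy)
  rwa [neg_smul, one_smul, ← sub_eq_add_neg] at this

include hT in
theorem isE_inv {x : Matrix (Fin 3) (Fin 3) F} (hx : IsE M x) : IsE M x⁻¹ := by
  have h1 : IsE M x.adjugate := by
    have h2 : x.adjugate = x * x - x.trace • x + x.adjugate.trace • (1 : Matrix _ _ F) :=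
      mat_cayley x
    rw [h2]
    exact isE_add (isE_sub (isE_mul hT hx hx).1 (isE_smul _ hx)) (isE_smul _ isE_one)
  rw [Matrix.inv_def]
  exact isE_smul _ h1

include hT hfield in
/-- **Local points**: every element of norm one of the cubic algebra comes from a smooth point of
the quadric. -/
theorem exists_loc (h2 : (2 : F) ≠ 0) (h3 : (3 : F) ≠ 0) (hM : M ≠ 0) {s : F} (hs : s ≠ 0)
    {Y : Matrix (Fin 3) (Fin 3) F} (hY : IsE M Y) (hY1 : Y.det = 1) :
    ∃ x : Fin 4 → F, Q4 M.adjugate.trace M.det (s ^ 2) x = 0 ∧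
      (lam M (x 0) (x 1) (x 2) - (s * x 3) • (1 : Matrix (Fin 3) (Fin 3) F)).det ≠ 0 ∧
      lam M (x 0) (x 1) (x 2) + (s * x 3) • (1 : Matrix (Fin 3) (Fin 3) F) =
        Y * (lam M (x 0) (x 1) (x 2) - (s * x 3) • (1 : Matrix (Fin 3) (Fin 3) F)) ∧
      ∃ y, QuadraticMap.polar (Q4 M.adjugate.trace M.det (s ^ 2)) x y ≠ 0 := by
  set S := M.adjugate.trace with hS
  set N := M.det with hN
  have hlamM : lam M (0 : F) 1 0 = M := by simp [lam]
  have hN0 : N ≠ 0 := hfield M ⟨0, 1, 0, hlamM.symm⟩ hM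
  by_cases hY' : Y = 1
  · subst hY'
    refine ⟨![S, 0, 1, 0], ?_, ?_, ?_, ![0, 1, 0, 0], ?_⟩
    · rw [Q4_apply]
      simp [qP]
      ring
    · have h1 : lam M S 0 1 = M.adjugate := by
        have h2 : M.adjugate = M * M + S • (1 : Matrix _ _ F) := adj_h (cubM F) hT
        rw [h2]
        simp [lam]
        abel
      simp only [Matrix.cons_val_zero, Matrix.cons_val_one, Matrix.cons_val, mul_zero, zero_smul,
        sub_zero]
      rw [h1, Matrix.det_adjugate, Fintype.card_fin]
      exact pow_ne_zero _ hN0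
    · simp
    · have h1 : QuadraticMap.polar (Q4 S N (s ^ 2)) ![S, 0, 1, 0] ![0, 1, 0, 0] = -(3 * N) := by
        simp only [QuadraticMap.polar, Q4_apply]
        simp [qP]
        ring
      rw [h1]
      exact neg_ne_zero.mpr (mul_ne_zero h3 hN0)
  · have hY1E : IsE M (Y - 1) := isE_sub hY isE_one
    have hY1d : (Y - 1).det ≠ 0 := hfield _ hY1E (sub_ne_zero.mpr hY')
    have hu : IsUnit (Y - 1).det := isUnit_iff_ne_zero.mpr hY1d
    set Z : Matrix (Fin 3) (Fin 3) F := s • ((Y + 1) * (Y - 1)⁻¹) with hZ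
    have hZE : IsE M Z := isE_smul _ (isE_mul hT (isE_add hY isE_one) (isE_inv hT hY1E)).1
    have hZ1 : Z * (Y - 1) = s • (Y + 1) := by
      rw [hZ, smul_mul_assoc, mul_assoc, Matrix.nonsing_inv_mul _ hu, mul_one]
    have hc := (isE_mul hT hZE hY).2
    obtain ⟨a, b, c, habc⟩ := hZE
    have hp : Z + s • (1 : Matrix _ _ F) = Y * (Z - s • (1 : Matrix _ _ F)) := by
      have h4 : Z * Y - Z = s • Y + s • (1 : Matrix _ _ F) := by
        rw [← smul_add, ← hZ1]
        noncomm_ring
      rw [mul_sub, ← hc, mul_smul_comm, mul_one]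
      have h5 : Z * Y = Z + (s • Y + s • (1 : Matrix _ _ F)) := by rw [← h4]; abel
      rw [h5]
      abel
    have hd : (Z - s • (1 : Matrix _ _ F)).det ≠ 0 := by
      have h5 : (Z - s • (1 : Matrix _ _ F)) * (Y - 1) = (2 * s) • (1 : Matrix _ _ F) := by
        rw [sub_mul, hZ1, smul_mul_assoc, one_mul]
        module
      have h6 := congrArg Matrix.det h5
      rw [Matrix.det_mul, Matrix.det_smul, Matrix.det_one, mul_one, Fintype.card_fin] at h6
      intro h7
      rw [h7, zero_mul] at h6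
      exact pow_ne_zero 3 (mul_ne_zero h2 hs) h6.symm
    refine ⟨![a, b, c, 1], ?_, ?_, ?_, ![0, 0, 0, 1], ?_⟩
    · rw [Q4_apply]
      have h5 := congrArg Matrix.det hp
      rw [Matrix.det_mul, hY1, one_mul] at h5
      have h6 : ∀ x : F, (Z + x • (1 : Matrix _ _ F)).det = nP S N (a + x) b c := by
        intro x
        have h7 : Z + x • (1 : Matrix _ _ F) = lam M (a + x) b c := by
          rw [habc]
          unfold lam
          module
        rw [h7]
        exact N_lam (cubM F) hT _ _ _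
      have h8 : Z - s • (1 : Matrix _ _ F) = Z + (-s) • (1 : Matrix _ _ F) := by
        rw [neg_smul, sub_eq_add_neg]
      rw [h8, h6, h6, ← sub_eq_add_neg, ← sub_eq_zero, nP_sub] at h5
      have h9 := (mul_eq_zero.mp h5).resolve_left (mul_ne_zero h2 hs)
      simpa using h9
    · simp only [Matrix.cons_val_zero, Matrix.cons_val_one, Matrix.cons_val, mul_one]
      rw [← habc]
      exact hd
    · simp only [Matrix.cons_val_zero, Matrix.cons_val_one, Matrix.cons_val, mul_one]
      rw [← habc]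
      exact hp
    · have h1 : QuadraticMap.polar (Q4 S N (s ^ 2)) ![a, b, c, 1] ![0, 0, 0, 1] =
          2 * s ^ 2 := by
        simp only [QuadraticMap.polar, Q4_apply]
        simp [qP]
        ring
      rw [h1]
      exact mul_ne_zero h2 (pow_ne_zero _ hs)

end mat

end Vale.Agent.P011.H698
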