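import Vale.Agent.P011.H698.TorWA
import Mathlib.Analysis.Calculus.InverseFunctionTheorem.Deriv
import Mathlib.Analysis.Calculus.Deriv.Pow

/-!
# Moving an element of the unitary torus close to one
-/

open Module Matrix TensorProduct Topology

set_option linter.unusedSectionVars false

namespace Vale.Agent.P011.H698

open Vale.Agent.P011.H775 Vale.Agent.P011.H948

section cbrt

/-- Cube roots near one. -/
theorem exists_cbrt {F : Type} [NontriviallyNormedField F] [CompleteSpace F] (h3 : (3 : F) ≠ 0)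
    {r : ℝ} (hr : 0 < r) : ∃ δ : ℝ, 0 < δ ∧ ∀ c : F, ‖c - 1‖ < δ →
      ∃ β : F, β ^ 3 = c ∧ ‖β - 1‖ < r ∧ ‖β⁻¹ - 1‖ < r := by
  have h1 : HasStrictDerivAt (fun x : F => x ^ 3) ((3 : ℕ) * (1 : F) ^ (3 - 1)) 1 :=
    hasStrictDerivAt_pow 3 1
  have h2 : ((3 : ℕ) * (1 : F) ^ (3 - 1)) ≠ 0 := by
    simpa using h3
  have h4 := h1.map_nhds_eq h2
  have h5 : {x : F | ‖x - 1‖ < r ∧ ‖x⁻¹ - 1‖ < r} ∈ 𝓝 (1 : F) := by
    have e1 : ContinuousAt (fun x : F => ‖x - 1‖) 1 := by fun_prop
    have e2 : ContinuousAt (fun x : F => ‖x⁻¹ - 1‖) 1 :=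
      ((continuousAt_inv₀ one_ne_zero).sub continuousAt_const).norm
    refine Filter.inter_mem ?_ ?_
    · exact e1.preimage_mem_nhds (Iio_mem_nhds (by simpa using hr))
    · exact e2.preimage_mem_nhds (Iio_mem_nhds (by simpa using hr))
  have h6 : (fun x : F => x ^ 3) '' {x : F | ‖x - 1‖ < r ∧ ‖x⁻¹ - 1‖ < r} ∈ 𝓝 (1 : F) := by
    have h7 := Filter.image_mem_map (m := fun x : F => x ^ 3) h5
    rw [h4] at h7
    simpa using h7
  obtain ⟨δ, hδ, h7⟩ := Metric.mem_nhds_iff.mp h6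
  refine ⟨δ, hδ, fun c hc => ?_⟩
  obtain ⟨β, ⟨h8, h9⟩, h10⟩ := h7 (by rw [Metric.mem_ball, dist_eq_norm]; exact hc)
  exact ⟨β, h10, h8, h9⟩

end cbrt

section norm

variable {k K D : Type} [Field k] [Field K] [Ring D]
  [Algebra k K] [Algebra k D] [Algebra K D] [IsScalarTower k K D] (C : Cub K D)

theorem two_S (x : D) : 2 * C.S x = C.T x ^ 2 - C.T (x * x) := by
  have h1 := C.T_cr x x
  rw [C.cr_self, map_smul, smul_eq_mul] at h1
  rw [sq, ← h1]
  rfl

theorem three_N (x : D) :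
    3 * C.N x = C.T (x * x * x) - C.T x * C.T (x * x) + C.S x * C.T x := by
  have h1 := congrArg C.T (C.cayley x)
  rw [map_zero, map_sub, map_add, map_sub, map_smul, map_smul, map_smul, C.T_one] at h1
  simp only [smul_eq_mul] at h1
  linear_combination -h1

/-- **The reduced norm is continuous at one.** -/
theorem norm_near (h2 : (2 : k) ≠ 0) (h3 : (3 : k) ≠ 0) {F : Type} [NormedField F] [Algebra k F]
    [Algebra K F] [IsScalarTower k K F] {N : ℕ} (B : Basis (Fin N) k D) {δ : ℝ} (hδ : 0 < δ) :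
    ∃ ε : ℝ, 0 < ε ∧ ∀ u : D, (∀ i, ‖algebraMap k F (B.repr (u - 1) i)‖ < ε) →
      ‖algebraMap K F (C.N u) - 1‖ < δ := by
  have h2F : (2 : F) ≠ 0 := by
    rw [← map_ofNat (algebraMap k F) 2]
    exact (map_ne_zero _).mpr h2
  have h3F : (3 : F) ≠ 0 := by
    rw [← map_ofNat (algebraMap k F) 3]
    exact (map_ne_zero _).mpr h3
  let τ : D → F := fun x => algebraMap K F (C.T x)
  let t1 : (Fin N → F) → F := fun y => ∑ i, y i * τ (B i)
  let t2 : (Fin N → F) → F := fun y => ∑ i, ∑ j, y i * y j * τ (B i * B j)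
  let t3 : (Fin N → F) → F := fun y => ∑ i, ∑ j, ∑ l, y i * y j * y l * τ (B i * B j * B l)
  let P : (Fin N → F) → F := fun y =>
    (t3 y - t1 y * t2 y + (t1 y ^ 2 - t2 y) / 2 * t1 y) / 3
  have hP : Continuous P := by
    simp only [P, t1, t2, t3]
    fun_prop
  have hτ : ∀ (c : k) (x : D), τ (c • x) = algebraMap k F c * τ x := fun c x => by
    change algebraMap K F (C.T (c • x)) = _
    rw [← algebraMap_smul K c x, map_smul, smul_eq_mul, map_mul, ← IsScalarTower.algebraMap_apply]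
  have hτs : ∀ {J : Type} (s : Finset J) (g : J → D), τ (∑ i ∈ s, g i) = ∑ i ∈ s, τ (g i) :=
    fun s g => by
      change algebraMap K F (C.T (∑ i ∈ s, g i)) = _
      rw [map_sum, map_sum]
  have key : ∀ u : D, P (fun i => algebraMap k F (B.repr u i)) = algebraMap K F (C.N u) := by
    intro u
    have hu : u = ∑ i, B.repr u i • B i := (B.sum_repr u).symm
    have e1 : t1 (fun i => algebraMap k F (B.repr u i)) = τ u := by
      conv_rhs => rw [hu]
      rw [hτs]
      exact Finset.sum_congr rfl fun i _ => (hτ _ _).symm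
    have huu : u * u = ∑ i, ∑ j, (B.repr u i * B.repr u j) • (B i * B j) := by
      conv_lhs => rw [hu]
      rw [Finset.sum_mul_sum]
      refine Finset.sum_congr rfl fun i _ => Finset.sum_congr rfl fun j _ => ?_
      rw [smul_mul_smul_comm]
    have e2 : t2 (fun i => algebraMap k F (B.repr u i)) = τ (u * u) := by
      rw [huu, hτs]
      refine Finset.sum_congr rfl fun i _ => ?_
      rw [hτs]
      refine Finset.sum_congr rfl fun j _ => ?_
      rw [hτ, map_mul]
    have e3 : t3 (fun i => algebraMap k F (B.repr u i)) = τ (u * u * u) := by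
      have huuu : u * u * u =
          ∑ i, ∑ j, ∑ l, (B.repr u i * B.repr u j * B.repr u l) • (B i * B j * B l) := by
        conv_lhs => rw [huu, hu]
        rw [Finset.sum_mul]
        refine Finset.sum_congr rfl fun i _ => ?_
        rw [Finset.sum_mul_sum]
        refine Finset.sum_congr rfl fun j _ => Finset.sum_congr rfl fun l _ => ?_
        rw [← hu, smul_mul_smul_comm]
      rw [huuu, hτs]
      refine Finset.sum_congr rfl fun i _ => ?_
      rw [hτs]
      refine Finset.sum_congr rfl fun j _ => ?_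
      rw [hτs]
      refine Finset.sum_congr rfl fun l _ => ?_
      rw [hτ, map_mul, map_mul]
    change (t3 _ - t1 _ * t2 _ + (t1 _ ^ 2 - t2 _) / 2 * t1 _) / 3 = _
    rw [e1, e2, e3]
    have e4 := congrArg (algebraMap K F) (two_S C u)
    have e5 := congrArg (algebraMap K F) (three_N C u)
    simp only [map_mul, map_sub, map_add, map_pow, map_ofNat] at e4 e5
    change 2 * _ = τ u ^ 2 - τ (u * u) at e4
    change 3 * _ = τ (u * u * u) - τ u * τ (u * u) + algebraMap K F (C.S u) * τ u at e5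
    rw [← e4, mul_div_cancel_left₀ _ h2F, ← e5, mul_div_cancel_left₀ _ h3F]
  have h1 : P (fun i => algebraMap k F (B.repr 1 i)) = 1 := by rw [key, C.N_one, map_one]
  have h4 : ∀ᶠ y in 𝓝 (fun i => algebraMap k F (B.repr 1 i)), ‖P y - 1‖ < δ := by
    have e1 : ContinuousAt (fun y => ‖P y - 1‖) (fun i => algebraMap k F (B.repr 1 i)) :=
      (hP.sub continuous_const).norm.continuousAt
    refine e1.eventually_mem (Iio_mem_nhds ?_)
    rw [h1, sub_self, norm_zero]
    exact hδ
  obtain ⟨ε, hε, h5⟩ := Metric.eventually_nhds_iff.mp h4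
  refine ⟨ε, hε, fun u hu => ?_⟩
  rw [← key]
  refine h5 ?_
  rw [dist_pi_lt_iff hε]
  intro i
  rw [dist_eq_norm, ← map_sub, ← Finsupp.sub_apply, ← map_sub]
  exact hu i

end norm

section coord

variable {k K D : Type} [Field k] [Field K] [StarRing K] [Ring D]
  [Algebra k K] [Algebra k D] [Algebra K D] [IsScalarTower k K D]

theorem coord_bound (hfix : ∀ x : K, star x = x → x ∈ Set.range (algebraMap k K))
    {s : K} (hs : star s = -s) (hs0 : s ≠ 0) (h2 : (2 : k) ≠ 0)
    {F : Type} [NormedField F] [Algebra k F] [Algebra K F] [IsScalarTower k K F] {N : ℕ}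
    (B : Basis (Fin N) k D) (y : D) :
    ∃ C : ℝ, 0 < C ∧ ∀ (z : K) (i : Fin N), ‖algebraMap k F (B.repr (z • y) i)‖ ≤
      C * (‖algebraMap K F z‖ + ‖algebraMap K F (star z)‖) := by
  have h2F : (2 : F) ≠ 0 := by
    rw [← map_ofNat (algebraMap k F) 2]
    exact (map_ne_zero _).mpr h2
  have h2K : (2 : K) ≠ 0 := by
    rw [← map_ofNat (algebraMap k K) 2]
    exact (map_ne_zero _).mpr h2
  have hsF : algebraMap K F s ≠ 0 := (map_ne_zero _).mpr hs0
  set Y1 : ℝ := ∑ i, ‖algebraMap k F (B.repr y i)‖ with hY1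
  set Y2 : ℝ := ∑ i, ‖algebraMap k F (B.repr (s • y) i)‖ with hY2
  have hY1' : 0 ≤ Y1 := Finset.sum_nonneg fun _ _ => norm_nonneg _
  have hY2' : 0 ≤ Y2 := Finset.sum_nonneg fun _ _ => norm_nonneg _
  have h2n : 0 < ‖(2 : F)‖ := norm_pos_iff.mpr h2F
  have hsn : 0 < ‖algebraMap K F s‖ := norm_pos_iff.mpr hsF
  refine ⟨Y1 / ‖(2 : F)‖ + Y2 / (‖(2 : F)‖ * ‖algebraMap K F s‖) + 1, by positivity,
    fun z i => ?_⟩
  have hss : star (2 : K) = 2 := star_ofNat 2
  obtain ⟨p, hp⟩ := hfix ((z + star z) / 2) (by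
    rw [star_div₀, star_add, star_star, hss, add_comm])
  obtain ⟨q, hq⟩ := hfix ((z - star z) / (2 * s)) (by
    rw [star_div₀, star_sub, star_star, star_mul', hss, hs, mul_neg, div_neg, ← neg_div, neg_sub])
  have hz : z = algebraMap k K p + algebraMap k K q * s := by
    rw [hp, hq]
    field_simp
    ring
  have hzy : z • y = p • y + q • (s • y) := by
    conv_lhs => rw [hz]
    rw [add_smul, mul_smul, algebraMap_smul, algebraMap_smul]
  have hpn : ‖algebraMap k F p‖ ≤ (‖algebraMap K F z‖ + ‖algebraMap K F (star z)‖) / ‖(2 : F)‖ := by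
    rw [IsScalarTower.algebraMap_apply k K F, hp, map_div₀, map_add, map_ofNat, norm_div]
    exact div_le_div_of_nonneg_right (norm_add_le _ _) h2n.le
  have hqn : ‖algebraMap k F q‖ ≤ (‖algebraMap K F z‖ + ‖algebraMap K F (star z)‖) /
      (‖(2 : F)‖ * ‖algebraMap K F s‖) := by
    rw [IsScalarTower.algebraMap_apply k K F, hq, map_div₀, map_sub, map_mul, map_ofNat, norm_div,
      norm_mul]
    exact div_le_div_of_nonneg_right (norm_sub_le _ _) (mul_pos h2n hsn).le
  have hy1 : ‖algebraMap k F (B.repr y i)‖ ≤ Y1 :=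
    Finset.single_le_sum (f := fun i => ‖algebraMap k F (B.repr y i)‖)
      (fun _ _ => norm_nonneg _) (Finset.mem_univ i)
  have hy2 : ‖algebraMap k F (B.repr (s • y) i)‖ ≤ Y2 :=
    Finset.single_le_sum (f := fun i => ‖algebraMap k F (B.repr (s • y) i)‖)
      (fun _ _ => norm_nonneg _) (Finset.mem_univ i)
  rw [hzy, map_add, map_smul, map_smul, Finsupp.add_apply, Finsupp.smul_apply, Finsupp.smul_apply,
    smul_eq_mul, smul_eq_mul, map_add, map_mul, map_mul]
  set n : ℝ := ‖algebraMap K F z‖ + ‖algebraMap K F (star z)‖ with hn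
  have hn0 : 0 ≤ n := by positivity
  calc _ ≤ ‖algebraMap k F p * algebraMap k F (B.repr y i)‖ +
        ‖algebraMap k F q * algebraMap k F (B.repr (s • y) i)‖ := norm_add_le _ _
    _ ≤ n / ‖(2 : F)‖ * Y1 + n / (‖(2 : F)‖ * ‖algebraMap K F s‖) * Y2 := by
        rw [norm_mul, norm_mul]
        exact add_le_add (mul_le_mul hpn hy1 (norm_nonneg _) (by positivity))
          (mul_le_mul hqn hy2 (norm_nonneg _) (by positivity))
    _ ≤ n / ‖(2 : F)‖ * Y1 + n / (‖(2 : F)‖ * ‖algebraMap K F s‖) * Y2 + n := by linarith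
    _ = (Y1 / ‖(2 : F)‖ + Y2 / (‖(2 : F)‖ * ‖algebraMap K F s‖) + 1) * n := by ring

end coord

section main

variable {k K D : Type} [Field k] [Field K] [StarRing K] [DivisionRing D] [StarRing D]
  [Algebra k K] [Algebra k D] [Algebra K D] [IsScalarTower k K D] [FiniteDimensional K D]
  [Algebra.IsCentral K D] {C : Cub K D}

/-- A symmetric generator of trace zero of the cubic field of a unitary element. -/
theorem exists_sym (hC : SCub C) (hdeg : finrank K D = 3 ^ 2) {s : K} (hs : star s = -s)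
    (hs0 : s ≠ 0) (h2 : (2 : K) ≠ 0) (h3 : (3 : K) ≠ 0) {w : D} (hw : w * star w = 1)
    (hwK : w ∉ Set.range (algebraMap K D)) :
    ∃ h : D, star h = h ∧ C.T h = 0 ∧ h ∉ Set.range (algebraMap K D) ∧
      (∀ y, y * w = w * y → y * h = h * y) ∧ ∀ y, y * h = h * y → y * w = w * y := by
  have hw0 : w ≠ 0 := left_ne_zero_of_mul_eq_one hw
  have hsw : star w = w⁻¹ := eq_inv_of_mul_eq_one_right hw
  have hcs : ∀ y, y * w = w * y → y * star w = star w * y := by
    intro y hy
    rw [hsw]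
    have h1 : Commute y w := hy
    exact (h1.inv_right₀).eq
  obtain ⟨h0, hh0, hh0K, hc⟩ : ∃ h0 : D, star h0 = h0 ∧ h0 ∉ Set.range (algebraMap K D) ∧
      ∀ y, y * w = w * y → y * h0 = h0 * y := by
    by_cases h1 : w + star w ∈ Set.range (algebraMap K D)
    · refine ⟨s • (w - star w), ?_, ?_, ?_⟩
      · rw [hC.smul, star_sub, star_star, hs, neg_smul, ← smul_neg, neg_sub]
      · rintro ⟨b, hb⟩
        obtain ⟨a, ha⟩ := h1
        apply hwK
        refine ⟨(a + s⁻¹ * b) / 2, ?_⟩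
        have h4 : (2 : K) • w = algebraMap K D (a + s⁻¹ * b) := by
          rw [map_add, map_mul, ha, hb, ← Algebra.smul_def, smul_smul, inv_mul_cancel₀ hs0,
            one_smul, two_smul]
          abel
        rw [div_eq_inv_mul, map_mul, ← h4, ← Algebra.smul_def, smul_smul, inv_mul_cancel₀ h2,
          one_smul]
      · intro y hy
        rw [mul_smul_comm, smul_mul_assoc, mul_sub, sub_mul, hy, hcs y hy]
    · refine ⟨w + star w, ?_, h1, ?_⟩
      · rw [star_add, star_star, add_comm]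
      · intro y hy
        rw [mul_add, add_mul, hy, hcs y hy]
  have hh : ∀ y, y * w = w * y → y * (h0 - (C.T h0 / 3) • (1 : D)) =
      (h0 - (C.T h0 / 3) • (1 : D)) * y := by
    intro y hy
    rw [mul_sub, sub_mul, hc y hy, mul_smul_comm, smul_mul_assoc, mul_one, one_mul]
  have hhK : h0 - (C.T h0 / 3) • (1 : D) ∉ Set.range (algebraMap K D) := by
    rintro ⟨a, ha⟩
    apply hh0K
    refine ⟨a + C.T h0 / 3, ?_⟩
    rw [map_add, ha, Algebra.algebraMap_eq_smul_one]
    abel
  refine ⟨h0 - (C.T h0 / 3) • (1 : D), ?_, ?_, hhK, hh, ?_⟩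
  · have h4 : star (C.T h0) = C.T h0 := by rw [← hC.T, hh0]
    rw [star_sub, hh0, hC.smul, star_one, star_div₀, h4, star_ofNat]
  · rw [map_sub, map_smul, C.T_one, smul_eq_mul, div_mul_cancel₀ _ h3, sub_self]
  · intro y hy
    have h4 := Vale.Agent.P011.H929.centralizer_eq_adjoin Nat.prime_three hdeg hhK hwK
      (hh w rfl) hy
    have h5 : Algebra.adjoin K {w} ≤ Subalgebra.centralizer K {w} :=
      Algebra.adjoin_le (by
        rintro _ rfl
        rw [SetLike.mem_coe, Subalgebra.mem_centralizer_iff]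
        rintro _ rfl
        rfl)
    exact ((Subalgebra.mem_centralizer_iff K).mp (h5 h4) w rfl).symm

variable {ι : Type} [Finite ι] {F : ι → Type} [∀ v, NontriviallyNormedField (F v)]
  [∀ v, CompleteSpace (F v)] [∀ v, Algebra k (F v)] [∀ v, Algebra K (F v)]
  [∀ v, IsScalarTower k K (F v)] {N : ℕ}

/-- Weak approximation. -/
theorem dense_of_wa (hk : ∀ (y : ∀ v, F v) (η : ℝ), 0 < η →
      ∃ a : k, ∀ v, ‖algebraMap k (F v) a - y v‖ < η) :
    DenseRange fun (a : k) (v : ι) => algebraMap k (F v) a := by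
  intro y
  rw [mem_closure_iff_nhds]
  intro O hO
  rw [nhds_pi, Filter.mem_pi] at hO
  obtain ⟨I, -, t, ht, hO⟩ := hO
  choose r hr hrt using fun v => Metric.mem_nhds_iff.mp (ht v)
  obtain ⟨η, hη, hle⟩ : ∃ η : ℝ, 0 < η ∧ ∀ v, η ≤ r v := by
    rcases isEmpty_or_nonempty ι with hι | hι
    · exact ⟨1, one_pos, fun v => isEmptyElim v⟩
    · have := Fintype.ofFinite ι
      refine ⟨Finset.univ.inf' Finset.univ_nonempty r, ?_, fun v =>
        Finset.inf'_le _ (Finset.mem_univ v)⟩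
      rw [Finset.lt_inf'_iff]
      exact fun v _ => hr v
  obtain ⟨a, ha⟩ := hk y η hη
  refine ⟨_, hO fun v _ => hrt v ?_, ⟨a, rfl⟩⟩
  rw [Metric.mem_ball, dist_eq_norm]
  exact (ha v).trans_le (hle v)

/-- **The elements of the unitary torus are moved close to one** by elements of the norm one
torus, if their norm is the norm of an element close to one. -/
theorem s7_abs (hC : SCub C) (hdeg : finrank K D = 3 ^ 2)
    (hfix : ∀ x : K, star x = x → x ∈ Set.range (algebraMap k K))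
    (hfix' : ∀ x : k, star (algebraMap k K x) = algebraMap k K x)
    {s : K} (hs : star s = -s) (hs0 : s ≠ 0) (h2 : (2 : k) ≠ 0) (h3 : (3 : k) ≠ 0)
    (hdiv : ∀ v, ∀ x : F v ⊗[K] D, x ≠ 0 → IsUnit x)
    (hk' : ∀ (y : ∀ v, F v) (η : ℝ), 0 < η → ∃ a : k, ∀ v, ‖algebraMap k (F v) a - y v‖ < η)
    (B : Basis (Fin N) k D) {ε : ℝ} (hε : 0 < ε) :
    ∃ δ : ℝ, 0 < δ ∧ ∀ u w e : D, (∀ v i, ‖algebraMap k (F v) (B.repr (u - 1) i)‖ < δ) →
      w * star w = 1 → w ∉ Set.range (algebraMap K D) → e * star e = 1 → e * w = w * e →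
      C.N e = C.N u → ∃ t : D, t * star t = 1 ∧ C.N t = 1 ∧ (∀ y, y * w = w * y → y * t = t * y) ∧
        ∀ v i, ‖algebraMap k (F v) (B.repr (e * t - 1) i)‖ < ε := by
  classical
  have hk := dense_of_wa hk'
  rcases isEmpty_or_nonempty ι with hι | hι
  · refine ⟨1, one_pos, fun u w e _ _ _ _ _ _ => ⟨1, ?_, C.N_one, fun y _ => ?_, fun v => ?_⟩⟩
    · rw [star_one, mul_one]
    · rw [mul_one, one_mul]
    · exact isEmptyElim v
  have h2F : ∀ v, (2 : F v) ≠ 0 := fun v => by
    rw [← map_ofNat (algebraMap k (F v)) 2]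
    exact (map_ne_zero _).mpr h2
  have h3F : ∀ v, (3 : F v) ≠ 0 := fun v => by
    rw [← map_ofNat (algebraMap k (F v)) 3]
    exact (map_ne_zero _).mpr h3
  have h2K : (2 : K) ≠ 0 := by
    rw [← map_ofNat (algebraMap k K) 2]
    exact (map_ne_zero _).mpr h2
  have h3K : (3 : K) ≠ 0 := by
    rw [← map_ofNat (algebraMap k K) 3]
    exact (map_ne_zero _).mpr h3
  choose C1 hC1 hC1' using fun v => coord_bound (F := F v) hfix hs hs0 h2 B (1 : D)
  have hr : ∀ v, 0 < ε / (8 * C1 v) := fun v => div_pos hε (mul_pos (by norm_num) (hC1 v))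
  choose δ1 hδ1 hcb using fun v => exists_cbrt (h3F v) (hr v)
  choose δ2 hδ2 hnn using fun v => norm_near C h2 h3 (F := F v) B (hδ1 v)
  obtain ⟨δ, hδ, hδle⟩ : ∃ δ : ℝ, 0 < δ ∧ ∀ v, δ ≤ δ2 v := by
    have := Fintype.ofFinite ι
    refine ⟨Finset.univ.inf' Finset.univ_nonempty δ2, ?_, fun v =>
      Finset.inf'_le _ (Finset.mem_univ v)⟩
    rw [Finset.lt_inf'_iff]
    exact fun v _ => hδ2 v
  refine ⟨δ, hδ, fun u w e hu hw hwK heu hew hN => ?_⟩
  obtain ⟨h, hh, hT, hhK, hwh, hhw⟩ := exists_sym hC hdeg hs hs0 h2K h3K hw hwK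
  have hb : ∀ v, ∃ β : F v, β ^ 3 = algebraMap K (F v) (C.N e) ∧ ‖β - 1‖ < ε / (8 * C1 v) ∧
      ‖β⁻¹ - 1‖ < ε / (8 * C1 v) := fun v => by
    rw [hN]
    exact hcb v _ (hnn v u fun i => (hu v i).trans_le (hδle v))
  choose β hβ hβ1 hβ2 using hb
  have hind : Ind K h := ind_of C hdeg hT hhK
  obtain ⟨g, hg⟩ := LinearMap.exists_leftInverse_of_injective (lamL K h)
    (LinearMap.ker_eq_bot.mpr hind.injective)
  choose Ch hCh hCh' using fun v => coord_bound (F := F v) hfix hs hs0 h2 B h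
  choose Cs hCs hCs' using fun v => coord_bound (F := F v) hfix hs hs0 h2 B (h * h)
  let r : ι → ℝ := fun v => min (ε / (8 * C1 v)) (ε / (8 * (Ch v + Cs v)))
  have hrp : ∀ v, 0 < r v := fun v => lt_min (hr v)
    (div_pos hε (mul_pos (by norm_num) (add_pos (hCh v) (hCs v))))
  let W0 : ∀ v, F v → Set (Matrix (Fin 3) (Fin 3) (F v)) := fun v b =>
    {X | ‖X 0 0 - b‖ < r v ∧ ‖X 1 0‖ < r v ∧ ‖X 2 0‖ < r v}
  have hW0 : ∀ v b, W0 v b ∈ 𝓝 (b • (1 : Matrix (Fin 3) (Fin 3) (F v))) := fun v b => by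
    have hc : ∀ i j, Continuous fun X : Matrix (Fin 3) (Fin 3) (F v) => X i j := fun i j =>
      continuous_id.matrix_elem i j
    refine Filter.inter_mem ?_ (Filter.inter_mem ?_ ?_)
    · exact ((hc 0 0).sub continuous_const).norm.continuousAt.preimage_mem_nhds
        (Iio_mem_nhds (by simpa using hrp v))
    · exact (hc 1 0).norm.continuousAt.preimage_mem_nhds (Iio_mem_nhds (by simpa using hrp v))
    · exact (hc 2 0).norm.continuousAt.preimage_mem_nhds (Iio_mem_nhds (by simpa using hrp v))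
  have hβ0 : ∀ v, β v ≠ 0 := fun v h0 => by
    have h4 := hβ v
    rw [h0, zero_pow three_ne_zero] at h4
    have h5 : C.N e * C.N (star e) = 1 := by rw [← C.N_mul, heu, C.N_one]
    have h6 : C.N e ≠ 0 := left_ne_zero_of_mul_eq_one h5
    exact h6 ((map_eq_zero _).mp h4.symm)
  have hWinv : ∀ v, {X : Matrix (Fin 3) (Fin 3) (F v) | X⁻¹ ∈ W0 v (β v)⁻¹} ∈
      𝓝 (β v • (1 : Matrix (Fin 3) (Fin 3) (F v))) := fun v => by
    have hdet : (β v • (1 : Matrix (Fin 3) (Fin 3) (F v))).det ≠ 0 := by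
      rw [Matrix.det_smul, Matrix.det_one, mul_one]
      exact pow_ne_zero _ (hβ0 v)
    have h1 : ContinuousAt (fun X : Matrix (Fin 3) (Fin 3) (F v) => X.det⁻¹ • X.adjugate)
        (β v • (1 : Matrix (Fin 3) (Fin 3) (F v))) :=
      (continuous_id.matrix_det.continuousAt.inv₀ hdet).smul
        continuous_id.matrix_adjugate.continuousAt
    have h4 : ContinuousAt (fun X : Matrix (Fin 3) (Fin 3) (F v) => X⁻¹)
        (β v • (1 : Matrix (Fin 3) (Fin 3) (F v))) := by
      refine h1.congr (Filter.Eventually.of_forall fun y => ?_)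
      change _ = y⁻¹
      rw [Matrix.inv_def, Ring.inverse_eq_inv']
    refine h4.preimage_mem_nhds ?_
    have h5 : (β v • (1 : Matrix (Fin 3) (Fin 3) (F v)))⁻¹ =
        (β v)⁻¹ • (1 : Matrix (Fin 3) (Fin 3) (F v)) := by
      refine Matrix.inv_eq_right_inv ?_
      rw [smul_mul_smul_comm, mul_inv_cancel₀ (hβ0 v), one_smul, one_mul]
    rw [h5]
    exact hW0 v _
  obtain ⟨t, ht1, ht2, ht3, ht4⟩ := tor_wa hC hdeg hfix hfix' hs hs0 h2 h3 hdiv hk hT hh hhK hg
    (hwh e hew) heu β hβ (fun v => W0 v (β v) ∩ {X | X⁻¹ ∈ W0 v (β v)⁻¹})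
    fun v => Filter.inter_mem (hW0 v _) (hWinv v)
  have htE : InE K h t := InE.inv C hdeg hT hhK ht3
  have heE : InE K h e := InE.inv C hdeg hT hhK (hwh e hew)
  refine ⟨t, ht1, ht2, fun y hy => (htE.comm' (hwh y hy)).symm, fun v i => ?_⟩
  have hxE : InE K h (e * t) := heE.mul C hT htE
  obtain ⟨a, b, c, hx⟩ := hxE
  have hxu : e * t * star (e * t) = 1 := by
    rw [star_mul, mul_assoc, ← mul_assoc t, ht1, one_mul, heu]
  obtain ⟨h4, h5⟩ := ht4 v
  have hρ : rho C h g (F v) (e * t) = lam (cM (algebraMap K (F v) (C.S h))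
      (algebraMap K (F v) (C.N h))) (algebraMap K (F v) a) (algebraMap K (F v) b)
      (algebraMap K (F v) c) := by rw [hx, rho_lam C hg]
  have hρs : (rho C h g (F v) (e * t))⁻¹ = lam (cM (algebraMap K (F v) (C.S h))
      (algebraMap K (F v) (C.N h))) (algebraMap K (F v) (star a)) (algebraMap K (F v) (star b))
      (algebraMap K (F v) (star c)) := by
    have h6 : rho C h g (F v) (star (e * t)) = lam (cM (algebraMap K (F v) (C.S h))
      (algebraMap K (F v) (C.N h))) (algebraMap K (F v) (star a)) (algebraMap K (F v) (star b))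
      (algebraMap K (F v) (star c)) := by rw [hx, star_lam hC hh, rho_lam C hg]
    rw [← h6]
    refine Matrix.inv_eq_right_inv ?_
    rw [← rho_mul C hT hg ⟨a, b, c, hx⟩ (InE.star hC hh ⟨a, b, c, hx⟩), hxu, rho_one C hg]
  rw [hρ] at h4
  rw [Set.mem_ofPred_eq, hρs] at h5
  obtain ⟨p1, p2, p3⟩ := h4
  obtain ⟨q1, q2, q3⟩ := h5
  rw [lam_cM] at p1 p2 p3 q1 q2 q3
  simp only [Matrix.cons_val_zero, Matrix.cons_val_one, Matrix.cons_val] at p1 p2 p3 q1 q2 q3
  have hdec : e * t - 1 = (a - 1) • (1 : D) + b • h + c • (h * h) := by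
    rw [hx]
    unfold lam
    module
  have hr1 : r v ≤ ε / (8 * C1 v) := min_le_left _ _
  have hr2 : r v ≤ ε / (8 * (Ch v + Cs v)) := min_le_right _ _
  have n1 : ‖algebraMap K (F v) (a - 1)‖ < ε / (4 * C1 v) := by
    rw [map_sub, map_one]
    have h6 : algebraMap K (F v) a - 1 = (algebraMap K (F v) a - β v) + (β v - 1) := by ring
    rw [h6]
    have h7 : ε / (4 * C1 v) = ε / (8 * C1 v) + ε / (8 * C1 v) := by
      have := (hC1 v).ne'
      field_simp
      norm_num
    rw [h7]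
    exact (norm_add_le _ _).trans_lt (add_lt_add (p1.trans_le hr1) (hβ1 v))
  have n2 : ‖algebraMap K (F v) (star (a - 1))‖ < ε / (4 * C1 v) := by
    rw [star_sub, star_one, map_sub, map_one]
    have h6 : algebraMap K (F v) (star a) - 1 =
      (algebraMap K (F v) (star a) - (β v)⁻¹) + ((β v)⁻¹ - 1) := by ring
    rw [h6]
    have h7 : ε / (4 * C1 v) = ε / (8 * C1 v) + ε / (8 * C1 v) := by
      have := (hC1 v).ne'
      field_simp
      norm_num
    rw [h7]
    exact (norm_add_le _ _).trans_lt (add_lt_add (q1.trans_le hr1) (hβ2 v))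
  rw [hdec, map_add, map_add, Finsupp.add_apply, Finsupp.add_apply, map_add, map_add]
  have b1 := hC1' v (a - 1) i
  have b2 := hCh' v b i
  have b3 := hCs' v c i
  have e1 : C1 v * (‖algebraMap K (F v) (a - 1)‖ + ‖algebraMap K (F v) (star (a - 1))‖) <
      ε / 2 := by
    calc _ < C1 v * (ε / (4 * C1 v) + ε / (4 * C1 v)) :=
          mul_lt_mul_of_pos_left (add_lt_add n1 n2) (hC1 v)
      _ = ε / 2 := by
          have := (hC1 v).ne'
          field_simp
          norm_num
  have e2 : Ch v * (‖algebraMap K (F v) b‖ + ‖algebraMap K (F v) (star b)‖) ≤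
      Ch v * (2 * r v) :=
    mul_le_mul_of_nonneg_left (by linarith) (hCh v).le
  have e3 : Cs v * (‖algebraMap K (F v) c‖ + ‖algebraMap K (F v) (star c)‖) ≤
      Cs v * (2 * r v) :=
    mul_le_mul_of_nonneg_left (by linarith) (hCs v).le
  have e4 : (Ch v + Cs v) * (2 * r v) ≤ ε / 4 := by
    calc _ ≤ (Ch v + Cs v) * (2 * (ε / (8 * (Ch v + Cs v)))) :=
          mul_le_mul_of_nonneg_left (by linarith) (add_pos (hCh v) (hCs v)).le
      _ = ε / 4 := by
          have := (add_pos (hCh v) (hCs v)).ne'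
          field_simp
          norm_num
  have t1 := norm_add_le (algebraMap k (F v) (B.repr ((a - 1) • (1 : D)) i) +
    algebraMap k (F v) (B.repr (b • h) i)) (algebraMap k (F v) (B.repr (c • (h * h)) i))
  have t2 := norm_add_le (algebraMap k (F v) (B.repr ((a - 1) • (1 : D)) i))
    (algebraMap k (F v) (B.repr (b • h) i))
  nlinarith

end main

end Vale.Agent.P011.H698
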