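import Vale.Agent.P011.H698.TorEmb
import Vale.Agent.P011.H948.ChartC
import Mathlib.Topology.Instances.Matrix
import Mathlib.Analysis.Normed.Field.Lemmas

/-!
# Weak approximation for the norm one unitary torus of a cubic extension
-/

open Module Matrix TensorProduct Topology

set_option linter.unusedSectionVars false

namespace Vale.Agent.P011.H698

open Vale.Agent.P011.H775 Vale.Agent.P011.H948

section rho

variable {K D : Type} [Field K] [DivisionRing D] [Algebra K D] (C : Cub K D) {h : D}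
  {g : D →ₗ[K] (Fin 3 → K)} {F : Type} [Field F] [Algebra K F]

/-- The map of the cubic field to the matrices over the completion. -/
def rho (C : Cub K D) (h : D) (g : D →ₗ[K] (Fin 3 → K)) (F : Type) [Field F] [Algebra K F]
    (x : D) : Matrix (Fin 3) (Fin 3) F :=
  lam (cM (algebraMap K F (C.S h)) (algebraMap K F (C.N h))) (algebraMap K F (g x 0))
    (algebraMap K F (g x 1)) (algebraMap K F (g x 2))

/-- The cubic field. -/
def InE (K : Type) {D : Type} [Field K] [DivisionRing D] [Algebra K D] (h x : D) : Prop :=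
  ∃ a b c : K, x = lam h a b c

variable (hT : C.T h = 0) (hg : g.comp (lamL K h) = LinearMap.id)

include hg in
theorem g_lam (a b c : K) : g (lam h a b c) = ![a, b, c] :=
  LinearMap.congr_fun hg ![a, b, c]

include hg in
theorem rho_lam (a b c : K) : rho C h g F (lam h a b c) =
    lam (cM (algebraMap K F (C.S h)) (algebraMap K F (C.N h))) (algebraMap K F a)
    (algebraMap K F b) (algebraMap K F c) := by
  rw [rho, g_lam hg]
  rfl

theorem isE_rho (x : D) :
    IsE (cM (algebraMap K F (C.S h)) (algebraMap K F (C.N h))) (rho C h g F x) := ⟨_, _, _, rfl⟩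

theorem hcM {F : Type} [Field F] (S N : F) :
    cM S N * (cM S N * cM S N) = N • (1 : Matrix (Fin 3) (Fin 3) F) - S • cM S N := by
  have := h_cube (cubM F) (h := cM S N) (cM_trace _ _)
  have h5 : (cubM F).N (cM S N) = N := cM_det _ _
  have h6 : (cubM F).S (cM S N) = S := cM_adj _ _
  rwa [h5, h6] at this

theorem rho_add (x y : D) : rho C h g F (x + y) = rho C h g F x + rho C h g F y := by
  unfold rho lam
  rw [map_add]
  simp only [Pi.add_apply, map_add]
  module

theorem rho_sub (x y : D) : rho C h g F (x - y) = rho C h g F x - rho C h g F y := by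
  unfold rho lam
  rw [map_sub]
  simp only [Pi.sub_apply, map_sub]
  module

theorem rho_smul (c : K) (x : D) :
    rho C h g F (c • x) = algebraMap K F c • rho C h g F x := by
  unfold rho lam
  rw [map_smul]
  simp only [Pi.smul_apply, smul_eq_mul, map_mul]
  module

include hg in
theorem rho_one : rho C h g F 1 = 1 := by
  have h1 : (1 : D) = lam h (1 : K) 0 0 := by simp [lam]
  rw [h1, rho_lam C hg]
  simp [lam]

include hT hg in
theorem rho_mul {x y : D} (hx : InE K h x) (hy : InE K h y) :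
    rho C h g F (x * y) = rho C h g F x * rho C h g F y := by
  obtain ⟨a, b, c, rfl⟩ := hx
  obtain ⟨a', b', c', rfl⟩ := hy
  rw [lam_mul C hT, rho_lam C hg, rho_lam C hg, rho_lam C hg, lam_mul_of (hcM _ _)]
  simp only [map_add, map_sub, map_mul]

include hT hg in
theorem rho_det {x : D} (hx : InE K h x) :
    (rho C h g F x).det = algebraMap K F (C.N x) := by
  obtain ⟨a, b, c, rfl⟩ := hx
  rw [rho_lam C hg, N_lam C hT]
  have h1 := N_lam (cubM F) (h := cM (algebraMap K F (C.S h)) (algebraMap K F (C.N h)))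
    (cM_trace _ _) (algebraMap K F a) (algebraMap K F b) (algebraMap K F c)
  have h5 : (cubM F).N (cM (algebraMap K F (C.S h)) (algebraMap K F (C.N h))) =
    algebraMap K F (C.N h) := cM_det _ _
  have h6 : (cubM F).S (cM (algebraMap K F (C.S h)) (algebraMap K F (C.N h))) =
    algebraMap K F (C.S h) := cM_adj _ _
  rw [h5, h6] at h1
  refine h1.trans ?_
  unfold nP
  simp only [map_add, map_sub, map_mul, map_pow, map_ofNat]

theorem InE.add {x y : D} (hx : InE K h x) (hy : InE K h y) : InE K h (x + y) := by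
  obtain ⟨a, b, c, rfl⟩ := hx
  obtain ⟨a', b', c', rfl⟩ := hy
  refine ⟨a + a', b + b', c + c', ?_⟩
  unfold lam
  module

theorem InE.smul (t : K) {x : D} (hx : InE K h x) : InE K h (t • x) := by
  obtain ⟨a, b, c, rfl⟩ := hx
  refine ⟨t * a, t * b, t * c, ?_⟩
  unfold lam
  module

theorem InE.sub {x y : D} (hx : InE K h x) (hy : InE K h y) : InE K h (x - y) := by
  have := hx.add (hy.smul (-1))
  rwa [neg_smul, one_smul, ← sub_eq_add_neg] at this

theorem inE_one : InE K h 1 := ⟨1, 0, 0, by simp [lam]⟩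

include hT in
theorem InE.mul {x y : D} (hx : InE K h x) (hy : InE K h y) : InE K h (x * y) := by
  obtain ⟨a, b, c, rfl⟩ := hx
  obtain ⟨a', b', c', rfl⟩ := hy
  exact ⟨_, _, _, lam_mul C hT _ _ _ _ _ _⟩

theorem InE.comm {x : D} (hx : InE K h x) : x * h = h * x := by
  obtain ⟨a, b, c, rfl⟩ := hx
  unfold lam
  simp only [add_mul, mul_add, smul_mul_assoc, mul_smul_comm, one_mul, mul_one, mul_assoc]

theorem InE.comm' {x y : D} (hx : InE K h x) (hy : y * h = h * y) : x * y = y * x := by
  obtain ⟨a, b, c, rfl⟩ := hx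
  unfold lam
  have h1 : h * h * y = y * (h * h) := by rw [mul_assoc, ← hy, ← mul_assoc, ← hy, mul_assoc]
  simp only [add_mul, mul_add, smul_mul_assoc, mul_smul_comm, one_mul, mul_one, hy, h1]

theorem InE.inv [FiniteDimensional K D] [Algebra.IsCentral K D] (C : Cub K D)
    (hdeg : finrank K D = 3 ^ 2) (hT : C.T h = 0) (hh : h ∉ Set.range (algebraMap K D)) {x : D}
    (hx : x * h = h * x) : InE K h x :=
  mem_adjoin C hT (Vale.Agent.P011.H929.centralizer_eq_adjoin Nat.prime_three hdeg hh hh rfl hx)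

end rho

section main

variable {k K D : Type} [Field k] [Field K] [StarRing K] [DivisionRing D] [StarRing D]
  [Algebra k K] [Algebra k D] [Algebra K D] [IsScalarTower k K D] [FiniteDimensional K D]
  [Algebra.IsCentral K D] {C : Cub K D} {h : D}

theorem star_lam (hC : SCub C) (hh : star h = h) (a b c : K) :
    star (lam h a b c) = lam h (star a) (star b) (star c) := by
  unfold lam
  simp only [star_add, hC.smul, star_one, star_mul, hh]

theorem InE.star (hC : SCub C) (hh : star h = h) {x : D} (hx : InE K h x) : InE K h (star x) := by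
  obtain ⟨a, b, c, rfl⟩ := hx
  exact ⟨_, _, _, star_lam hC hh a b c⟩

variable {ι : Type} [Finite ι] [Nonempty ι] {F : ι → Type} [∀ v, NormedField (F v)]
  [∀ v, Algebra k (F v)] [∀ v, Algebra K (F v)] [∀ v, IsScalarTower k K (F v)]

/-- **Weak approximation for the norm one torus.** -/
theorem tor_wa (hC : SCub C) (hdeg : finrank K D = 3 ^ 2)
    (hfix : ∀ x : K, star x = x → x ∈ Set.range (algebraMap k K))
    (hfix' : ∀ x : k, star (algebraMap k K x) = algebraMap k K x)
    {s : K} (hs : star s = -s) (hs0 : s ≠ 0) (h2 : (2 : k) ≠ 0) (h3 : (3 : k) ≠ 0)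
    (hdiv : ∀ v, ∀ x : F v ⊗[K] D, x ≠ 0 → IsUnit x)
    (hk : DenseRange fun (a : k) (v : ι) => algebraMap k (F v) a)
    (hT : C.T h = 0) (hh : star h = h) (hhK : h ∉ Set.range (algebraMap K D))
    {g : D →ₗ[K] (Fin 3 → K)} (hg : g.comp (lamL K h) = LinearMap.id)
    {e : D} (he : e * h = h * e) (heu : e * star e = 1) (β : ∀ v, F v)
    (hβ : ∀ v, β v ^ 3 = algebraMap K (F v) (C.N e))
    (W : ∀ v, Set (Matrix (Fin 3) (Fin 3) (F v)))
    (hW : ∀ v, W v ∈ 𝓝 (β v • (1 : Matrix (Fin 3) (Fin 3) (F v)))) :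
    ∃ t : D, t * star t = 1 ∧ C.N t = 1 ∧ t * h = h * t ∧
      ∀ v, rho C h g (F v) (e * t) ∈ W v := by
  have hind : Ind K h := ind_of C hdeg hT hhK
  have h2F : ∀ v, (2 : F v) ≠ 0 := fun v => by
    rw [← map_ofNat (algebraMap k (F v)) 2]
    exact (map_ne_zero _).mpr h2
  have h3F : ∀ v, (3 : F v) ≠ 0 := fun v => by
    rw [← map_ofNat (algebraMap k (F v)) 3]
    exact (map_ne_zero _).mpr h3
  have h2K : (2 : K) ≠ 0 := by
    rw [← map_ofNat (algebraMap k K) 2]
    exact (map_ne_zero _).mpr h2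
  -- the coefficients
  obtain ⟨S0, hS0⟩ := hfix (C.S h) (by rw [← hC.S, hh])
  obtain ⟨N0, hN0⟩ := hfix (C.N h) (by rw [← hC.N, hh])
  obtain ⟨d0, hd0⟩ := hfix (s ^ 2) (by rw [star_pow, hs, neg_sq])
  have hSF : ∀ v, algebraMap K (F v) (C.S h) = algebraMap k (F v) S0 := fun v => by
    rw [← hS0, ← IsScalarTower.algebraMap_apply]
  have hNF : ∀ v, algebraMap K (F v) (C.N h) = algebraMap k (F v) N0 := fun v => by
    rw [← hN0, ← IsScalarTower.algebraMap_apply]
  have hdF : ∀ v, algebraMap K (F v) s ^ 2 = algebraMap k (F v) d0 := fun v => by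
    rw [← map_pow, ← hd0, ← IsScalarTower.algebraMap_apply]
  set M : ∀ v, Matrix (Fin 3) (Fin 3) (F v) := fun v =>
    cM (algebraMap K (F v) (C.S h)) (algebraMap K (F v) (C.N h)) with hM
  have hMT : ∀ v, (M v).trace = 0 := fun v => cM_trace _ _
  have hfield : ∀ v x, IsE (M v) x → x ≠ 0 → x.det ≠ 0 := fun v x =>
    det_ne_zero hind (h_cube C hT) (hdiv v) x
  have hM0 : ∀ v, M v ≠ 0 := fun v h0 => by
    have := congrFun (congrFun h0 1) 0
    simp [hM, cM] at this
  -- the elements
  have heE : InE K h e := InE.inv C hdeg hT hhK he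
  have hesE : InE K h (star e) := heE.star hC hh
  have hrr : ∀ v, rho C h g (F v) e * rho C h g (F v) (star e) = 1 := fun v => by
    rw [← rho_mul C hT hg heE hesE, heu, rho_one C hg]
  have hY : ∀ v, IsE (M v) (β v • rho C h g (F v) (star e)) := fun v =>
    isE_smul _ (isE_rho C _)
  have hYd : ∀ v, (β v • rho C h g (F v) (star e)).det = 1 := fun v => by
    rw [Matrix.det_smul, Fintype.card_fin, hβ, rho_det C hT hg hesE, ← map_mul, ← C.N_mul, heu,
      C.N_one, map_one]
  -- the local points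
  have hloc := fun v => exists_loc (hMT v) (hfield v) (h2F v) (h3F v) (hM0 v)
    (s := algebraMap K (F v) s) ((map_ne_zero _).mpr hs0) (hY v) (hYd v)
  choose x hx1 hx2 hx3 hx4 using hloc
  have hadj : ∀ v, (M v).adjugate.trace = algebraMap k (F v) S0 := fun v => by
    rw [hM]
    exact (cM_adj _ _).trans (hSF v)
  have hdet : ∀ v, (M v).det = algebraMap k (F v) N0 := fun v => by
    rw [hM]
    exact (cM_det _ _).trans (hNF v)
  -- the neighbourhoods
  let p : ∀ v, (Fin 4 → F v) → Matrix (Fin 3) (Fin 3) (F v) := fun v x =>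
    lam (M v) (x 0) (x 1) (x 2) + (algebraMap K (F v) s * x 3) • (1 : Matrix _ _ (F v))
  let m : ∀ v, (Fin 4 → F v) → Matrix (Fin 3) (Fin 3) (F v) := fun v x =>
    lam (M v) (x 0) (x 1) (x 2) - (algebraMap K (F v) s * x 3) • (1 : Matrix _ _ (F v))
  let G : ∀ v, (Fin 4 → F v) → Matrix (Fin 3) (Fin 3) (F v) := fun v x =>
    rho C h g (F v) e * (p v x * (m v x)⁻¹)
  have hpc : ∀ v, Continuous (p v) := fun v => by
    simp only [p, lam]
    fun_prop
  have hmc : ∀ v, Continuous (m v) := fun v => by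
    simp only [m, lam]
    fun_prop
  have hGc : ∀ v, ContinuousAt (G v) (x v) := fun v => by
    refine continuousAt_const.mul ((hpc v).continuousAt.mul ?_)
    have h1 : ContinuousAt (fun y : Fin 4 → F v => ((m v y).det)⁻¹ • (m v y).adjugate) (x v) :=
      ((hmc v).matrix_det.continuousAt.inv₀ (hx2 v)).smul (hmc v).matrix_adjugate.continuousAt
    refine h1.congr (Filter.Eventually.of_forall fun y => ?_)
    change _ = (m v y)⁻¹
    rw [Matrix.inv_def, Ring.inverse_eq_inv']
  have hGx : ∀ v, G v (x v) = β v • (1 : Matrix _ _ (F v)) := fun v => by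
    change rho C h g (F v) e * (p v (x v) * (m v (x v))⁻¹) = _
    have h1 : p v (x v) = (β v • rho C h g (F v) (star e)) * m v (x v) := hx3 v
    rw [h1, mul_assoc (β v • rho C h g (F v) (star e)), Matrix.mul_nonsing_inv _
      (isUnit_iff_ne_zero.mpr (hx2 v)), mul_one, mul_smul_comm, hrr]
  let U : ∀ v, Set (Fin 4 → F v) := fun v => {y | (m v y).det ≠ 0 ∧ G v y ∈ W v}
  have hU : ∀ v, U v ∈ 𝓝 (x v) := fun v => by
    refine Filter.inter_mem ?_ ?_
    · exact (hmc v).matrix_det.continuousAt.eventually_ne (hx2 v)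
    · exact (hGc v).preimage_mem_nhds (by rw [hGx]; exact hW v)
  -- weak approximation
  obtain ⟨y, hy, hyU⟩ : ∃ y : Fin 4 → k, Q4 S0 N0 d0 y = 0 ∧
      ∀ v, (fun i => algebraMap k (F v) (y i)) ∈ U v := by
    let j : ∀ v, (Fin 4 → k) →ₛₗ[algebraMap k (F v)] (Fin 4 → F v) := fun v =>
      { toFun := fun y i => algebraMap k (F v) (y i)
        map_add' := fun y z => by
          funext i
          exact map_add _ _ _
        map_smul' := fun c y => by
          funext i
          exact map_mul _ _ _ }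
    have hQ : ∀ v (y : Fin 4 → k), Q4 (algebraMap k (F v) S0) (algebraMap k (F v) N0)
        (algebraMap k (F v) d0) (j v y) = algebraMap k (F v) (Q4 S0 N0 d0 y) := by
      intro v y
      rw [Q4_apply, Q4_apply]
      change qP _ _ (algebraMap k (F v) (y 0)) (algebraMap k (F v) (y 1))
        (algebraMap k (F v) (y 2)) + _ * (algebraMap k (F v) (y 3)) ^ 2 = _
      unfold qP
      simp only [map_add, map_sub, map_mul, map_pow, map_ofNat]
    have hN00 : N0 ≠ 0 := by
      intro h0
      have h1 : C.N h = 0 := by rw [← hN0, h0, map_zero]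
      have h4 : h ≠ 0 := fun h5 => hhK ⟨0, by rw [map_zero, h5]⟩
      have h5 := C.mul_adj h
      rw [h1, zero_smul] at h5
      have h6 := (mul_eq_zero.mp h5).resolve_left h4
      have h7 := adj_h C hT
      rw [h6] at h7
      have h8 := hind (C.S h) 0 1 (by
        unfold lam
        rw [zero_smul, one_smul, add_zero, add_comm]
        exact h7.symm)
      exact one_ne_zero h8.2.2
    have hd00 : d0 ≠ 0 := by
      rintro rfl
      rw [map_zero] at hd0
      exact pow_ne_zero 2 hs0 hd0.symm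
    refine Vale.Agent.P011.H182.QW.wa_field (Q4 S0 N0 d0) (fun v => algebraMap k (F v)) j
      (fun v => Q4 (algebraMap k (F v) S0) (algebraMap k (F v) N0) (algebraMap k (F v) d0)) hQ
      (fun v => ?_) hk ?_ (p := ![S0, 0, 1, 0]) ?_ ⟨![0, 1, 0, 0], ?_⟩ ⟨![0, 0, 0, 1], ?_, ?_⟩ x
      (fun v => ?_) (fun v => ?_) hU
    · have h1 : (fun y : Fin 4 → F v => Q4 (algebraMap k (F v) S0) (algebraMap k (F v) N0)
        (algebraMap k (F v) d0) y) = fun y => qP (algebraMap k (F v) S0) (algebraMap k (F v) N0)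
          (y 0) (y 1) (y 2) + algebraMap k (F v) d0 * y 3 ^ 2 := funext fun y => Q4_apply _ _ _ y
      change Continuous fun y : Fin 4 → F v => Q4 (algebraMap k (F v) S0) (algebraMap k (F v) N0)
        (algebraMap k (F v) d0) y
      rw [h1]
      unfold qP
      fun_prop
    · -- density
      intro z
      rw [mem_closure_iff_nhds]
      intro O hO
      rw [nhds_pi, Filter.mem_pi] at hO
      obtain ⟨I, -, t, ht, hO⟩ := hO
      have h5 : ∀ v, ∃ r : Fin 4 → Set (F v), (∀ i, r i ∈ 𝓝 (z v i)) ∧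
          Set.pi Set.univ r ⊆ t v := fun v => by
        have h6 := ht v
        rw [nhds_pi, Filter.mem_pi] at h6
        obtain ⟨I', -, r, hr, hrt⟩ := h6
        exact ⟨r, hr, fun y hy => hrt fun i _ => hy i (Set.mem_univ i)⟩
      choose r hr hrt using h5
      have h6 : ∀ i : Fin 4, ∃ a : k, ∀ v, algebraMap k (F v) a ∈ r v i := fun i => by
        obtain ⟨a, ha, b, rfl⟩ := (mem_closure_iff_nhds.1 (hk fun v => z v i))
          (Set.pi Set.univ fun v => r v i) (set_pi_mem_nhds Set.finite_univ fun v _ => hr v i)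
        exact ⟨b, fun v => ha v (Set.mem_univ v)⟩
      choose a ha using h6
      exact ⟨_, hO fun v _ => hrt v fun i _ => ha i v, ⟨a, rfl⟩⟩
    · rw [Q4_apply]
      simp [qP]
      ring
    · have h1 : QuadraticMap.polar (Q4 S0 N0 d0) ![S0, 0, 1, 0] ![0, 1, 0, 0] = -(3 * N0) := by
        simp only [QuadraticMap.polar, Q4_apply]
        simp [qP]
        ring
      rw [h1]
      exact neg_ne_zero.mpr (mul_ne_zero h3 hN00)
    · simp only [QuadraticMap.polar, Q4_apply]
      simp [qP]
    · rw [Q4_apply]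
      simpa [qP] using hd00
    · have h1 := hx1 v
      rwa [hadj, hdet, hdF] at h1
    · have h1 := hx4 v
      rwa [hadj, hdet, hdF] at h1
  -- the element
  set α : D := lam h (algebraMap k K (y 0)) (algebraMap k K (y 1)) (algebraMap k K (y 2)) with hα
  set σ : K := s * algebraMap k K (y 3) with hσ
  have hαs : star α = α := by
    rw [hα, star_lam hC hh, hfix', hfix', hfix']
  have hσs : star σ = -σ := by rw [hσ, star_mul', hs, hfix', neg_mul]
  have hαE : InE K h α := ⟨_, _, _, rfl⟩
  have hpE : InE K h (α + σ • (1 : D)) := hαE.add (inE_one.smul _)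
  have hmE : InE K h (α - σ • (1 : D)) := hαE.sub (inE_one.smul _)
  have hrα : ∀ v, rho C h g (F v) α = lam (M v) (algebraMap k (F v) (y 0))
      (algebraMap k (F v) (y 1)) (algebraMap k (F v) (y 2)) := fun v => by
    rw [hα, rho_lam C hg, ← IsScalarTower.algebraMap_apply, ← IsScalarTower.algebraMap_apply,
      ← IsScalarTower.algebraMap_apply]
  have hrσ : ∀ v, algebraMap K (F v) σ = algebraMap K (F v) s * algebraMap k (F v) (y 3) :=
    fun v => by rw [hσ, map_mul, ← IsScalarTower.algebraMap_apply]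
  have hrp : ∀ v, rho C h g (F v) (α + σ • (1 : D)) = p v fun i => algebraMap k (F v) (y i) :=
    fun v => by rw [rho_add, rho_smul, rho_one C hg, hrα, hrσ]
  have hrm : ∀ v, rho C h g (F v) (α - σ • (1 : D)) = m v fun i => algebraMap k (F v) (y i) :=
    fun v => by rw [rho_sub, rho_smul, rho_one C hg, hrα, hrσ]
  obtain ⟨v0⟩ := (inferInstance : Nonempty ι)
  have hm0 : α - σ • (1 : D) ≠ 0 := by
    intro h0
    have h1 := (hyU v0).1
    rw [← hrm, h0] at h1
    apply h1
    have h4 : rho C h g (F v0) (0 : D) = 0 := by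
      have h5 := rho_smul C (g := g) (F := F v0) (h := h) (0 : K) (0 : D)
      rwa [zero_smul, map_zero, zero_smul] at h5
    rw [h4]
    simp
  have hp0 : α + σ • (1 : D) ≠ 0 := by
    intro h0
    apply hm0
    have h1 := congrArg star h0
    rw [star_add, hαs, hC.smul, hσs, star_one, star_zero, neg_smul, ← sub_eq_add_neg] at h1
    exact h1
  have hsp : star (α + σ • (1 : D)) = α - σ • (1 : D) := by
    rw [star_add, hαs, hC.smul, hσs, star_one, neg_smul, ← sub_eq_add_neg]
  have hsm : star (α - σ • (1 : D)) = α + σ • (1 : D) := by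
    rw [← hsp, star_star]
  have hiE : InE K h (α - σ • (1 : D))⁻¹ := by
    refine InE.inv C hdeg hT hhK ?_
    have h1 : Commute (α - σ • (1 : D)) h := hmE.comm
    exact h1.inv_left₀
  have hrinv : ∀ v, rho C h g (F v) (α - σ • (1 : D))⁻¹ =
      (m v fun i => algebraMap k (F v) (y i))⁻¹ := fun v => by
    refine (Matrix.inv_eq_right_inv ?_).symm
    rw [← hrm, ← rho_mul C hT hg hmE hiE, mul_inv_cancel₀ hm0, rho_one C hg]
  refine ⟨(α + σ • (1 : D)) * (α - σ • (1 : D))⁻¹, ?_, ?_, ?_, fun v => ?_⟩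
  · rw [star_mul, hsp, star_inv₀, hsm]
    have hc : Commute (α + σ • (1 : D)) (α - σ • (1 : D)) := hpE.comm' hmE.comm
    have hc1 : (α - σ • (1 : D))⁻¹ * (α + σ • (1 : D))⁻¹ =
        (α + σ • (1 : D))⁻¹ * (α - σ • (1 : D))⁻¹ := ((Commute.inv_left₀ (Commute.symm hc)).inv_right₀).eq
    calc (α + σ • (1 : D)) * (α - σ • (1 : D))⁻¹ * ((α + σ • (1 : D))⁻¹ * (α - σ • (1 : D))) =
        (α + σ • (1 : D)) * ((α - σ • (1 : D))⁻¹ * (α + σ • (1 : D))⁻¹) * (α - σ • (1 : D)) := by
          simp only [mul_assoc]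
      _ = 1 := by
          rw [hc1, ← mul_assoc, mul_inv_cancel₀ hp0, one_mul, inv_mul_cancel₀ hm0]
  · have h1 : C.N (α + σ • (1 : D)) = C.N (α - σ • (1 : D)) := by
      have h4 : ∀ c : K, α + c • (1 : D) = lam h (algebraMap k K (y 0) + c) (algebraMap k K (y 1))
          (algebraMap k K (y 2)) := fun c => by
        rw [hα]
        unfold lam
        module
      have h5 : α - σ • (1 : D) = α + (-σ) • (1 : D) := by rw [neg_smul, sub_eq_add_neg]
      rw [h5, h4, h4, N_lam C hT, N_lam C hT, ← sub_eq_add_neg, ← sub_eq_zero, nP_sub]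
      have h6 : qP (C.S h) (C.N h) (algebraMap k K (y 0)) (algebraMap k K (y 1))
          (algebraMap k K (y 2)) + σ ^ 2 = 0 := by
        have h7 := congrArg (algebraMap k K) hy
        rw [Q4_apply, map_zero] at h7
        rw [← h7, hσ, mul_pow, ← hd0, ← hS0, ← hN0]
        unfold qP
        simp only [map_add, map_sub, map_mul, map_pow, map_ofNat]
      rw [h6, mul_zero]
    have h4 : C.N ((α + σ • (1 : D)) * (α - σ • (1 : D))⁻¹) * C.N (α - σ • (1 : D)) =
        C.N (α + σ • (1 : D)) := by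
      rw [← C.N_mul, mul_assoc, inv_mul_cancel₀ hm0, mul_one]
    have h5 : C.N (α - σ • (1 : D)) ≠ 0 := by
      intro h6
      have h7 : C.N ((α - σ • (1 : D)) * (α - σ • (1 : D))⁻¹) = 0 := by
        rw [C.N_mul, h6, zero_mul]
      rw [mul_inv_cancel₀ hm0, C.N_one] at h7
      exact one_ne_zero h7
    exact mul_right_cancel₀ h5 (by rw [h4, h1, one_mul])
  · exact (hpE.mul C hT hiE).comm
  · rw [rho_mul C hT hg heE (hpE.mul C hT hiE), rho_mul C hT hg hpE hiE, hrp, hrinv]
    exact (hyU v).2

end main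

end Vale.Agent.P011.H698
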